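import Vale.Agent.P073.PL.Spec
import Vale.Agent.P073.GBM.Vert225

/-!
# P073, block SpecPlate: boundaries of faces (`SpecBdIn2`)
-/

open Set Metric Topology Filter MeasureTheory
open scoped ENNReal NNReal

namespace P073.PL.H644

open P073 P073.PR720 P073.GB73 P073.GBM P073.Gauge P073.GB1W P073.Cell P073.Plate
open Vale.Agent.P073.St (V)
open Vale.Agent.P073.AB
open Vale.Agent.P073.SQ (ev)

/-- **(BD2)** -/
theorem specBdIn2 : SpecBdIn2 := by
  intro Vx B J I e0 e1 inc qC Ω K Λ h v N k ζ q0 q1 o A μ η cu cd hN hμ j w T hj hw hsq hT t ht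
  have hP : (0:ℝ) < 2 ^ N := by positivity
  have ht' := hT ht
  have ht0 : 0 < t := by linarith [ht'.1]
  rintro _ ⟨x, hx, rfl⟩
  obtain ⟨b, hb, hxb⟩ := mem_iUnion₂.1 hx
  have hbj : K.arc b ⊆ squ v ((N, w), k) := hj ▸ K.toCx2.arc_subset_tile hb
  obtain ⟨z, l, hl, hzk, hz⟩ := hN.lat.arc b ⟨x, hxb, hsq (hbj hxb)⟩
  have hsub : edge v ((N, z), l) ⊆ Icc q0 q1 := by
    rw [← hz]
    exact (hbj.trans hsq).trans interior_subset
  have hsup := hN.sup z l hl hzk hsub x (hz ▸ hxb)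
  show h x ∈ interior ((bBody (o + A (sc v N w k)) A (fw2 N k) T).at t)
  rw [Vert225.mem_int ht0]
  intro i
  have h2 := (norm_le_pi_norm (A.symm (h x - o) - x) i).trans (hsup.trans hμ)
  rw [Real.norm_eq_abs, Pi.sub_apply, abs_le] at h2
  have hxs := mem_squ.1 (hbj hxb)
  have e : pt v N w i = v i + w i / 2 ^ N := rfl
  by_cases hi : i = k
  · subst hi
    have e2 : sc v N w i i = v i + w i / 2 ^ N := by simp [sc]
    have h3 : x i = sc v N w i i := by rw [hxs.1, e2, e]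
    have h5 : (1:ℝ) / 8 / 2 ^ N < t * fw2 N i i := by
      have e : t * fw2 N i i = t * (3 / 4) / 2 ^ N := by simp only [fw2, if_true]; ring
      rw [e, div_lt_div_iff_of_pos_right hP]
      linarith [ht'.1]
    rw [← h3, abs_lt]
    constructor <;> linarith [h2.1, h2.2]
  · have h3 : |x i - sc v N w k i| ≤ 1 / 2 / 2 ^ N := by
      have e2 : sc v N w k i = pt v N w i + 1 / 2 / 2 ^ N := by
        simp only [sc, hi, if_false]; rw [e]; ring
      have e3 : (1:ℝ) / 2 ^ N = 1 / 2 / 2 ^ N + 1 / 2 / 2 ^ N := by ring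
      have h4 := hxs.2 i hi
      rw [e2, abs_le]
      rw [e3] at h4
      constructor <;> linarith [h4.1, h4.2]
    rw [abs_le] at h3
    have h5 : (1:ℝ) / 8 / 2 ^ N + 1 / 2 / 2 ^ N < t * fw2 N k i := by
      have e : t * fw2 N k i = t * (9 / 4) / 2 ^ N := by simp only [fw2, if_neg hi]; ring
      have e2 : (1:ℝ) / 8 / 2 ^ N + 1 / 2 / 2 ^ N = (5 / 8) / 2 ^ N := by ring
      rw [e, e2, div_lt_div_iff_of_pos_right hP]
      linarith [ht'.1]
    rw [abs_lt]
    constructor <;> linarith [h2.1, h2.2, h3.1, h3.2]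

end P073.PL.H644
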