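import Vale.Agent.P073.GB932.Plate
import Vale.Agent.P073.GBM.Rho225

/-!
# P073, block PLATE: the number `ρ` of `SpecCollar2` is uniform in the scales (helper225)
-/

open Set Metric Topology Filter

namespace P073.Plate.C225

open P073 P073.GB73 P073.GB932 P073.GBM.Rho
open Vale.Agent.P073.St (V)

theorem psi_one (w s : ℝ) : psi w 1 s = s := by unfold psi; ring

/-- the normalising map -/
noncomputable def Psi2 (c : V) (N w : ℝ) (l l' : Fin 3 → ℝ) (hN : 0 < N) (hw : 4 * w ≤ 1)
    (hl : ∀ j, 0 < l j) (hl' : ∀ j, 0 < l' j) (hll : ∀ j, l' j * l j = 1) :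
    ConHomeo (univ : Set V) (univ : Set V) where
  toFun := fun x k => psi w (l k) (N * (x k - c k))
  invFun := fun y k => c k + psi w (l' k) (y k) / N
  mapsTo := fun _ _ => mem_univ _
  mapsTo_inv := fun _ _ => mem_univ _
  left_inv := fun x _ => by
    funext k
    show c k + psi w (l' k) (psi w (l k) (N * (x k - c k))) / N = x k
    rw [psi_psi hw (hl k) (hll k)]
    field_simp
    ring
  right_inv := fun y _ => by
    funext k
    show psi w (l k) (N * (c k + psi w (l' k) (y k) / N - c k)) = y k
    have : N * (c k + psi w (l' k) (y k) / N - c k) = psi w (l' k) (y k) := by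
      field_simp
      ring
    rw [this, psi_psi hw (hl' k) (by rw [mul_comm]; exact hll k)]
  cont := by
    refine Continuous.continuousOn (continuous_pi fun k => ?_)
    exact (continuous_psi w (l k)).comp (by fun_prop)
  cont_inv := by
    refine Continuous.continuousOn (continuous_pi fun k => ?_)
    exact continuous_const.add (((continuous_psi w (l' k)).comp (continuous_apply k)).div_const N)
  conical := by
    refine conicalOn_coordwise (f := fun k t => psi w (l k) (N * (t - c k))) fun k => ?_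
    have hid : ConicalOn (fun s : ℝ => s) univ := conicalOn_id (IsOpen.conicalSet isOpen_univ)
    have h1 : ConicalOn (fun t : ℝ => N * (t - c k)) univ :=
      (hid.sub (conicalOn_const (c k) (IsOpen.conicalSet isOpen_univ))).const_smul N
    exact (conicalOn_psi w (l k)).comp h1 (fun _ _ => mem_univ _) (by fun_prop)

/-- the data of the normalisation -/
structure Dat2 (k : Fin 3) (a b c : V) (N w μ d : ℝ) : Prop where
  hN : 0 < N
  hw : 0 < w
  hw8 : 8 * w ≤ 1
  hμ : 0 ≤ μ
  hμ4 : 4 * μ ≤ w
  hd : 0 < d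
  ha : ∀ j, j ≠ k → a j = c j + (w + μ) / N
  hb : ∀ j, j ≠ k → b j = c j + (1 - w - μ) / N
  hak : a k = c k - d
  hbk : b k = c k + d

/-- the slopes -/
noncomputable def sl (k : Fin 3) (l : ℝ) : Fin 3 → ℝ := fun j => if j = k then 1 else l

theorem sl_k (k : Fin 3) (l : ℝ) : sl k l k = 1 := if_pos rfl

theorem sl_ne {k j : Fin 3} (h : j ≠ k) (l : ℝ) : sl k l j = l := if_neg h

/-- transfer of the collar statement from the normalised box -/
theorem transfer2 {k : Fin 3} {a b c : V} {N w μ d : ℝ} (D : Dat2 k a b c N w μ d) {X X0 : Set V}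
    {ρ0 ρ : ℝ} (hρ : 2 * N * ρ ≤ ρ0)
    (hX : ∀ x ∈ X, (fun j => psi w (sl k (w / (w - μ)) j) (N * (x j - c j)) : V) ∈ X0)
    (hX0 : ∀ y ∈ X0, (fun j => c j + psi w (sl k ((w - μ) / w) j) (y j) / N : V) ∈ X)
    (H : Collar2 (Function.update (fun _ => w) k (0 - N * d))
      (Function.update (fun _ => 1 - w) k (0 + N * d)) k w X0 ρ0) :
    Collar2 a b k ((w - μ) / N) X ρ := by
  obtain ⟨hN, hw, hw8, hμ, hμ4, hd, ha, hb, hak, hbk⟩ := D
  have hm : 0 < w - μ := by linarith
  have hw4 : 4 * w ≤ 1 := by linarith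
  set a0 : V := Function.update (fun _ => w) k (0 - N * d) with ha0
  set b0 : V := Function.update (fun _ => 1 - w) k (0 + N * d) with hb0
  have a0k : a0 k = - (N * d) := by rw [ha0, Function.update_self]; ring
  have b0k : b0 k = N * d := by rw [hb0, Function.update_self]; ring
  have a0j : ∀ j, j ≠ k → a0 j = w := fun j hj => by rw [ha0, Function.update_of_ne hj]
  have b0j : ∀ j, j ≠ k → b0 j = 1 - w := fun j hj => by rw [hb0, Function.update_of_ne hj]
  set l : ℝ := w / (w - μ) with hl
  set l' : ℝ := (w - μ) / w with hl'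
  have hl0 : 0 < l := by positivity
  have hl'0 : 0 < l' := by positivity
  have hl1 : 1 ≤ l := by rw [hl, le_div_iff₀ hm]; linarith
  have hl2 : l ≤ 3 / 2 := by rw [hl, div_le_iff₀ hm]; linarith
  have hll : l' * l = 1 := by rw [hl, hl']; field_simp
  have hlm : l * (w - μ) = w := by rw [hl]; field_simp
  have hs0 : ∀ j, 0 < sl k l j := fun j => by unfold sl; split_ifs <;> [norm_num; exact hl0]
  have hs'0 : ∀ j, 0 < sl k l' j := fun j => by unfold sl; split_ifs <;> [norm_num; exact hl'0]
  have hsll : ∀ j, sl k l' j * sl k l j = 1 := fun j => by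
    unfold sl; split_ifs <;> [norm_num; exact hll]
  let Ψ := Psi2 c N w (sl k l) (sl k l') hN hw4 hs0 hs'0 hsll
  have hΨ : ∀ x j, j ≠ k → Ψ.toFun x j = psi w l (N * (x j - c j)) := fun x j hj => by
    show psi w (sl k l j) _ = _
    rw [sl_ne hj]
  have hΨk : ∀ x, Ψ.toFun x k = N * (x k - c k) := fun x => by
    show psi w (sl k l k) _ = _
    rw [sl_k, psi_one]
  have hmono := psi_strictMono (w := w) hl1
  have hlo : psi w l (w + μ) = w := by
    rw [psi_lo hw4 (by linarith)]
    have : l * (2 * w - (w + μ)) = l * (w - μ) := by ring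
    rw [this, hlm]; ring
  have hhi : psi w l (1 - w - μ) = 1 - w := by
    rw [psi_hi hw4 (by linarith)]
    have : l * (1 - w - μ - (1 - 2 * w)) = l * (w - μ) := by ring
    rw [this, hlm]; ring
  have hle1 : ∀ (x : V) j, a j ≤ x j ↔ a0 j ≤ Ψ.toFun x j := by
    intro x j
    by_cases hj : j = k
    · rw [hj, hak, a0k, hΨk]
      constructor <;> intro h <;> nlinarith
    · have : a0 j ≤ Ψ.toFun x j ↔ psi w l (w + μ) ≤ psi w l (N * (x j - c j)) := by
        rw [hlo, a0j j hj, hΨ x j hj]
      rw [this, hmono.le_iff_le, ha j hj, mul_comm N, ← div_le_iff₀ hN]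
      constructor <;> intro h <;> linarith
  have hle2 : ∀ (x : V) j, x j ≤ b j ↔ Ψ.toFun x j ≤ b0 j := by
    intro x j
    by_cases hj : j = k
    · rw [hj, hbk, b0k, hΨk]
      constructor <;> intro h <;> nlinarith
    · have : Ψ.toFun x j ≤ b0 j ↔ psi w l (N * (x j - c j)) ≤ psi w l (1 - w - μ) := by
        rw [hhi, b0j j hj, hΨ x j hj]
      rw [this, hmono.le_iff_le, hb j hj, mul_comm N, ← le_div_iff₀ hN]
      constructor <;> intro h <;> linarith
  have hmem : ∀ x : V, x ∈ Icc a b ↔ Ψ.toFun x ∈ Icc a0 b0 := by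
    intro x
    rw [mem_Icc, mem_Icc, Pi.le_def, Pi.le_def, Pi.le_def, Pi.le_def]
    exact and_congr (forall_congr' fun k => hle1 x k) (forall_congr' fun k => hle2 x k)
  have himg : Ψ.toFun '' Icc a b = Icc a0 b0 := by
    ext y
    constructor
    · rintro ⟨x, hx, rfl⟩; exact (hmem x).1 hx
    · intro hy
      refine ⟨Ψ.invFun y, (hmem _).2 ?_, Ψ.right_inv (mem_univ y)⟩
      rwa [Ψ.right_inv (mem_univ y)]
  have himgF : Ψ.toFun '' frontier (Icc a b) = frontier (Icc a0 b0) := by
    rw [Ψ.image_frontier, himg]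
  have hlip : ∀ (x x' : V) j, |Ψ.toFun x j - Ψ.toFun x' j| ≤ 2 * N * |x j - x' j| := by
    intro x x' j
    have e1 : N * (x j - c j) - N * (x' j - c j) = N * (x j - x' j) := by ring
    by_cases hj : j = k
    · rw [hj, hΨk, hΨk]
      have e2 : N * (x k - c k) - N * (x' k - c k) = N * (x k - x' k) := by ring
      rw [e2, abs_mul, abs_of_pos hN]
      have := mul_nonneg hN.le (abs_nonneg (x k - x' k))
      linarith
    · rw [hΨ x j hj, hΨ x' j hj]
      refine (psi_lip hl1 hl2 _ _).trans ?_
      rw [e1, abs_mul, abs_of_pos hN]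
      linarith
  have hlr : ∀ y, Ψ.toFun (Ψ.invFun y) = y := fun y => Ψ.right_inv (mem_univ y)
  have hrl : ∀ x, Ψ.invFun (Ψ.toFun x) = x := fun x => Ψ.left_inv (mem_univ x)
  -- the reflections correspond
  have hrefl : ∀ x, Ψ.toFun (refl a b k x) = refl a0 b0 k (Ψ.toFun x) := by
    intro x
    funext j
    by_cases hj : j = k
    · rw [hj, hΨk]
      unfold GB932.refl
      rw [Function.update_self, Function.update_self, hΨk, hak, hbk, a0k, b0k]
      ring
    · rw [hΨ _ j hj]
      unfold GB932.refl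
      rw [Function.update_of_ne hj, Function.update_of_ne hj, hΨ _ j hj]
  intro φ hφX hφρ θ hθ hθm
  have hcF : ConicalSet (frontier (Icc a b)) := φ.conicalSet_left
  let ΨF : ConHomeo (frontier (Icc a b)) (frontier (Icc a0 b0)) :=
    (Ψ.restr hcF (subset_univ _)).cast rfl himgF
  let ΨB : ConHomeo (Icc a b) (Icc a0 b0) :=
    (Ψ.restr (convex_Icc a b).conicalSet (subset_univ _)).cast rfl himg
  obtain ⟨Φ', h1, h2, h3⟩ := H (ΨF.symm.trans (φ.trans ΨF)) (fun y hy => by
      show Ψ.toFun (φ.toFun (Ψ.invFun y)) = y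
      rw [hφX (Ψ.invFun y) (hX0 y hy), hlr]) (fun y hy i hi => by
      have hyF := hy.1
      have hx : Ψ.invFun y ∈ frontier (Icc a b) := by
        rw [← himgF] at hyF
        obtain ⟨x, hx, rfl⟩ := hyF
        rwa [hrl]
      have hxr : 2 * Ψ.invFun y k = a k + b k := by
        have e1 : 2 * y k = a0 k + b0 k := hy.2
        have e2 : y k = 0 := by rw [a0k, b0k] at e1; linarith
        have e3 : N * (Ψ.invFun y k - c k) = 0 := by rw [← hΨk, hlr, e2]
        have e4 : Ψ.invFun y k - c k = 0 := (mul_eq_zero.1 e3).resolve_left hN.ne'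
        rw [hak, hbk]; linarith
      show |Ψ.toFun (φ.toFun (Ψ.invFun y)) i - y i| ≤ ρ0
      have e := hlip (φ.toFun (Ψ.invFun y)) (Ψ.invFun y) i
      rw [hlr] at e
      exact e.trans ((mul_le_mul_of_nonneg_left (hφρ _ ⟨hx, hxr⟩ i hi) (by positivity)).trans hρ))
    (N * θ) (by positivity) (by
      rw [lt_div_iff₀ hN] at hθm
      linarith)
  refine ⟨ΨB.trans (Φ'.trans ΨB.symm), ?_, fun x hx => ?_, fun x hx z hz hzx hex => ?_⟩
  · rcases h1 with h1 | h1
    · left
      intro x hx
      show Ψ.invFun (Φ'.toFun (Ψ.toFun x)) = φ.toFun x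
      rw [h1 (by rw [← himgF]; exact mem_image_of_mem _ hx)]
      show Ψ.invFun (Ψ.toFun (φ.toFun (Ψ.invFun (Ψ.toFun x)))) = φ.toFun x
      rw [hrl, hrl]
    · right
      intro x hx
      show Ψ.invFun (Φ'.toFun (Ψ.toFun x)) = refl a b k (φ.toFun x)
      rw [h1 (by rw [← himgF]; exact mem_image_of_mem _ hx)]
      show Ψ.invFun (refl a0 b0 k (Ψ.toFun (φ.toFun (Ψ.invFun (Ψ.toFun x))))) = _
      rw [hrl, ← hrefl, hrl]
  · show Ψ.invFun (Φ'.toFun (Ψ.toFun x)) = x
    rw [h2 _ ?_, hrl]
    have hx1 := hx.1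
    have hx2 := hx.2
    rw [Pi.le_def] at hx1 hx2
    have hθ' : N * θ < w - μ := by
      rw [lt_div_iff₀ hN] at hθm; linarith
    refine ⟨fun j => ?_, fun j => ?_⟩
    · show a0 j + N * θ ≤ Ψ.toFun x j
      have h0 : a j + θ ≤ x j := hx1 j
      by_cases hj : j = k
      · rw [hj] at h0 ⊢
        rw [hak] at h0
        rw [a0k, hΨk]
        nlinarith
      · rw [a0j j hj, hΨ x j hj]
        have e1 : w + μ + N * θ ≤ N * (x j - c j) := by
          rw [ha j hj] at h0
          have h5 : N * (c j + (w + μ) / N + θ - c j) ≤ N * (x j - c j) :=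
            mul_le_mul_of_nonneg_left (by linarith) hN.le
          have h6 : N * (c j + (w + μ) / N + θ - c j) = w + μ + N * θ := by
            field_simp
            ring
          linarith
        refine le_trans ?_ (hmono.monotone e1)
        rw [psi_lo hw4 (by linarith)]
        have e2 : l * (2 * w - (w + μ + N * θ)) = w - l * (N * θ) := by
          have : l * (2 * w - (w + μ + N * θ)) = l * (w - μ) - l * (N * θ) := by ring
          rw [this, hlm]
        rw [e2]
        have : N * θ ≤ l * (N * θ) := le_mul_of_one_le_left (by positivity) hl1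
        linarith
    · show Ψ.toFun x j ≤ b0 j - N * θ
      have h0 : x j ≤ b j - θ := hx2 j
      by_cases hj : j = k
      · rw [hj] at h0 ⊢
        rw [hbk] at h0
        rw [b0k, hΨk]
        nlinarith
      · rw [b0j j hj, hΨ x j hj]
        have e1 : N * (x j - c j) ≤ 1 - w - μ - N * θ := by
          rw [hb j hj] at h0
          have h5 : N * (x j - c j) ≤ N * (c j + (1 - w - μ) / N - θ - c j) :=
            mul_le_mul_of_nonneg_left (by linarith) hN.le
          have h6 : N * (c j + (1 - w - μ) / N - θ - c j) = 1 - w - μ - N * θ := by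
            field_simp
            ring
          linarith
        refine (hmono.monotone e1).trans ?_
        rw [psi_hi hw4 (by linarith)]
        have e2 : l * (1 - w - μ - N * θ - (1 - 2 * w)) = w - l * (N * θ) := by
          have : l * (1 - w - μ - N * θ - (1 - 2 * w)) = l * (w - μ) - l * (N * θ) := by ring
          rw [this, hlm]
        rw [e2]
        have : N * θ ≤ l * (N * θ) := le_mul_of_one_le_left (by positivity) hl1
        linarith
  · show Ψ.invFun (Φ'.toFun (Ψ.toFun z)) = z
    obtain ⟨i, hik, hi, hij⟩ := hex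
    have hzi : |z i - x i| ≤ (w - μ) / N := by
      have := (norm_le_pi_norm (z - x) i).trans hzx
      rwa [Pi.sub_apply, Real.norm_eq_abs] at this
    have hzi' : |N * (z i - c i) - N * (x i - c i)| ≤ w - μ := by
      have e1 : N * (z i - c i) - N * (x i - c i) = N * (z i - x i) := by ring
      rw [e1, abs_mul, abs_of_pos hN]
      have := mul_le_mul_of_nonneg_left hzi hN.le
      rwa [mul_div_cancel₀ _ hN.ne'] at this
    have hzI := (hmem z).1 hz
    have hz1 : w ≤ Ψ.toFun z i := by rw [← a0j i hik]; exact hzI.1 i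
    have hz2 : Ψ.toFun z i ≤ 1 - w := by rw [← b0j i hik]; exact hzI.2 i
    have hval : (Ψ.toFun x i = w ∨ Ψ.toFun x i = 1 - w) ∧ |Ψ.toFun z i - Ψ.toFun x i| ≤ w := by
      rcases hi with hi | hi
      · have e0 : N * (x i - c i) = w + μ := by
          rw [hi, ha i hik]; field_simp; ring
        have e1 : Ψ.toFun x i = w := by rw [hΨ _ i hik, e0, hlo]
        refine ⟨Or.inl e1, ?_⟩
        have e2 : N * (z i - c i) ≤ 2 * w := by
          rw [e0] at hzi'
          have := (abs_le.1 hzi').2
          linarith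
        have e3 : Ψ.toFun z i ≤ 2 * w := by
          rw [hΨ _ i hik]
          refine (hmono.monotone e2).trans ?_
          rw [psi_mid le_rfl (by linarith)]
        rw [e1, abs_le]
        constructor <;> linarith
      · have e0 : N * (x i - c i) = 1 - w - μ := by
          rw [hi, hb i hik]; field_simp; ring
        have e1 : Ψ.toFun x i = 1 - w := by rw [hΨ _ i hik, e0, hhi]
        refine ⟨Or.inr e1, ?_⟩
        have e2 : 1 - 2 * w ≤ N * (z i - c i) := by
          rw [e0] at hzi'
          have := (abs_le.1 hzi').1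
          linarith
        have e3 : 1 - 2 * w ≤ Ψ.toFun z i := by
          rw [hΨ _ i hik]
          refine le_trans ?_ (hmono.monotone e2)
          rw [psi_mid (by linarith) le_rfl]
        rw [e1, abs_le]
        constructor <;> linarith
    have hij' : ∀ j, j ≠ i → Ψ.toFun z j = Ψ.toFun x j := fun j hj => by
      show psi w (sl k l j) (N * (z j - c j)) = psi w (sl k l j) (N * (x j - c j))
      rw [hij j hj]
    rw [h3 (Ψ.toFun x) (hX x hx) (Ψ.toFun z) hzI ?_
      ⟨i, hik, by rw [a0j i hik, b0j i hik]; exact hval.1, hij'⟩, hrl]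
    rw [pi_norm_le_iff_of_nonneg hw.le]
    intro j
    rw [Pi.sub_apply, Real.norm_eq_abs]
    by_cases hj : j = i
    · rw [hj]; exact hval.2
    · rw [hij' j hj, sub_self, abs_zero]; exact hw.le

end P073.Plate.C225
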