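import Vale.Agent.P073.PL.Face937
import Vale.Agent.P073.GBM.CellCore

/-!
# P073, block PLATE: application of `SpecGB2` in the normalised situation
-/

open Set Metric Topology Filter MeasureTheory
open scoped ENNReal NNReal

namespace P073.PL

open P073 P073.PR720 P073.GB73 P073.GBM P073.Gauge P073.GB1W P073.Cell P073.Plate
open Vale.Agent.P073.St (V)
open Vale.Agent.P073.AB
open Vale.Agent.P073.SQ (ev)
open P073.Net (dyc dyo)

variable {Vx B J I : Type} {e0 e1 : B → Vx} {inc : B → J → Prop} {qC : J → I → Prop} {Ω : Set V}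

theorem reg2_of_body {v : V} {N : ℕ} {k : Fin 3} {ζ : ℤ} {q0 q1 o : V} {A : V ≃L[ℝ] V} {c w : V}
    {T : Set ℝ} {t : ℝ} (ht0 : 0 < t) (hck : c k = ht v N k ζ) (hwk : t * w k ≤ 1 / 2 ^ N)
    (h : ∀ i, i ≠ k → q0 i + 1 / 2 ^ N ≤ c i - t * w i ∧ c i + t * w i ≤ q1 i - 1 / 2 ^ N)
    {y : V} (hy : y ∈ (bBody (o + A c) A w T).at t) : Reg2 v N k ζ q0 q1 o A y := by
  rw [mem_at ht0] at hy
  have h2 : ∀ i, A.symm (y - (o + A c)) i = A.symm (y - o) i - c i := by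
    intro i
    rw [← sub_sub, map_sub, A.symm_apply_apply, Pi.sub_apply]
  constructor
  · have h1 := hy k
    rw [h2, hck] at h1
    exact h1.trans hwk
  · intro i hi
    have h1 := abs_le.1 (hy i)
    rw [h2] at h1
    have := h i hi
    constructor <;> linarith [h1.1, h1.2]

/-- the conclusion of the core step -/
structure CoreOut2 (K : Cx3 e0 e1 inc qC Ω) (h : V → V) (v : V) (n k₁ k₀ : ℕ)
    (z : Fin 3 → ℤ) (k : Fin 3) (q0 q1 o : V) (A : V ≃L[ℝ] V) (μ : ℝ) (Z : Set V) (d : ℝ)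
    (h3 Lt : V → V) (χ : B → V → V) (p : B → V) : Prop where
  pm : ∀ b a l, K.arc b = edge v ((gN n k₁ k₀, a), l) → p b = Cell.mid v (gN n k₁ k₀) a l
  chi_mem : ∀ b, ∀ x ∈ K.arc b, χ b x ∈ K.arc b
  chi_id : ∀ b, b ∉ cr2 K v (gN n k₁ k₀) k (z k * 2 ^ (k₁ + k₀)) (al k₁ k₀ z) (be k₁ k₀ z) →
    ∀ x ∈ K.arc b, χ b x = x
  chi0 : ∀ b, χ b (K.y (e0 b)) = K.y (e0 b)
  chi1 : ∀ b, χ b (K.y (e1 b)) = K.y (e1 b)
  chi : ∀ b a l, K.arc b = edge v ((gN n k₁ k₀, a), l) →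
    Cross2 k (z k * 2 ^ (k₁ + k₀)) (al k₁ k₀ z) (be k₁ k₀ z) a l →
    ∃ r ∈ Icc (1 / 4 : ℝ) (3 / 4), ∀ s ∈ Icc (0:ℝ) 1,
      χ b (pt v (gN n k₁ k₀) a + s • ((1 / 2 ^ (gN n k₁ k₀) : ℝ) • ev l)) =
        pt v (gN n k₁ k₀) a + GB1.rep (1 / 2) r s • ((1 / 2 ^ (gN n k₁ k₀) : ℝ) • ev l)
  out : ∀ b, ∀ x ∈ K.arc b, x ∉ interior (Icc (plo v n k₁ k₀ z k d) (phi v n k₁ k₀ z k d)) →
    h3 x = h (χ b x)
  box : ∀ x ∈ pbox v ((n, z), k) (2 / 2 ^ (n + k₁)) 0, h3 x = o + A x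
  mark : ∀ b a l, K.arc b = edge v ((gN n k₁ k₀, a), l) → Marked2 k₁ k₀ z a k l →
    ∀ x ∈ Icc (plo v n k₁ k₀ z k d) (phi v n k₁ k₀ z k d), ‖x - p b‖ ≤ mg n k₁ k₀ →
      (∀ j, j ≠ l → x j = p b j) → h3 x = Lt x
  close : ∀ x ∈ Icc (plo v n k₁ k₀ z k d) (phi v n k₁ k₀ z k d),
    x k = ht v (gN n k₁ k₀) k (z k * 2 ^ (k₁ + k₀)) →
    ‖A.symm (Lt x - o) - x‖ ≤ μ + 1 / 8 / 2 ^ (gN n k₁ k₀)
  lip : ∀ x y, x k = ht v (gN n k₁ k₀) k (z k * 2 ^ (k₁ + k₀)) →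
    y k = ht v (gN n k₁ k₀) k (z k * 2 ^ (k₁ + k₀)) → ‖A.symm (Lt x - Lt y)‖ ≤ 9 / 4 * ‖x - y‖
  reg : ∀ x ∈ Icc (plo v n k₁ k₀ z k d) (phi v n k₁ k₀ z k d),
    Reg2 v (gN n k₁ k₀) k (z k * 2 ^ (k₁ + k₀)) q0 q1 o A (h3 x)
  prot : EqOn h3 h Z

/-- the parts used in the core step -/
structure Parts2 : Prop where
  pat : SpecPat2
  cut : SpecDomCut2
  lev : SpecLev2
  s1 : SpecS1'
  s2 : SpecS2'
  rim : SpecRim
  vert : SpecVert2
  bd : SpecBdIn2
  mod : SpecMod2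

theorem core_plate (hGB : GB932.SpecGB2) (P : Parts2) {K : Cx3 e0 e1 inc qC Ω} {Λ : Set V}
    {h : ConHomeo Ω Λ} (hΩ : IsOpen Ω) (hΛ : IsOpen Λ) {v : V} {n k₁ k₀ : ℕ} {z : Fin 3 → ℤ}
    {k : Fin 3} {δ : ℝ} {cu cd : I} {o : V} {A : V ≃L[ℝ] V} {μ η : ℝ}
    (H : Near2 K Λ h.toFun v (gN n k₁ k₀) k (z k * 2 ^ (k₁ + k₀)) (llo v n z k δ) (lhi v n z k δ)
      o A μ η cu cd)
    (hk₁ : 3 ≤ k₁) (hk₀ : 3 ≤ k₀) (hμ : μ ≤ 1 / 8 / 2 ^ (gN n k₁ k₀))
    (hη1 : 150 * ((2 * μ + η) / (3 / 4 / 2 ^ (gN n k₁ k₀))) < 1 / 18)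
    (hη2 : 6 * ((RR k₁ k₀ : ℝ) + 1) ^ 2 * ((2 * μ + η) / (3 / 4 / 2 ^ (gN n k₁ k₀))) <
      1 / (2 * RR k₁ k₀))
    {d : ℝ} (hd0 : 0 < d) (hdδ : d < δ) {ρ : ℝ}
    (hρ : GB932.Collar2 (plo v n k₁ k₀ z k d) (phi v n k₁ k₀ z k d) k (mg n k₁ k₀)
      (mpt2 v n k₁ k₀ z k) ρ) (hρd : 4 / 2 ^ (gN n k₁ k₀) ≤ ρ)
    {Z : Set V} (hZ : Prot K Z) (hZp : Disjoint Z (K.cell cu)) (hZm : Disjoint Z (K.cell cd))
    (hZh : ∀ x ∈ Z, ¬ Reg2 v (gN n k₁ k₀) k (z k * 2 ^ (k₁ + k₀)) (llo v n z k δ)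
      (lhi v n z k δ) o A (h.toFun x)) :
    ∃ (h3 : ConHomeo Ω Λ) (Lt : V → V) (χ : B → V → V) (p : B → V),
      CoreOut2 K h.toFun v n k₁ k₀ z k (llo v n z k δ) (lhi v n z k δ) o A μ Z d h3.toFun Lt χ p := by
  classical
  have hR := RR_ge hk₁ hk₀
  have h8 := pow_k0R hk₀
  have h64 := pow_k1R (k₀ := k₀) hk₁
  have hd : (0:ℝ) < 1 / 2 ^ (gN n k₁ k₀) := by positivity
  set N := gN n k₁ k₀ with hN
  set α := al k₁ k₀ z with hα
  set β := be k₁ k₀ z with hβ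
  set ζ := z k * 2 ^ (k₁ + k₀) with hζ
  have hβα : ∀ i, β i = α i + RR k₁ k₀ := fun i => be_eq i
  have hαβ : ∀ i, α i < β i := fun i => by rw [hβα i]; linarith
  have hαβ8 : ∀ i, i ≠ k → α i + 8 ≤ β i := fun i _ => by rw [hβα i]; linarith
  have hnear : ∀ {w : ℝ} {i : Fin 3}, (α i : ℝ) ≤ w → w ≤ β i + 1 →
      qlo v n z i + 8 / 2 ^ N ≤ v i + w / 2 ^ N ∧ v i + w / 2 ^ N ≤ qhi v n z i - 8 / 2 ^ N :=
    fun h1 h2 => near_box hk₀ h1 h2
  have hl : ∀ i, i ≠ k → llo v n z k δ i = qlo v n z i := fun i hi => by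
    unfold llo qlo; rw [if_neg hi]
  have hh : ∀ i, i ≠ k → lhi v n z k δ i = qhi v n z i := fun i hi => by
    unfold lhi qhi; rw [if_neg hi]
  have hhk : lhi v n z k δ k = ht v N k ζ + δ := by
    unfold lhi ht
    rw [if_pos rfl, hζ]
    push_cast
    rw [mul_div_assoc, div_eq_mul_one_div ((2:ℝ) ^ (k₁ + k₀)), ← Dd n k₁ k₀]
    ring
  have hlk : llo v n z k δ k = ht v N k ζ - δ := by
    unfold llo ht
    rw [if_pos rfl, hζ]
    push_cast
    rw [mul_div_assoc, div_eq_mul_one_div ((2:ℝ) ^ (k₁ + k₀)), ← Dd n k₁ k₀]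
    ring
  have e8 : (8:ℝ) / 2 ^ N = 8 * (1 / 2 ^ N) := by ring
  have e4 : (4:ℝ) / 2 ^ N = 4 * (1 / 2 ^ N) := by ring
  have e2 : (2:ℝ) / 2 ^ N = 2 * (1 / 2 ^ N) := by ring
  -- the box in the plate
  have hin8 : ∀ i, qlo v n z i + 8 / 2 ^ N ≤ hp v N α i ∧ hp v N β i ≤ qhi v n z i - 8 / 2 ^ N := by
    intro i
    have h1 : (α i : ℝ) < β i := by exact_mod_cast hαβ i
    exact ⟨(hnear (w := α i + 1 / 2) (i := i) (by linarith) (by linarith)).1,
      (hnear (w := β i + 1 / 2) (i := i) (by linarith) (by linarith)).2⟩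
  have hin2 : ∀ i, i ≠ k → llo v n z k δ i + 2 / 2 ^ N ≤ hp v N α i ∧
      hp v N β i ≤ lhi v n z k δ i - 2 / 2 ^ N := by
    intro i hi
    have := hin8 i
    rw [e8] at this
    rw [e2, hl i hi, hh i hi]
    constructor <;> linarith [this.1, this.2]
  -- levels of the big body
  obtain ⟨T0, hT0, hgood0, hin, y0, hcr0, hpos0⟩ := big2_levels P.lev H hμ
    (R := RR k₁ k₀) (by linarith) hβα hη2 hin2
  have hpat0 := P.pat Vx B J I e0 e1 inc qC Ω K v N k ζ _ _ cu cd H.lat α β hin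
  set P0 := cr2 K v N k ζ α β with hP0
  have hPfin : P0.Finite := hpat0.fin
  -- faces
  set Fs : Set J := {j | ∃ b ∈ P0, inc b j} with hFs
  have hFfin : Fs.Finite := finite_faces K hPfin
  have hface : ∀ j, ∃ (w : Fin 3 → ℤ) (T : Set ℝ) (y : ℝ → B → V), j ∈ Fs →
      w k = ζ ∧ K.tile j = squ v ((N, w), k) ∧
      (∃ a l, Cross2 k ζ α β a l ∧ edge v ((N, a), l) ⊆ squ v ((N, w), k)) ∧
      (∀ i, i ≠ k → α i ≤ w i ∧ w i ≤ β i) ∧
      RectIn v N k (llo v n z k δ) (lhi v n z k δ) (fa w k) (fb w) ∧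
      T ⊆ Ioo (35 / 36) (37 / 36) ∧ (fBody2 v N k o A w T).Good Λ ∧
      Pat inc (cr2 K v N k ζ (fa w k) (fb w)) ∧
      (∀ t ∈ T, Crosses K.toGraph h.toFun ((fBody2 v N k o A w T).at t)
        (cr2 K v N k ζ (fa w k) (fb w)) (y t)) ∧
      PosY2 K h.toFun v N k ζ o A μ (sc v N w k) (fw2 N k) (fa w k) (fb w) T y := by
    intro j
    by_cases hj : j ∈ Fs
    · obtain ⟨b, hb, hbj⟩ := id hj
      obtain ⟨w, hwk, h1, ⟨a, l, h2, h2'⟩, h3⟩ := face2_data H.lat hin hb hbj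
      obtain ⟨T, h4, h5, hI, y, h8, h9⟩ := face2_levels P.lev H hμ hη1 (w := w) hwk
        (fun i hi => by
          have h3k := h3 i hi
          have h3a : (α i : ℝ) ≤ w i := by exact_mod_cast h3k.1
          have h3b : (w i : ℝ) ≤ β i := by exact_mod_cast h3k.2
          have := hnear (w := w i + if i = k then 0 else 1 / 2) (i := i)
            (by split_ifs <;> linarith) (by split_ifs <;> linarith)
          rw [e8] at this
          rw [e4, hl i hi, hh i hi]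
          unfold sc
          constructor <;> linarith [this.1, this.2])
      exact ⟨w, T, y, fun _ => ⟨hwk, h1, ⟨a, l, h2, h2'⟩, h3, hI, h4, h5,
        P.pat Vx B J I e0 e1 inc qC Ω K v N k ζ _ _ cu cd H.lat _ _ hI, h8, h9⟩⟩
    · exact ⟨0, ∅, fun _ _ => 0, fun h => absurd h hj⟩
  choose fwi fT fy hF using hface
  -- crossing points, marked edges
  obtain ⟨p, -, hpm⟩ := exists_cut K v N α β
  set M : Set B := {b | ∃ a l, K.arc b = edge v ((N, a), l) ∧ Marked2 k₁ k₀ z a k l} with hM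
  have hMP : M ⊆ P0 := by
    rintro b ⟨a, l, h1, h2⟩
    exact ⟨a, l, h1, h2.1⟩
  have hpM : p '' M = mpt2 v n k₁ k₀ z k := by
    ext x
    constructor
    · rintro ⟨b, ⟨a, l, h1, h2⟩, rfl⟩
      exact ⟨a, l, h2, hpm b a l h1⟩
    · rintro ⟨a, l, h2, rfl⟩
      obtain ⟨b, hb⟩ := exists_arc2 H.lat hin h2.1
      exact ⟨b, ⟨a, l, hb, h2⟩, hpm b a l hb⟩
  have hcut : IsCut2 K v N k ζ α β p := fun b w l h1 _ => hpm b w l h1
  -- model maps
  obtain ⟨⟨L, hL⟩, ⟨χ, hχ⟩⟩ := P.mod Vx B J I e0 e1 inc qC Ω K Λ h.toFun v n k₁ k₀ z k _ _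
    o A μ η cu cd H hk₁ hk₀ hμ hin d T0 y0 p hd0 hT0 hpos0 hcut
  -- the cut of the domain
  have hdom : DomCut K (Icc (plo v n k₁ k₀ z k d) (phi v n k₁ k₀ z k d)) P0 p :=
    P.cut Vx B J I e0 e1 inc qC Ω K v N k ζ _ _ cu cd H.lat α β d hin hd0 (by rw [hhk]; linarith)
      p hcut
  -- coordinates of the thin box
  have hbk : plo v n k₁ k₀ z k d k = ht v N k ζ - d := by
    unfold plo rlo; rw [Function.update_self]
  have hbk' : phi v n k₁ k₀ z k d k = ht v N k ζ + d := by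
    unfold phi rhi; rw [Function.update_self]
  have hbi : ∀ i, i ≠ k → plo v n k₁ k₀ z k d i = hp v N α i := fun i hi => by
    unfold plo rlo; rw [Function.update_of_ne hi]
  have hbi' : ∀ i, i ≠ k → phi v n k₁ k₀ z k d i = hp v N β i := fun i hi => by
    unfold phi rhi; rw [Function.update_of_ne hi]
  have hboxU : Icc (plo v n k₁ k₀ z k d) (phi v n k₁ k₀ z k d) ⊆
      interior (Icc (llo v n z k δ) (lhi v n z k δ)) := by
    intro x hx
    rw [interior_Icc_pi']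
    intro i
    have h1 := hx.1 i
    have h2 := hx.2 i
    by_cases hi : i = k
    · subst hi
      rw [hbk] at h1
      rw [hbk'] at h2
      rw [hlk, hhk]
      constructor <;> linarith
    · rw [hbi i hi] at h1
      rw [hbi' i hi] at h2
      have h3 := hin2 i hi
      rw [e2] at h3
      constructor <;> linarith [h3.1, h3.2]
  -- the two cells
  have hcell : ∀ x ∈ interior (Icc (llo v n z k δ) (lhi v n z k δ)), ∀ c, x ∈ K.cell c →
      c = cu ∨ c = cd := fun x hx c hc => H.lat.cell c ⟨x, hc, hx⟩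
  have hZU : Disjoint Z (interior (Icc (llo v n z k δ) (lhi v n z k δ))) := by
    rw [Set.disjoint_left]
    intro x hx hxU
    have hxc : x ∈ ⋃ c, K.cell c := by rw [K.cover]; exact hZ.sub hx
    obtain ⟨c, hc⟩ := mem_iUnion.1 hxc
    rcases hcell x hxU c hc with rfl | rfl
    · exact Set.disjoint_left.1 hZp hx hc
    · exact Set.disjoint_left.1 hZm hx hc
  -- bodies are in the region
  have hregF : ∀ j ∈ Fs, ∀ t ∈ fT j, ∀ y ∈ (fBody2 v N k o A (fwi j) (fT j)).at t,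
      Reg2 v N k ζ (llo v n z k δ) (lhi v n z k δ) o A y := by
    intro j hj t ht y hy
    obtain ⟨hwk, -, -, h3, -, h4, -⟩ := hF j hj
    have ht' := h4 ht
    refine reg2_of_body (by linarith [ht'.1])
      (by unfold sc P073.PL.ht; rw [if_pos rfl, hwk, add_zero]) ?_ (fun i hi => ?_) hy
    · unfold fw2
      rw [if_pos rfl]
      have : t * (3 / 4 / 2 ^ N) = t * (3 / 4) * (1 / 2 ^ N) := by ring
      rw [this]
      calc t * (3 / 4) * (1 / 2 ^ N) ≤ 1 * (1 / 2 ^ N) :=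
            mul_le_mul_of_nonneg_right (by linarith [ht'.2]) hd.le
        _ = _ := one_mul _
    · have h3k := h3 i hi
      have h3a : (α i : ℝ) ≤ fwi j i := by exact_mod_cast h3k.1
      have h3b : (fwi j i : ℝ) ≤ β i := by exact_mod_cast h3k.2
      have h5 := hnear (w := fwi j i + if i = k then 0 else 1 / 2) (i := i)
        (by split_ifs <;> linarith) (by split_ifs <;> linarith)
      rw [e8] at h5
      have h6 : t * fw2 N k i ≤ 3 * (1 / 2 ^ N) := by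
        unfold fw2
        rw [if_neg hi]
        have : t * (9 / 4 / 2 ^ N) = t * (9 / 4) * (1 / 2 ^ N) := by ring
        rw [this]
        exact mul_le_mul_of_nonneg_right (by linarith [ht'.2]) hd.le
      rw [hl i hi, hh i hi]
      unfold sc
      constructor <;> linarith [h5.1, h5.2]
  have hreg0 : ∀ t ∈ T0, ∀ y ∈ (bigBody2 v N k ζ o A α β T0).at t,
      Reg2 v N k ζ (llo v n z k δ) (lhi v n z k δ) o A y := by
    intro t ht y hy
    obtain ⟨ht0, ht1⟩ := hT0 t ht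
    refine reg2_of_body ht0 (by unfold bc2; rw [if_pos rfl]) ?_ (fun i hi => ?_) hy
    · unfold bw2
      rw [if_pos rfl]
      obtain ⟨i, hi⟩ : ∃ i : Fin 3, i ≠ k := exists_ne k
      have h1 := ht1 i hi
      have h0 : (α i : ℝ) + 8 ≤ β i := by exact_mod_cast hαβ8 i hi
      have h2 : |t - 1| * 8 ≤ 1 / 4 :=
        (mul_le_mul_of_nonneg_left (by linarith) (abs_nonneg _)).trans h1
      have h5 := abs_le.1 (show |t - 1| ≤ 1 / 32 by linarith)
      have : t * (3 / 4 / 2 ^ N) = t * (3 / 4) * (1 / 2 ^ N) := by ring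
      rw [this]
      calc t * (3 / 4) * (1 / 2 ^ N) ≤ 1 * (1 / 2 ^ N) :=
            mul_le_mul_of_nonneg_right (by linarith [h5.2]) hd.le
        _ = _ := one_mul _
    · have h1 := ht1 i hi
      have h3 := hin8 i
      rw [e8] at h3
      have h4 : |t * bw N α β i - bw N α β i| ≤ 1 / 2 ^ N := by
        have h0 : (α i : ℝ) < β i := by exact_mod_cast hαβ i
        have : t * bw N α β i - bw N α β i = (t - 1) * (β i - α i) * (1 / 2 / 2 ^ N) := by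
          unfold bw; ring
        rw [this, abs_mul, abs_mul, abs_of_nonneg (by linarith : (0:ℝ) ≤ β i - α i),
          abs_of_nonneg (by positivity : (0:ℝ) ≤ 1 / 2 / 2 ^ N)]
        calc |t - 1| * (β i - α i) * (1 / 2 / 2 ^ N) ≤ 1 / 4 * (1 / 2 / 2 ^ N) :=
              mul_le_mul_of_nonneg_right h1 (by positivity)
          _ = 1 / 8 * (1 / 2 ^ N) := by ring
          _ ≤ 1 / 2 ^ N := by linarith
      have h5 := abs_le.1 h4
      have h7 : bc v N α β i - bw N α β i = hp v N α i := by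
        unfold bc bw hp; ring
      have h9 : bc v N α β i + bw N α β i = hp v N β i := by
        unfold bc bw hp; ring
      have h10 : bc2 v N k ζ α β i = bc v N α β i := by unfold bc2 bc; rw [if_neg hi]
      have h11 : bw2 N k α β i = bw N α β i := by unfold bw2 bw; rw [if_neg hi]
      rw [hl i hi, hh i hi, h10, h11]
      constructor <;> linarith [h3.1, h3.2, h5.1, h5.2]
  have hm : 0 < mg n k₁ k₀ := by
    rw [mg_apply]
    exact mul_pos (by linarith) hd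
  have hF' : ∀ j, j ∈ hFfin.toFinset ↔ j ∈ Fs := fun j => hFfin.mem_toFinset
  -- separation
  have hsep : ∀ σ ∈ Fs, ∀ τ' ∈ Fs, σ ≠ τ' → ∀ t ∈ fT σ, ∀ s ∈ fT τ',
      IsPreconnected (frontier ((fBody2 v N k o A (fwi τ') (fT τ')).at s) \
        interior ((fBody2 v N k o A (fwi σ) (fT σ)).at t)) ∧
      ∃ b ∈ cr2 K v N k ζ (fa (fwi τ') k) (fb (fwi τ')),
        fy τ' s b ∉ interior ((fBody2 v N k o A (fwi σ) (fT σ)).at t) := by
    intro σ hσ τ' hτ hne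
    obtain ⟨s0, s1, s2, s3, sI, s4, s5, s7, s8, s9⟩ := hF σ hσ
    obtain ⟨r0, r1, r2, r3, rI, r4, r5, r7, r8, r9⟩ := hF τ' hτ
    refine P.s1 Vx B J I e0 e1 inc qC Ω K Λ h.toFun v N k ζ _ _ o A μ η cu cd H (fwi σ) (fwi τ')
      (fT σ) (fT τ') (fy τ') s0 r0 ?_ s4 r4 rI r9
    intro heq
    apply hne
    apply tile_injective K
    rw [s1, r1, heq]
  have hsep0 : ∀ σ ∈ Fs, ∀ t ∈ fT σ, ∀ s ∈ T0,
      IsPreconnected (frontier ((bigBody2 v N k ζ o A α β T0).at s) \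
        interior ((fBody2 v N k o A (fwi σ) (fT σ)).at t)) ∧
      ∃ b ∈ P0, y0 s b ∉ interior ((fBody2 v N k o A (fwi σ) (fT σ)).at t) := by
    intro σ hσ
    obtain ⟨s0, s1, ⟨a, l, s2, s2'⟩, s3, sI, s4, s5, s7, s8, s9⟩ := hF σ hσ
    exact P.s2 Vx B J I e0 e1 inc qC Ω K Λ h.toFun v N k ζ _ _ o A μ η cu cd H α β (fwi σ) a l
      (fT σ) T0 y0 hαβ8 s0 s2 s2' s4 hT0 hin hpos0
  -- boundaries of the faces
  have hbd : ∀ σ ∈ Fs, ∀ t ∈ fT σ, h.toFun '' (K.toCx2.bd σ) ⊆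
      interior ((fBody2 v N k o A (fwi σ) (fT σ)).at t) := by
    intro σ hσ
    obtain ⟨s0, s1, s2, s3, sI, s4, s5, s7, s8, s9⟩ := hF σ hσ
    refine P.bd Vx B J I e0 e1 inc qC Ω K Λ h.toFun v N k ζ _ _ o A μ η cu cd H hμ σ (fwi σ)
      (fT σ) s1 s0 (fun x hx => ?_) s4
    rw [mem_squ] at hx
    refine H.lat.mem_interior (by rw [hx.1]; unfold pt ht; rw [s0]) (fun i hi => ?_)
    have h3a : (α i : ℝ) ≤ fwi σ i := by exact_mod_cast (s3 i hi).1
    have h3b : (fwi σ i : ℝ) ≤ β i := by exact_mod_cast (s3 i hi).2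
    have h3 := (hnear (w := fwi σ i) (i := i) h3a (by linarith)).1
    have h4 := (hnear (w := fwi σ i + 1) (i := i) (by linarith) (by linarith)).2
    rw [e8] at h3 h4
    have h5 := hx.2 i hi
    rw [pt_succ] at h5
    unfold pt at h5
    rw [hl i hi, hh i hi]
    constructor <;> linarith [h5.1, h5.2]
  -- vertices
  have hvert : ∀ t ∈ T0, ∀ u, K.y u ∈ interior (Icc (plo v n k₁ k₀ z k d)
      (phi v n k₁ k₀ z k d)) ↔ h.toFun (K.y u) ∈ interior ((bigBody2 v N k ζ o A α β T0).at t) :=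
    P.vert Vx B J I e0 e1 inc qC Ω K Λ h.toFun v N k ζ _ _ o A μ η cu cd H hμ α β d T0 hin hT0
      hin2 hd0 (by rw [hhk]; linarith)
  -- the rim
  have hrim : ∀ x ∈ GB932.rim (plo v n k₁ k₀ z k d) (phi v n k₁ k₀ z k d) k,
      ∃ j ∈ hFfin.toFinset, x ∈ K.tile j ∧ ∀ s ∈ fT j, ∀ t : T0,
      ∀ x' ∈ frontier (Icc (plo v n k₁ k₀ z k d) (phi v n k₁ k₀ z k d)),
        (L t).toFun x' ∈ (fBody2 v N k o A (fwi j) (fT j)).at s → ∀ i, i ≠ k → |x' i - x i| ≤ ρ := by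
    intro x hx
    obtain ⟨w, a, l, hwk, hxw, hc, hsub, hcl⟩ := P.rim v N k ζ α β d (fun i _ => hαβ i) hd0 x hx
    obtain ⟨b, hb⟩ := exists_arc2 H.lat hin hc
    obtain ⟨j, hj⟩ := H.lat.tile' w hwk ⟨_, hsub mid_mem_edge, mid_mem_int H.lat hin hc⟩
    have hbj : inc b j := (inc_iff K b j).2 (by rw [hb, hj]; exact hsub)
    have hjF : j ∈ Fs := ⟨b, ⟨a, l, hb, hc⟩, hbj⟩
    obtain ⟨s0, s1, s2, s3, sI, s4, s5, s7, s8, s9⟩ := hF j hjF
    have hwj : fwi j = w := by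
      have h1 : squ v ((N, fwi j), k) = squ v ((N, w), k) := by rw [← s1, ← hj]
      have h2 : ∀ u : Fin 3 → ℤ, pt v N u ∈ squ v ((N, u), k) := fun u => by
        rw [mem_squ]
        exact ⟨rfl, fun i _ => ⟨le_rfl, by linarith⟩⟩
      have h3 := h2 (fwi j)
      rw [h1, mem_squ] at h3
      have h4 := h2 w
      rw [← h1, mem_squ] at h4
      funext i
      by_cases hi : i = k
      · rw [hi, s0, hwk]
      · exact le_antisymm (pt_le_pt.1 (h4.2 i hi).1) (pt_le_pt.1 (h3.2 i hi).1)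
    refine ⟨j, (hF' j).2 hjF, by rw [hj]; exact hxw, fun s hs t x' hx' hxB i hi => ?_⟩
    rw [hwj] at hxB
    refine (hcl o A (fT j) s4 s hs _ x' (fun i hi => ?_) hxB i hi).trans hρd
    have c2 := (hL t).2.2.1 x' (isClosed_Icc.frontier_subset hx') i hi
    refine c2.trans ?_
    have c5 : (1:ℝ) / 8 / 2 ^ N = 1 / 8 * (1 / 2 ^ N) := by ring
    have c6 : (1:ℝ) / 4 / 2 ^ N = 1 / 4 * (1 / 2 ^ N) := by ring
    rw [c5] at hμ ⊢
    rw [c6]
    linarith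
  -- the block
  obtain ⟨h3, t, r, hr, g1, g2, g3, g4, g5⟩ := hGB Vx B J I e0 e1 inc qC Ω Λ K h hΩ hΛ k
    (plo v n k₁ k₀ z k d) (phi v n k₁ k₀ z k d) (mg n k₁ k₀) hFfin.toFinset
    (fun j => fBody2 v N k o A (fwi j) (fT j))
    (fun j => cr2 K v N k ζ (fa (fwi j) k) (fb (fwi j))) fy
    (bigBody2 v N k ζ o A α β T0) P0 y0 p M L
    (fun σ hσ => (hF σ ((hF' σ).1 hσ)).2.2.2.2.2.2.1) hgood0
    (fun σ hσ => (hF σ ((hF' σ).1 hσ)).2.2.2.2.2.2.2.1) hpat0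
    (fun σ hσ => (hF σ ((hF' σ).1 hσ)).2.2.2.2.2.2.2.2.1) hcr0
    (fun σ hσ => hbd σ ((hF' σ).1 hσ))
    (fun σ hσ τ' hτ => hsep σ ((hF' σ).1 hσ) τ' ((hF' τ').1 hτ))
    (fun σ hσ => hsep0 σ ((hF' σ).1 hσ)) hdom hvert hMP
    (by
      rintro t b ⟨a, l, b1, b2⟩
      exact (hL t).1 b a l b1 b2)
    ρ (by rw [hpM]; exact hρ) hrim
    χ (fun t => (hχ t).1) (fun t => (hχ t).2.1) (fun t => (hχ t).2.2.1) (fun t => (hχ t).2.2.2.1)
    Z hZ (hZU.mono_right hboxU)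
    (by
      intro c hc
      rw [Set.not_disjoint_iff] at hc
      obtain ⟨x, hx1, hx2⟩ := hc
      rcases hcell x (hboxU (isClosed_Icc.frontier_subset hx2)) c hx1 with rfl | rfl
      · exact hZp
      · exact hZm)
    (fun σ hσ s hs => by
      rw [Set.disjoint_left]
      rintro _ ⟨x, hx, rfl⟩ hx'
      exact hZh x hx (hregF σ ((hF' σ).1 hσ) s hs _ hx'))
    (fun s hs => by
      rw [Set.disjoint_left]
      rintro _ ⟨x, hx, rfl⟩ hx'
      exact hZh x hx (hreg0 s hs _ hx'))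
    (min (d / 2) (mg n k₁ k₀ / 2)) (by positivity) ((min_le_right _ _).trans_lt (by linarith))
  refine ⟨h3, (L t).toFun, fun b => (χ t b).toFun, p, ?_⟩
  have hgd := gd n k₁ k₀
  have hrx : ∀ x : V, x k = ht v N k ζ → r x = x := by
    intro x hx
    rcases hr with rfl | rfl
    · rfl
    · apply GB932.refl_eq_self
      rw [hbk, hbk', hx]; ring
  refine ⟨hpm, fun b x hx => (χ t b).mapsTo hx, (hχ t).2.2.1, (hχ t).1, (hχ t).2.1,
    (hχ t).2.2.2.2, g1, ?_, ?_, (hL t).2.2.2.1, (hL t).2.2.2.2, ?_, g2⟩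
  · intro x hx
    have hxk : x k = ht v N k ζ := by
      have h1 := hx.1
      simp only at h1
      have h2 : x k - (v k + (z k : ℝ) / 2 ^ n) = 0 := abs_nonpos_iff.1 h1
      have h3 : ht v N k ζ = v k + (z k : ℝ) / 2 ^ n := by
        unfold ht
        rw [hζ]
        push_cast
        rw [mul_div_assoc, div_eq_mul_one_div ((2:ℝ) ^ (k₁ + k₀)), ← Dd n k₁ k₀]
        ring
      rw [h3]; linarith
    rw [g4 x ?_, hrx x hxk, (hL t).2.1 x hx]
    have hmin1 := min_le_left (d / 2) (mg n k₁ k₀ / 2)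
    have hmin2 := min_le_right (d / 2) (mg n k₁ k₀ / 2)
    have key : ∀ i, plo v n k₁ k₀ z k d i + min (d / 2) (mg n k₁ k₀ / 2) ≤ x i ∧
        x i ≤ phi v n k₁ k₀ z k d i - min (d / 2) (mg n k₁ k₀ / 2) := by
      intro i
      by_cases hi : i = k
      · rw [hi, hbk, hbk', hxk]
        constructor <;> linarith
      · rw [hbi i hi, hbi' i hi]
        have h1 := hx.2 i hi
        simp only at h1
        have h2 : hp v N α i = Cell.lo v n k₁ k₀ z i := rfl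
        have h3 : hp v N β i = Cell.hi v n k₁ k₀ z i := rfl
        have h5 : v i + (z i : ℝ) / 2 ^ n = qlo v n z i := rfl
        have h6 : v i + ((z i : ℝ) + 1) / 2 ^ n = qhi v n z i := rfl
        have h7 : (2:ℝ) / 2 ^ (n + k₁) = 2 * (1 / 2 ^ (n + k₁)) := by ring
        rw [h5, h6, h7, hgd, qlo_eq n k₁ k₀, qhi_eq n k₁ k₀] at h1
        rw [h2, h3, lo_apply, hi_apply]
        have hmg := mg_apply (n₂ := n) (k₁ := k₁) (k₀ := k₀)
        have h9 := mul_le_mul_of_nonneg_right h8 hd.le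
        constructor <;> linarith [h1.1, h1.2]
    exact ⟨fun i => (key i).1, fun i => (key i).2⟩
  · intro b a l b1 b2 x hx hxp hxj
    have hpk : p b k = ht v N k ζ := by
      rw [hpm b a l b1]
      unfold Cell.mid
      rw [mid_apply_ne (Ne.symm b2.1.1)]
      unfold pt ht
      rw [b2.1.2.1]
    refine g5 b ⟨a, l, b1, b2⟩ x hx hxp
      (by rw [hbk, hbk', hxj k (Ne.symm b2.1.1), hpk]; ring) ⟨l, b2.1.1, ?_, hxj⟩
    rw [hpm b a l b1, hbi l b2.1.1, hbi' l b2.1.1]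
    unfold Cell.mid
    rw [mid_apply_self]
    rcases b2.1.2.2.1 with h5 | h5
    · left; rw [h5]; rfl
    · right; rw [h5]; rfl
  · intro x hx
    exact hreg0 t t.2 _ (g3 ▸ mem_image_of_mem _ hx)

end P073.PL
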