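import Vale.Agent.P073.PL.Spec
import Vale.Agent.P073.GB932.LidCut
import Vale.Agent.P073.GB371.DomCut

/-!
# P073, block SpecPlate: `DomCut` of the thin box over a rectangle (`SpecDomCut2`)
-/

open Set Metric Topology Filter

namespace P073.PL

open P073 P073.PR720 P073.GB73 P073.GBM P073.Gauge P073.GB1W P073.Cell P073.Plate
open Vale.Agent.P073.St (V)
open Vale.Agent.P073.AB
open Vale.Agent.P073.SQ (ev)
open P073.Net (dyc dyo)
open P073.GB371 (sqB mem_hbox mem_interior_hbox isClosed_hbox frontier_iff' squ_cut squ_data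
  mem_sqB strict_flat half_pos' pt_add_eq_hp_add pt_eq_hp_sub other_dir third_dir')

namespace D371

section numbers

variable {v : V} {N : ℕ} {k i : Fin 3} {ζ : ℤ} {α β w : Fin 3 → ℤ} {x : V} {l : Fin 3} {d : ℝ}

/-- the pattern in space, lower -/
def al3 (k : Fin 3) (ζ : ℤ) (α : Fin 3 → ℤ) : Fin 3 → ℤ := Function.update α k (ζ - 1)

/-- the pattern in space, upper -/
def be3 (k : Fin 3) (ζ : ℤ) (β : Fin 3 → ℤ) : Fin 3 → ℤ := Function.update β k ζ

theorem al3_self : al3 k ζ α k = ζ - 1 := Function.update_self _ _ _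
theorem be3_self : be3 k ζ β k = ζ := Function.update_self _ _ _
theorem al3_ne (h : i ≠ k) : al3 k ζ α i = α i := Function.update_of_ne h _ _
theorem be3_ne (h : i ≠ k) : be3 k ζ β i = β i := Function.update_of_ne h _ _

theorem ab3 (h : ∀ i, i ≠ k → α i < β i) (i : Fin 3) : al3 k ζ α i < be3 k ζ β i := by
  by_cases hi : i = k
  · subst hi; rw [al3_self, be3_self]; omega
  · rw [al3_ne hi, be3_ne hi]; exact h i hi

theorem hp_al3_ne (h : i ≠ k) : hp v N (al3 k ζ α) i = hp v N α i := by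
  unfold hp; rw [al3_ne h]

theorem hp_be3_ne (h : i ≠ k) : hp v N (be3 k ζ β) i = hp v N β i := by
  unfold hp; rw [be3_ne h]

theorem hp_al3_lt : hp v N (al3 k ζ α) k < ht v N k ζ := by
  unfold hp ht
  rw [al3_self, add_lt_add_iff_left, div_lt_div_iff_of_pos_right (two_pow_pos' N)]
  push_cast; linarith

theorem lt_hp_be3 : ht v N k ζ < hp v N (be3 k ζ β) k := by
  unfold hp ht
  rw [be3_self, add_lt_add_iff_left, div_lt_div_iff_of_pos_right (two_pow_pos' N)]
  linarith

theorem ht_eq_pt (h : w k = ζ) : ht v N k ζ = pt v N w k := by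
  unfold ht pt; rw [h]

theorem cross_iff (hl : l ≠ k) (hw : w k = ζ) :
    CrossZ (al3 k ζ α) (be3 k ζ β) w l ↔ Cross2 k ζ α β w l := by
  unfold CrossZ Cross2
  rw [al3_ne hl, be3_ne hl]
  constructor
  · rintro ⟨h1, h2⟩
    refine ⟨hl, hw, h1, fun j hj hjk => ?_⟩
    have := h2 j hj
    rwa [al3_ne hjk, be3_ne hjk] at this
  · rintro ⟨-, -, h1, h2⟩
    refine ⟨h1, fun j hj => ?_⟩
    by_cases hjk : j = k
    · subst hjk; rw [al3_self, be3_self, hw]; omega
    · rw [al3_ne hjk, be3_ne hjk]; exact h2 j hj hjk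

/-- the thin box -/
def rb (v : V) (N : ℕ) (k : Fin 3) (ζ : ℤ) (α β : Fin 3 → ℤ) (d : ℝ) : Set V :=
  Icc (rlo v N k ζ α d) (rhi v N k ζ β d)

theorem rlo_self : rlo v N k ζ α d k = ht v N k ζ - d := Function.update_self _ _ _
theorem rhi_self : rhi v N k ζ β d k = ht v N k ζ + d := Function.update_self _ _ _
theorem rlo_ne (h : i ≠ k) : rlo v N k ζ α d i = hp v N α i := Function.update_of_ne h _ _
theorem rhi_ne (h : i ≠ k) : rhi v N k ζ β d i = hp v N β i := Function.update_of_ne h _ _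

theorem mem_rb (hd : 0 < d) (hx : x k = ht v N k ζ) :
    x ∈ rb v N k ζ α β d ↔ x ∈ hbox v N (al3 k ζ α) (be3 k ζ β) := by
  rw [mem_hbox]
  unfold rb
  constructor
  · rintro ⟨h1, h2⟩ i
    by_cases hi : i = k
    · subst hi; rw [hx]; exact ⟨hp_al3_lt.le, lt_hp_be3.le⟩
    · have h3 := h1 i
      have h4 := h2 i
      rw [rlo_ne hi] at h3
      rw [rhi_ne hi] at h4
      rw [hp_al3_ne hi, hp_be3_ne hi]
      exact ⟨h3, h4⟩
  · intro h
    constructor
    · intro i
      by_cases hi : i = k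
      · subst hi; rw [hx, rlo_self]; linarith
      · rw [rlo_ne hi]
        have := (h i).1
        rwa [hp_al3_ne hi] at this
    · intro i
      by_cases hi : i = k
      · subst hi; rw [hx, rhi_self]; linarith
      · rw [rhi_ne hi]
        have := (h i).2
        rwa [hp_be3_ne hi] at this

theorem mem_int_rb (hd : 0 < d) (hx : x k = ht v N k ζ) :
    x ∈ interior (rb v N k ζ α β d) ↔ x ∈ interior (hbox v N (al3 k ζ α) (be3 k ζ β)) := by
  rw [mem_interior_hbox]
  unfold rb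
  rw [interior_Icc_pi']
  constructor
  · intro h i
    have h' := h i
    by_cases hi : i = k
    · subst hi; rw [hx]; exact ⟨hp_al3_lt, lt_hp_be3⟩
    · rw [rlo_ne hi, rhi_ne hi] at h'
      rw [hp_al3_ne hi, hp_be3_ne hi]
      exact h'
  · intro h i
    have h' := h i
    by_cases hi : i = k
    · subst hi; rw [hx, rlo_self, rhi_self]; exact ⟨by linarith, by linarith⟩
    · rw [rlo_ne hi, rhi_ne hi]
      rwa [hp_al3_ne hi, hp_be3_ne hi] at h'

theorem isClosed_rb : IsClosed (rb v N k ζ α β d) := isClosed_Icc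

theorem mem_fr_rb (hd : 0 < d) (hx : x k = ht v N k ζ) :
    x ∈ frontier (rb v N k ζ α β d) ↔ x ∈ frontier (hbox v N (al3 k ζ α) (be3 k ζ β)) := by
  rw [isClosed_rb.frontier_eq, isClosed_hbox.frontier_eq, Set.mem_sdiff, Set.mem_sdiff,
    mem_rb hd hx, mem_int_rb hd hx]

/-- comparison of the thin box and the lattice box for subsets of the plane -/
theorem planar {S : Set V} (hd : 0 < d) (hS : ∀ x ∈ S, x k = ht v N k ζ) :
    S ∩ rb v N k ζ α β d = S ∩ hbox v N (al3 k ζ α) (be3 k ζ β) ∧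
    S \ interior (rb v N k ζ α β d) = S \ interior (hbox v N (al3 k ζ α) (be3 k ζ β)) ∧
    S ∩ frontier (rb v N k ζ α β d) = S ∩ frontier (hbox v N (al3 k ζ α) (be3 k ζ β)) := by
  refine ⟨?_, ?_, ?_⟩
  · ext x
    exact and_congr_right fun hx => mem_rb hd (hS x hx)
  · ext x
    exact and_congr_right fun hx => not_congr (mem_int_rb hd (hS x hx))
  · ext x
    exact and_congr_right fun hx => mem_fr_rb hd (hS x hx)

theorem squ_plane (hw : w k = ζ) : ∀ x ∈ squ v ((N, w), k), x k = ht v N k ζ := by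
  intro x hx
  rw [mem_squ] at hx
  rw [hx.1, ht_eq_pt hw]

theorem edge_plane (hl : l ≠ k) (hw : w k = ζ) : ∀ x ∈ edge v ((N, w), l), x k = ht v N k ζ := by
  intro x hx
  rw [GBM.mem_edge] at hx
  rw [hx.1 k (Ne.symm hl), ht_eq_pt hw]

end numbers

variable {Vx B J I : Type} {e0 e1 : B → Vx} {inc : B → J → Prop} {qC : J → I → Prop} {Ω : Set V}
  {K : Cx3 e0 e1 inc qC Ω} {v : V} {N : ℕ} {k : Fin 3} {ζ : ℤ} {q0 q1 : V} {cu cd : I}
  {α β w : Fin 3 → ℤ} {l : Fin 3} {d : ℝ}

theorem q0_lt_ht (L : Lat2 K v N k ζ q0 q1 cu cd) : q0 k < ht v N k ζ ∧ ht v N k ζ < q1 k := by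
  have := L.lt k
  have := L.mid
  constructor <;> linarith

/-- points of the plane over the rectangle -/
theorem mem_int {x : V} (L : Lat2 K v N k ζ q0 q1 cu cd) (hR : RectIn v N k q0 q1 α β)
    (hx : x k = ht v N k ζ)
    (h : ∀ i, i ≠ k → pt v N α i ≤ x i ∧ x i ≤ pt v N β i + 1 / 2 ^ N) :
    x ∈ interior (Icc q0 q1) := by
  rw [interior_Icc_pi']
  intro i
  by_cases hi : i = k
  · subst hi; rw [hx]; exact q0_lt_ht L
  · exact ⟨(hR i hi).2.1.trans_le (h i hi).1, (h i hi).2.trans_lt (hR i hi).2.2⟩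

theorem rb_sub (L : Lat2 K v N k ζ q0 q1 cu cd) (hR : RectIn v N k q0 q1 α β)
    (hdq : ht v N k ζ + d < q1 k) : rb v N k ζ α β d ⊆ interior (Icc q0 q1) := by
  rintro x ⟨h1, h2⟩
  rw [interior_Icc_pi']
  intro i
  have h1' := h1 i
  have h2' := h2 i
  have hp := half_pos' N
  by_cases hi : i = k
  · subst hi
    rw [rlo_self] at h1'
    rw [rhi_self] at h2'
    have := L.mid
    exact ⟨by linarith, by linarith⟩
  · rw [rlo_ne hi] at h1'
    rw [rhi_ne hi] at h2'
    have h3 := (hR i hi).2.1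
    have h4 := (hR i hi).2.2
    rw [pt_eq_hp_sub] at h3
    rw [pt_add_eq_hp_add] at h4
    exact ⟨by linarith, by linarith⟩

/-- squares near the rim -/
theorem squ_sub (L : Lat2 K v N k ζ q0 q1 cu cd) (hR : RectIn v N k q0 q1 α β) (hw : w k = ζ)
    (h : ∀ i, i ≠ k → α i ≤ w i ∧ w i ≤ β i) : squ v ((N, w), k) ⊆ interior (Icc q0 q1) := by
  intro x hx
  refine mem_int L hR (squ_plane hw x hx) fun i hi => ?_
  rw [mem_squ] at hx
  exact ⟨(pt_le_pt.2 (h i hi).1).trans (hx.2 i hi).1,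
    (hx.2 i hi).2.trans (by have := pt_le_pt (v := v) (n := N).2 (h i hi).2; linarith)⟩

/-- crossed edges -/
theorem edge_sub (L : Lat2 K v N k ζ q0 q1 cu cd) (hR : RectIn v N k q0 q1 α β)
    (h : Cross2 k ζ α β w l) : edge v ((N, w), l) ⊆ interior (Icc q0 q1) := by
  have hpos : (0:ℝ) < 1 / 2 ^ N := by positivity
  intro x hx
  refine mem_int L hR (edge_plane h.1 h.2.1 x hx) fun i hi => ?_
  rw [GBM.mem_edge] at hx
  by_cases hil : i = l
  · subst hil
    have h1 := (hR i hi).1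
    have h2 : α i ≤ w i ∧ w i ≤ β i := by
      rcases h.2.2.1 with h | h <;> rw [h] <;> constructor <;> omega
    have h3 := pt_le_pt (v := v) (n := N).2 h2.1
    have h4 := pt_le_pt (v := v) (n := N).2 h2.2
    exact ⟨by linarith [hx.2.1], by linarith [hx.2.2]⟩
  · have h2 := h.2.2.2 i hil hi
    have h3 := pt_le_pt (v := v) (n := N).2 h2.1.le
    have h4 := pt_le_pt (v := v) (n := N).2 h2.2
    rw [hx.1 i hil]
    exact ⟨by linarith, by linarith⟩

/-- the boundary of a tile which is a lattice square -/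
theorem bd_eq2 (L : Lat2 K v N k ζ q0 q1 cu cd) {j : J} (hj : K.tile j = squ v ((N, w), k))
    (hw : w k = ζ) (hU : squ v ((N, w), k) ⊆ interior (Icc q0 q1)) :
    K.toCx2.bd j = sqB v N w k := by
  ext x
  rw [mem_sqB]
  constructor
  · intro hx
    obtain ⟨b, hb, hxb⟩ := mem_iUnion₂.1 hx
    have h1 : K.arc b ⊆ squ v ((N, w), k) := hj ▸ K.toCx2.arc_subset_tile hb
    obtain ⟨w', l, -, -, hbw⟩ := L.arc b ⟨x, hxb, hU (h1 hxb)⟩
    refine ⟨w', l, ?_, hbw ▸ hxb⟩
    rw [hbw] at h1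
    exact edge_subset_squ.1 h1
  · rintro ⟨w', l, hE, hx⟩
    have h1 := edge_subset_squ.2 hE hx
    obtain ⟨b, hb⟩ := L.arc' w' l hE.2.1 (hE.2.2.2.1.trans hw) ⟨x, hx, hU h1⟩
    exact mem_iUnion₂.2 ⟨b, (Lat.inc_iff_edgeOfSq hb hj).2 hE, hb ▸ hx⟩

/-- the ends of a crossed arc -/
theorem arc_ends2 (L : Lat2 K v N k ζ q0 q1 cu cd) {b : B} (hlk : l ≠ k) (hw : w k = ζ)
    (hb : K.arc b = edge v ((N, w), l)) (hU : edge v ((N, w), l) ⊆ interior (Icc q0 q1)) :
    (K.y (e0 b) = pt v N w ∧ K.y (e1 b) = pt v N w + (1 / 2 ^ N : ℝ) • ev l) ∨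
      (K.y (e1 b) = pt v N w ∧ K.y (e0 b) = pt v N w + (1 / 2 ^ N : ℝ) • ev l) := by
  have hpos : (0:ℝ) < 1 / 2 ^ N := by positivity
  obtain ⟨m, hml, hmk⟩ := third_dir' l k hlk
  -- a lattice point of the edge is a vertex
  have key : ∀ w' : Fin 3 → ℤ, w' k = ζ → pt v N w' ∈ edge v ((N, w), l) →
      ∃ u, K.y u = pt v N w' := by
    intro w' hw' h
    obtain ⟨b', hb'⟩ := L.arc' w' m hmk hw' ⟨_, left_mem_edge, hU h⟩
    have hne : b ≠ b' := by
      rintro rfl
      exact hml (edge_inj (hb'.symm.trans hb)).2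
    have h1 := K.inter b b' hne ⟨hb ▸ h, hb' ▸ left_mem_edge⟩
    obtain ⟨u, hu⟩ := h1
    exact ⟨u, hu⟩
  have e2 : pt v N w + (1 / 2 ^ N : ℝ) • ev l = pt v N (Function.update w l (w l + 1)) := by
    funext j
    by_cases hj : j = l
    · subst hj
      simp only [Pi.add_apply, Pi.smul_apply, smul_eq_mul, ev_same, mul_one]
      unfold pt
      rw [Function.update_self]
      push_cast
      ring
    · simp only [Pi.add_apply, Pi.smul_apply, smul_eq_mul, ev_of_ne hj, mul_zero, add_zero]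
      exact (pt_inj.2 (Function.update_of_ne hj _ _)).symm
  have hr : pt v N w + (1 / 2 ^ N : ℝ) • ev l ∈ edge v ((N, w), l) := right_mem_segment ℝ _ _
  obtain ⟨u, hu⟩ := key w hw left_mem_edge
  obtain ⟨u', hu'⟩ := key (Function.update w l (w l + 1))
    (by rw [Function.update_of_ne (Ne.symm hlk)]; exact hw) (e2 ▸ hr)
  rw [← e2] at hu'
  have hne : u ≠ u' := by
    rintro rfl
    have h1 := congrFun (hu.symm.trans hu') l
    simp only [Pi.add_apply, Pi.smul_apply, smul_eq_mul, ev_same, mul_one] at h1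
    linarith
  have h1 : K.y u ∈ K.arc b := by rw [hb, hu]; exact left_mem_edge
  have h2 : K.y u' ∈ K.arc b := by rw [hb, hu']; exact hr
  rcases K.mem b u h1 with h3 | h3 <;> rcases K.mem b u' h2 with h4 | h4
  · exact absurd (h3.trans h4.symm) hne
  · exact Or.inl ⟨h3 ▸ hu, h4 ▸ hu'⟩
  · exact Or.inr ⟨h3 ▸ hu, h4 ▸ hu'⟩
  · exact absurd (h3.trans h4.symm) hne

end D371

open D371

/-- the two half boxes -/
theorem twoCells {Vx B J I : Type} {e0 e1 : B → Vx} {inc : B → J → Prop} {qC : J → I → Prop}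
    {Ω : Set V} {K : Cx3 e0 e1 inc qC Ω} {v : V} {N : ℕ} {k : Fin 3} {ζ : ℤ} {q0 q1 : V}
    {cu cd : I} {α β : Fin 3 → ℤ} {d : ℝ} (L : Lat2 K v N k ζ q0 q1 cu cd)
    (hR : RectIn v N k q0 q1 α β) (hd : 0 < d) (hdq : ht v N k ζ + d < q1 k) :
    GB932.TwoCells K (rb v N k ζ α β d) k (ht v N k ζ) cu cd
      (Function.update q0 k (ht v N k ζ)) q1 (Function.update (hp v N α) k (ht v N k ζ))
      (rhi v N k ζ β d) q0 (Function.update q1 k (ht v N k ζ)) (rlo v N k ζ α d)
      (Function.update (hp v N β) k (ht v N k ζ)) := by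
  have hpos := half_pos' N
  have hq : ∀ i, i ≠ k → q0 i < hp v N α i ∧ hp v N α i < hp v N β i ∧ hp v N β i < q1 i := by
    intro i hi
    have h3 := (hR i hi).2.1
    have h4 := (hR i hi).2.2
    rw [pt_eq_hp_sub] at h3
    rw [pt_add_eq_hp_add] at h4
    exact ⟨by linarith, hp_lt_hp.2 (hR i hi).1, by linarith⟩
  have hmid := L.mid
  have hfr : ∀ x, x ∈ frontier (rb v N k ζ α β d) ↔ x ∈ rb v N k ζ α β d ∧
      ∃ i, x i = rlo v N k ζ α d i ∨ x i = rhi v N k ζ β d i := fun x =>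
    GB932.mem_frontier_box
  have hmem : ∀ x, x ∈ rb v N k ζ α β d ↔ (ht v N k ζ - d ≤ x k ∧ x k ≤ ht v N k ζ + d) ∧
      ∀ i, i ≠ k → hp v N α i ≤ x i ∧ x i ≤ hp v N β i := by
    intro x
    constructor
    · rintro ⟨h1, h2⟩
      refine ⟨⟨by rw [← rlo_self (α := α) (d := d)]; exact h1 k,
        by rw [← rhi_self (β := β) (d := d)]; exact h2 k⟩, fun i hi => ?_⟩
      exact ⟨by rw [← rlo_ne (ζ := ζ) (d := d) hi]; exact h1 i,
        by rw [← rhi_ne (ζ := ζ) (d := d) hi]; exact h2 i⟩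
    · rintro ⟨h1, h2⟩
      constructor
      · intro i
        by_cases hi : i = k
        · subst hi; rw [rlo_self]; exact h1.1
        · rw [rlo_ne hi]; exact (h2 i hi).1
      · intro i
        by_cases hi : i = k
        · subst hi; rw [rhi_self]; exact h1.2
        · rw [rhi_ne hi]; exact (h2 i hi).2
  have hUp : ∀ x, x ∈ Icc (Function.update (hp v N α) k (ht v N k ζ)) (rhi v N k ζ β d) ↔
      (ht v N k ζ ≤ x k ∧ x k ≤ ht v N k ζ + d) ∧
      ∀ i, i ≠ k → hp v N α i ≤ x i ∧ x i ≤ hp v N β i := by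
    intro x
    constructor
    · rintro ⟨h1, h2⟩
      have a := h1 k
      have b := h2 k
      rw [Function.update_self] at a
      rw [rhi_self] at b
      refine ⟨⟨a, b⟩, fun i hi => ?_⟩
      have a := h1 i
      have b := h2 i
      rw [Function.update_of_ne hi] at a
      rw [rhi_ne hi] at b
      exact ⟨a, b⟩
    · rintro ⟨h1, h2⟩
      constructor
      · intro i
        by_cases hi : i = k
        · subst hi; rw [Function.update_self]; exact h1.1
        · rw [Function.update_of_ne hi]; exact (h2 i hi).1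
      · intro i
        by_cases hi : i = k
        · subst hi; rw [rhi_self]; exact h1.2
        · rw [rhi_ne hi]; exact (h2 i hi).2
  have hDn : ∀ x, x ∈ Icc (rlo v N k ζ α d) (Function.update (hp v N β) k (ht v N k ζ)) ↔
      (ht v N k ζ - d ≤ x k ∧ x k ≤ ht v N k ζ) ∧
      ∀ i, i ≠ k → hp v N α i ≤ x i ∧ x i ≤ hp v N β i := by
    intro x
    constructor
    · rintro ⟨h1, h2⟩
      have a := h1 k
      have b := h2 k
      rw [rlo_self] at a
      rw [Function.update_self] at b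
      refine ⟨⟨a, b⟩, fun i hi => ?_⟩
      have a := h1 i
      have b := h2 i
      rw [rlo_ne hi] at a
      rw [Function.update_of_ne hi] at b
      exact ⟨a, b⟩
    · rintro ⟨h1, h2⟩
      constructor
      · intro i
        by_cases hi : i = k
        · subst hi; rw [rlo_self]; exact h1.1
        · rw [rlo_ne hi]; exact (h2 i hi).1
      · intro i
        by_cases hi : i = k
        · subst hi; rw [Function.update_self]; exact h1.2
        · rw [Function.update_of_ne hi]; exact (h2 i hi).2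
  have hCu : ∀ x, x ∈ K.cell cu ↔ (ht v N k ζ ≤ x k ∧ x k ≤ q1 k) ∧
      ∀ i, i ≠ k → q0 i ≤ x i ∧ x i ≤ q1 i := by
    intro x
    rw [L.up]
    constructor
    · rintro ⟨h1, h2⟩
      have a := h1 k
      rw [Function.update_self] at a
      refine ⟨⟨a, h2 k⟩, fun i hi => ?_⟩
      have a := h1 i
      rw [Function.update_of_ne hi] at a
      exact ⟨a, h2 i⟩
    · rintro ⟨h1, h2⟩
      constructor
      · intro i
        by_cases hi : i = k
        · subst hi; rw [Function.update_self]; exact h1.1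
        · rw [Function.update_of_ne hi]; exact (h2 i hi).1
      · intro i
        by_cases hi : i = k
        · subst hi; exact h1.2
        · exact (h2 i hi).2
  have hCd : ∀ x, x ∈ K.cell cd ↔ (q0 k ≤ x k ∧ x k ≤ ht v N k ζ) ∧
      ∀ i, i ≠ k → q0 i ≤ x i ∧ x i ≤ q1 i := by
    intro x
    rw [L.dn]
    constructor
    · rintro ⟨h1, h2⟩
      have a := h2 k
      rw [Function.update_self] at a
      refine ⟨⟨h1 k, a⟩, fun i hi => ?_⟩
      have a := h2 i
      rw [Function.update_of_ne hi] at a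
      exact ⟨h1 i, a⟩
    · rintro ⟨h1, h2⟩
      constructor
      · intro i
        by_cases hi : i = k
        · subst hi; exact h1.1
        · exact (h2 i hi).1
      · intro i
        by_cases hi : i = k
        · subst hi; rw [Function.update_self]; exact h1.2
        · rw [Function.update_of_ne hi]; exact (h2 i hi).2
  refine ⟨⟨L.up, ⟨?_, ?_, ?_⟩, ?_, ?_⟩, ⟨L.dn, ⟨?_, ?_, ?_⟩, ?_, ?_⟩, ?_, ?_⟩
  · intro i
    by_cases hi : i = k
    · subst hi; rw [Function.update_self, rhi_self]; linarith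
    · rw [Function.update_of_ne hi, rhi_ne hi]; exact (hq i hi).2.1
  · intro i hi
    rw [Function.update_of_ne hi, Function.update_of_ne hi, rhi_ne hi]
    exact ⟨(hq i hi).1, (hq i hi).2.2⟩
  · left
    rw [Function.update_self, Function.update_self, rhi_self]
    exact ⟨rfl, rfl, hdq⟩
  · ext x
    rw [mem_inter_iff, hCu, hmem, hUp]
    constructor
    · rintro ⟨⟨a1, a2⟩, b1, b2⟩; exact ⟨⟨a1.1, b1.2⟩, b2⟩
    · rintro ⟨a1, a2⟩
      exact ⟨⟨⟨a1.1, by linarith [a1.2]⟩, fun i hi => ⟨by linarith [(hq i hi).1, (a2 i hi).1],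
        by linarith [(hq i hi).2.2, (a2 i hi).2]⟩⟩, ⟨by linarith [a1.1], a1.2⟩, a2⟩
  · ext x
    unfold GB932.ld
    rw [mem_inter_iff, hCu, hfr, hmem, mem_ofPred_eq, hUp]
    constructor
    · rintro ⟨⟨a1, a2⟩, ⟨b1, b2⟩, i, hi⟩
      refine ⟨⟨⟨a1.1, b1.2⟩, b2⟩, ?_⟩
      by_cases hik : i = k
      · subst hik
        rw [rlo_self, rhi_self] at hi
        right
        rcases hi with hi | hi
        · exfalso; linarith [a1.1]
        · refine ⟨by rw [hi]; linarith, Or.inr ?_⟩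
          rw [rhi_self]; exact hi
      · left
        refine ⟨i, hik, ?_⟩
        rw [Function.update_of_ne hik, rhi_ne hik]
        rwa [rlo_ne hik, rhi_ne hik] at hi
    · rintro ⟨⟨a1, a2⟩, b⟩
      refine ⟨⟨⟨a1.1, by linarith [a1.2]⟩, fun i hi => ⟨by linarith [(hq i hi).1, (a2 i hi).1],
        by linarith [(hq i hi).2.2, (a2 i hi).2]⟩⟩, ⟨⟨by linarith [a1.1], a1.2⟩, a2⟩, ?_⟩
      rcases b with ⟨i, hik, hi⟩ | ⟨b1, b2⟩
      · refine ⟨i, ?_⟩
        rw [Function.update_of_ne hik, rhi_ne hik] at hi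
        rwa [rlo_ne hik, rhi_ne hik]
      · refine ⟨k, Or.inr ?_⟩
        rcases b2 with b2 | b2
        · rw [Function.update_self] at b2
          exact absurd b2 b1
        · exact b2
  · intro i
    by_cases hi : i = k
    · subst hi; rw [Function.update_self, rlo_self]; linarith
    · rw [Function.update_of_ne hi, rlo_ne hi]; exact (hq i hi).2.1
  · intro i hi
    rw [Function.update_of_ne hi, Function.update_of_ne hi, rlo_ne hi]
    exact ⟨(hq i hi).1, (hq i hi).2.2⟩
  · right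
    rw [Function.update_self, Function.update_self, rlo_self]
    exact ⟨rfl, rfl, by linarith⟩
  · ext x
    rw [mem_inter_iff, hCd, hmem, hDn]
    constructor
    · rintro ⟨⟨a1, a2⟩, b1, b2⟩; exact ⟨⟨b1.1, a1.2⟩, b2⟩
    · rintro ⟨a1, a2⟩
      exact ⟨⟨⟨by linarith [a1.1], a1.2⟩, fun i hi => ⟨by linarith [(hq i hi).1, (a2 i hi).1],
        by linarith [(hq i hi).2.2, (a2 i hi).2]⟩⟩, ⟨a1.1, by linarith [a1.2]⟩, a2⟩
  · ext x
    unfold GB932.ld
    rw [mem_inter_iff, hCd, hfr, hmem, mem_ofPred_eq, hDn]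
    constructor
    · rintro ⟨⟨a1, a2⟩, ⟨b1, b2⟩, i, hi⟩
      refine ⟨⟨⟨b1.1, a1.2⟩, b2⟩, ?_⟩
      by_cases hik : i = k
      · subst hik
        rw [rlo_self, rhi_self] at hi
        right
        rcases hi with hi | hi
        · refine ⟨by rw [hi]; linarith, Or.inl ?_⟩
          rw [rlo_self]; exact hi
        · exfalso; linarith [a1.2]
      · left
        refine ⟨i, hik, ?_⟩
        rw [Function.update_of_ne hik, rlo_ne hik]
        rwa [rlo_ne hik, rhi_ne hik] at hi
    · rintro ⟨⟨a1, a2⟩, b⟩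
      refine ⟨⟨⟨by linarith [a1.1], a1.2⟩, fun i hi => ⟨by linarith [(hq i hi).1, (a2 i hi).1],
        by linarith [(hq i hi).2.2, (a2 i hi).2]⟩⟩, ⟨⟨a1.1, by linarith [a1.2]⟩, a2⟩, ?_⟩
      rcases b with ⟨i, hik, hi⟩ | ⟨b1, b2⟩
      · refine ⟨i, ?_⟩
        rw [Function.update_of_ne hik, rlo_ne hik] at hi
        rwa [rlo_ne hik, rhi_ne hik]
      · refine ⟨k, Or.inl ?_⟩
        rcases b2 with b2 | b2
        · exact b2
        · rw [Function.update_self] at b2
          exact absurd b2 b1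
  · refine ⟨interior (Icc q0 q1), isOpen_interior, rb_sub L hR hdq, ?_⟩
    intro x hx
    have hx' := interior_subset hx
    rcases le_total (ht v N k ζ) (x k) with h | h
    · exact Or.inl ((hCu x).2 ⟨⟨h, hx'.2 k⟩, fun i _ => ⟨hx'.1 i, hx'.2 i⟩⟩)
    · exact Or.inr ((hCd x).2 ⟨⟨hx'.1 k, h⟩, fun i _ => ⟨hx'.1 i, hx'.2 i⟩⟩)
  · intro x hx hxk
    obtain ⟨h1, h2⟩ := (hmem x).1 hx
    have h3 : ∀ i, i ≠ k → q0 i ≤ x i ∧ x i ≤ q1 i := fun i hi =>
      ⟨by linarith [(hq i hi).1, (h2 i hi).1], by linarith [(hq i hi).2.2, (h2 i hi).2]⟩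
    exact ⟨(hCu x).2 ⟨⟨hxk.ge, by linarith [h1.2]⟩, h3⟩,
      (hCd x).2 ⟨⟨by linarith [h1.1], hxk.le⟩, h3⟩⟩

/-- **(DOM2)** the thin box cuts the complex along the pattern -/
theorem specDomCut2 : SpecDomCut2 := by
  intro Vx B J I e0 e1 inc qC Ω K v N k ζ q0 q1 cu cd L α β d hR hd hdq p hcut
  have hαβ : ∀ i, i ≠ k → α i < β i := fun i hi => (hR i hi).1
  have hαβ3 := ab3 (k := k) (ζ := ζ) hαβ
  have hRR : Icc (rlo v N k ζ α d) (rhi v N k ζ β d) = rb v N k ζ α β d := rfl
  rw [hRR]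
  have hsub : rb v N k ζ α β d ⊆ interior (Icc q0 q1) := rb_sub L hR hdq
  have hfr : frontier (rb v N k ζ α β d) ⊆ interior (Icc q0 q1) :=
    isClosed_rb.frontier_subset.trans hsub
  have hpos : (0:ℝ) < 1 / 2 ^ N := by positivity
  -- crossed arcs
  have hcr : ∀ b, b ∈ cr2 K v N k ζ α β → K.arc b ∩ frontier (rb v N k ζ α β d) = {p b} := by
    rintro b ⟨w, l, h1, h2⟩
    rw [h1, (planar hd (edge_plane h2.1 h2.2.1)).2.2,
      GB371.edge_inter_frontier_eq hαβ3 ((cross_iff h2.1 h2.2.1).2 h2), hcut b w l h1 h2]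
    rfl
  have hncr : ∀ b, b ∉ cr2 K v N k ζ α β → K.arc b ∩ frontier (rb v N k ζ α β d) = ∅ := by
    intro b hb
    by_contra hne
    obtain ⟨x, hx1, hx2⟩ := nonempty_iff_ne_empty.2 hne
    obtain ⟨w, l, hl, hw, h1⟩ := L.arc b ⟨x, hx1, hfr hx2⟩
    apply hb
    refine ⟨w, l, h1, (cross_iff hl hw).1 (edge_inter_frontier ⟨x, h1 ▸ hx1, ?_⟩)⟩
    exact (mem_fr_rb hd (edge_plane hl hw x (h1 ▸ hx1))).1 hx2
  -- boundary curve of a tile on the frontier
  have hbdj : ∀ j, K.toCx2.bd j ∩ frontier (rb v N k ζ α β d) =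
      p '' {b | inc b j ∧ b ∈ cr2 K v N k ζ α β} := by
    intro j
    ext x
    constructor
    · rintro ⟨hx1, hx2⟩
      obtain ⟨b, hb, hxb⟩ := mem_iUnion₂.1 hx1
      have hbc : b ∈ cr2 K v N k ζ α β := by
        by_contra hbc
        have : x ∈ K.arc b ∩ frontier (rb v N k ζ α β d) := ⟨hxb, hx2⟩
        rw [hncr b hbc] at this
        exact this
      have : x ∈ K.arc b ∩ frontier (rb v N k ζ α β d) := ⟨hxb, hx2⟩
      rw [hcr b hbc] at this
      exact ⟨b, ⟨hb, hbc⟩, (mem_singleton_iff.1 this).symm⟩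
    · rintro ⟨b, ⟨hb, hbc⟩, rfl⟩
      have : p b ∈ K.arc b ∩ frontier (rb v N k ζ α β d) := by
        rw [hcr b hbc]; exact mem_singleton _
      exact ⟨mem_iUnion₂.2 ⟨b, hb, this.1⟩, this.2⟩
  -- tiles
  have htile : ∀ j, (K.tile j ∩ frontier (rb v N k ζ α β d)).Nonempty →
      ConBall 1 (K.tile j ∩ frontier (rb v N k ζ α β d))
        (K.toCx2.bd j ∩ frontier (rb v N k ζ α β d)) ∧
      ConBall 2 (K.tile j ∩ rb v N k ζ α β d)
        ((K.toCx2.bd j ∩ rb v N k ζ α β d) ∪ (K.tile j ∩ frontier (rb v N k ζ α β d))) ∧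
      ConBall 2 (K.tile j \ interior (rb v N k ζ α β d))
        ((K.toCx2.bd j \ interior (rb v N k ζ α β d)) ∪
          (K.tile j ∩ frontier (rb v N k ζ α β d))) := by
    intro j hne
    obtain ⟨w, hw, hj⟩ := L.tile j (hne.mono (inter_subset_inter_right _ hfr))
    obtain ⟨p1, p2, p3⟩ := planar (α := α) (β := β) hd (squ_plane (v := v) (N := N) hw)
    rw [hj, p3] at hne
    obtain ⟨d1, d2, d3⟩ := squ_data hne
    have d1' : ∀ i, i ≠ k → α i ≤ w i ∧ w i ≤ β i := fun i hi => by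
      have := d1 i hi
      rwa [al3_ne hi, be3_ne hi] at this
    have hbd := bd_eq2 L hj hw (squ_sub L hR hw d1')
    have hsB : ∀ x ∈ sqB v N w k, x k = ht v N k ζ := fun x hx => squ_plane hw x hx.1
    obtain ⟨r1, r2, r3⟩ := planar (α := α) (β := β) hd hsB
    rw [hbd, hj, p1, p2, p3, r1, r2, r3]
    exact squ_cut hαβ3 d1 d2 d3
  have htne : ∀ j, {b | inc b j ∧ b ∈ cr2 K v N k ζ α β} ≠ ∅ →
      (K.tile j ∩ frontier (rb v N k ζ α β d)).Nonempty := by
    intro j hj
    obtain ⟨b, hb, hbc⟩ := nonempty_iff_ne_empty.2 hj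
    have : p b ∈ K.arc b ∩ frontier (rb v N k ζ α β d) := by
      rw [hcr b hbc]; exact mem_singleton _
    exact ⟨p b, K.toCx2.arc_subset_tile hb this.1, this.2⟩
  have htne' : ∀ j, (K.tile j ∩ frontier (rb v N k ζ α β d)).Nonempty →
      {b | inc b j ∧ b ∈ cr2 K v N k ζ α β} ≠ ∅ := by
    intro j hj hemp
    have h1 := (htile j hj).1
    rw [hbdj, hemp, image_empty] at h1
    obtain ⟨-, φ, hφ⟩ := h1
    rw [image_empty] at hφ
    have : (fun _ => (1:ℝ)) ∈ sphere (0 : Fin 1 → ℝ) 1 := by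
      rw [sphere_fin_one]; exact Or.inr rfl
    rw [← hφ] at this
    exact this
  have hlt : ∀ i, rlo v N k ζ α d i < rhi v N k ζ β d i := by
    intro i
    by_cases hi : i = k
    · subst hi; rw [rlo_self, rhi_self]; linarith
    · rw [rlo_ne hi, rhi_ne hi]; exact hp_lt_hp.2 (hαβ i hi)
  have hne : (cr2 K v N k ζ α β).Nonempty := by
    obtain ⟨l, hl⟩ := other_dir k
    have hc : Cross2 k ζ α β (Function.update β k ζ) l := by
      refine ⟨hl, Function.update_self _ _ _, Or.inr (Function.update_of_ne hl _ _),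
        fun j _ hjk => ?_⟩
      rw [Function.update_of_ne hjk]
      exact ⟨hαβ j hjk, le_refl _⟩
    obtain ⟨b, hb⟩ := L.arc' _ l hl hc.2.1 ⟨_, left_mem_edge, edge_sub L hR hc left_mem_edge⟩
    exact ⟨b, _, l, hb, hc⟩
  refine GB932.domCut_plate (twoCells L hR hd hdq) (conBall_Icc_pi (by norm_num) hlt)
    (hsub.trans (interior_subset.trans L.sub)) hne
    { crosses :=
        { off := by
            intro b hb
            rw [image_id, Set.disjoint_iff_inter_eq_empty]
            exact hncr b hb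
          on := by
            intro b hb
            rw [image_id]
            exact hcr b hb
          ends := ?_ }
      off_tile := by
        intro j hj
        rw [Set.disjoint_iff_inter_eq_empty]
        by_contra hne
        exact htne' j (nonempty_iff_ne_empty.2 hne) hj
      arc := by
        intro j b b' hbb hj
        have h1 := (htile j (htne j (by rw [hj]; exact (insert_nonempty b {b'}).ne_empty))).1
        rw [hbdj, hj, image_pair] at h1
        exact h1
      tile_in := fun j hj => (htile j (htne j hj)).2.1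
      tile_out := fun j hj => (htile j (htne j hj)).2.2 }
  rintro b ⟨w, l, h1, h2⟩
  have hl := h2.1
  have hw := h2.2.1
  have hsubU : edge v ((N, w), l) ⊆ interior (Icc q0 q1) := edge_sub L hR h2
  have h2' := (cross_iff hl hw).2 h2
  have e2 : ∀ j, j ≠ l → (pt v N w + (1 / 2 ^ N : ℝ) • ev l) j = pt v N w j := by
    intro j hj; simp [ev_of_ne hj]
  have e3 : (pt v N w + (1 / 2 ^ N : ℝ) • ev l) l = pt v N w l + 1 / 2 ^ N := by
    simp [ev_same]
  have pl1 : pt v N w k = ht v N k ζ := (ht_eq_pt hw).symm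
  have pl2 : (pt v N w + (1 / 2 ^ N : ℝ) • ev l) k = ht v N k ζ := by
    rw [e2 k (Ne.symm hl), pl1]
  have hother : ∀ j, j ≠ l → hp v N (al3 k ζ α) j < pt v N w j ∧
      pt v N w j < hp v N (be3 k ζ β) j :=
    fun j hj => strict_flat (x := pt v N w) (h2'.2 j hj).1 (h2'.2 j hj).2 rfl
  have hpos2 := half_pos' N
  have hlt3 := hp_lt_hp (v := v) (n := N).2 (hαβ3 l)
  have main : (pt v N w ∉ hbox v N (al3 k ζ α) (be3 k ζ β) ∧
      pt v N w + (1 / 2 ^ N : ℝ) • ev l ∈ interior (hbox v N (al3 k ζ α) (be3 k ζ β))) ∨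
      (pt v N w ∈ interior (hbox v N (al3 k ζ α) (be3 k ζ β)) ∧
      pt v N w + (1 / 2 ^ N : ℝ) • ev l ∉ hbox v N (al3 k ζ α) (be3 k ζ β)) := by
    by_cases hwb : w l = be3 k ζ β l
    · right
      have ehp : hp v N w l = hp v N (be3 k ζ β) l := by unfold hp; rw [hwb]
      refine ⟨mem_interior_hbox.2 fun j => ?_, fun h => ?_⟩
      · by_cases hj : j = l
        · subst hj
          exact strict_flat (x := pt v N w) (hwb ▸ hαβ3 j) hwb.le rfl
        · exact hother j hj
      · have := (mem_hbox.1 h l).2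
        rw [e3, pt_add_eq_hp_add, ehp] at this
        linarith
    · left
      have hwa : w l = al3 k ζ α l := h2'.1.resolve_right hwb
      have ehp : hp v N w l = hp v N (al3 k ζ α) l := by unfold hp; rw [hwa]
      refine ⟨fun h => ?_, mem_interior_hbox.2 fun j => ?_⟩
      · have := (mem_hbox.1 h l).1
        rw [pt_eq_hp_sub, ehp] at this
        linarith
      · by_cases hj : j = l
        · subst hj
          rw [e3]
          constructor
          · rw [pt_add_eq_hp_add, ehp]; linarith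
          · have h5 : pt v N (fun i => w i + 1) j = pt v N w j + 1 / 2 ^ N := by
              rw [pt_succ]; unfold pt; push_cast; ring
            rw [← h5]
            exact lt_of_le_of_ne (pt_le_hp.2 (by
              show w j + 1 ≤ be3 k ζ β j
              rw [hwa]; exact hαβ3 j)) pt_ne_hp
        · rw [e2 j hj]; exact hother j hj
  rw [← mem_rb (d := d) hd pl1, ← mem_rb (d := d) hd pl2, ← mem_int_rb (d := d) hd pl1,
    ← mem_int_rb (d := d) hd pl2] at main
  show (K.y (e0 b) ∈ interior (rb v N k ζ α β d) ∧ K.y (e1 b) ∉ rb v N k ζ α β d) ∨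
    (K.y (e1 b) ∈ interior (rb v N k ζ α β d) ∧ K.y (e0 b) ∉ rb v N k ζ α β d)
  rcases arc_ends2 L hl hw h1 hsubU with ⟨g1, g2⟩ | ⟨g1, g2⟩ <;> rw [g1, g2] <;>
    rcases main with ⟨m1, m2⟩ | ⟨m1, m2⟩
  · exact Or.inr ⟨m2, m1⟩
  · exact Or.inl ⟨m1, m2⟩
  · exact Or.inl ⟨m2, m1⟩
  · exact Or.inr ⟨m1, m2⟩

end P073.PL
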