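import Vale.Agent.P073.PL.Spec
import Vale.Agent.P073.GBM.CellNum

/-!
# P073, block PLATE: levels of the bodies, crossed faces
-/

open Set Metric Topology Filter MeasureTheory
open scoped ENNReal NNReal

namespace P073.PL

open P073 P073.PR720 P073.GB73 P073.GBM P073.Gauge P073.GB1W P073.Cell P073.Plate
open Vale.Agent.P073.St (V)
open Vale.Agent.P073.AB
open Vale.Agent.P073.SQ (ev)
open P073.Net (dyc dyo)

variable {Vx B J I : Type} {e0 e1 : B → Vx} {inc : B → J → Prop} {qC : J → I → Prop} {Ω : Set V}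
  {K : Cx3 e0 e1 inc qC Ω} {Λ : Set V} {h : V → V} {v : V} {N : ℕ} {k : Fin 3} {ζ : ℤ}
  {q0 q1 : V} {cu cd : I} {o : V} {A : V ≃L[ℝ] V} {μ η : ℝ} {α β : Fin 3 → ℤ}

theorem Lat2.mem_interior (L : Lat2 K v N k ζ q0 q1 cu cd) {x : V} (hk : x k = ht v N k ζ)
    (hx : ∀ i, i ≠ k → q0 i < x i ∧ x i < q1 i) : x ∈ interior (Icc q0 q1) := by
  rw [interior_Icc_pi']
  intro i
  by_cases hi : i = k
  · rw [hi, hk]
    have h1 := L.lt k
    have h2 := L.mid
    constructor <;> linarith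
  · exact hx i hi

/-- the crossing points are in the box -/
theorem mid_mem_int (L : Lat2 K v N k ζ q0 q1 cu cd) (hin : RectIn v N k q0 q1 α β)
    {a : Fin 3 → ℤ} {l : Fin 3} (hc : Cross2 k ζ α β a l) :
    Cell.mid v N a l ∈ interior (Icc q0 q1) := by
  have hd : (0:ℝ) < 1 / 2 ^ N := by positivity
  apply L.mem_interior
  · unfold Cell.mid
    rw [mid_apply_ne (Ne.symm hc.1)]
    unfold pt ht
    rw [hc.2.1]
  · intro i hi
    obtain ⟨h0, h2, h3⟩ := hin i hi
    have h5 : pt v N α i ≤ Cell.mid v N a l i ∧ Cell.mid v N a l i ≤ pt v N β i + 1 / 2 ^ N := by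
      unfold Cell.mid
      have hαβ : pt v N α i ≤ pt v N β i := pt_le_pt.2 h0.le
      by_cases hil : i = l
      · subst hil
        rw [mid_apply_self]
        have e1 : v i + ((a i : ℝ) + 1 / 2) / 2 ^ N = pt v N a i + 1 / 2 * (1 / 2 ^ N) := by
          unfold pt; ring
        rw [e1]
        rcases hc.2.2.1 with h6 | h6
        · rw [pt_inj.2 h6]; constructor <;> linarith
        · rw [pt_inj.2 h6]; constructor <;> linarith
      · rw [mid_apply_ne hil]
        have h6 := hc.2.2.2 i hil hi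
        have h7 := pt_le_pt (v := v) (n := N).2 h6.1.le
        have h8 := pt_le_pt (v := v) (n := N).2 h6.2
        constructor <;> linarith
    constructor <;> linarith [h5.1, h5.2]

theorem exists_arc2 (L : Lat2 K v N k ζ q0 q1 cu cd) (hin : RectIn v N k q0 q1 α β)
    {a : Fin 3 → ℤ} {l : Fin 3} (hc : Cross2 k ζ α β a l) :
    ∃ b, K.arc b = edge v ((N, a), l) :=
  L.arc' a l hc.1 hc.2.1 ⟨_, mid_mem_edge, mid_mem_int L hin hc⟩

/-- the crossed faces are planar squares near the rim -/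
theorem face2_data (L : Lat2 K v N k ζ q0 q1 cu cd) (hin : RectIn v N k q0 q1 α β)
    {b : B} {j : J} (hb : b ∈ cr2 K v N k ζ α β) (hj : inc b j) :
    ∃ w, w k = ζ ∧ K.tile j = squ v ((N, w), k) ∧ (∃ a l, Cross2 k ζ α β a l ∧
      edge v ((N, a), l) ⊆ squ v ((N, w), k)) ∧
      ∀ i, i ≠ k → α i ≤ w i ∧ w i ≤ β i := by
  obtain ⟨a, l, ha, hc⟩ := hb
  have hmt : Cell.mid v N a l ∈ K.tile j := by
    apply K.toCx2.arc_subset_tile hj
    rw [ha]
    exact mid_mem_edge
  obtain ⟨w, hwk, hw⟩ := L.tile j ⟨_, hmt, mid_mem_int L hin hc⟩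
  have hsub : edge v ((N, a), l) ⊆ squ v ((N, w), k) := by
    rw [← ha, ← hw]
    exact K.toCx2.arc_subset_tile hj
  refine ⟨w, hwk, hw, ⟨a, l, hc, hsub⟩, ?_⟩
  obtain ⟨-, hlk, h3, h4, h5⟩ := edge_subset_squ.1 hsub
  simp only at hlk h3 h4 h5
  intro i hi
  by_cases hil : i = l
  · subst hil
    have := (hin i hi).1
    rcases hc.2.2.1 with h | h
    · rw [← h3, h]; exact ⟨le_rfl, this.le⟩
    · rw [← h3, h]; exact ⟨this.le, le_rfl⟩
  · have h6 := hc.2.2.2 i hil hi
    rcases h5 i hil hi with h | h <;> omega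

/-- levels of a face body -/
theorem face2_levels (hLev : SpecLev2) (H : Near2 K Λ h v N k ζ q0 q1 o A μ η cu cd)
    (hμ : μ ≤ 1 / 8 / 2 ^ N) (hη : 150 * ((2 * μ + η) / (3 / 4 / 2 ^ N)) < 1 / 18)
    {w : Fin 3 → ℤ} (hwk : w k = ζ)
    (hin : ∀ i, i ≠ k → q0 i + 4 / 2 ^ N ≤ sc v N w k i ∧ sc v N w k i ≤ q1 i - 4 / 2 ^ N) :
    ∃ T : Set ℝ, T ⊆ Ioo (35 / 36) (37 / 36) ∧ (fBody2 v N k o A w T).Good Λ ∧
      RectIn v N k q0 q1 (fa w k) (fb w) ∧ ∃ y : ℝ → B → V,
      (∀ t ∈ T, Crosses K.toGraph h ((fBody2 v N k o A w T).at t)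
        (cr2 K v N k ζ (fa w k) (fb w)) (y t)) ∧
      PosY2 K h v N k ζ o A μ (sc v N w k) (fw2 N k) (fa w k) (fb w) T y := by
  have hd : (0:ℝ) < (2 ^ N)⁻¹ := by positivity
  refine hLev Vx B J I e0 e1 inc qC Ω K Λ h v N k ζ q0 q1 o A μ η cu cd H
    (sc v N w k) (fw2 N k) (fa w k) (fb w)
    (35 / 36) (37 / 36) (3 / 4 / 2 ^ N) 5 (by norm_num) (by norm_num) (by positivity)
    ?_ ?_ ?_ ?_ ?_ ?_ ?_ ?_ ?_ ?_ ?_ ?_
  · intro i hi
    unfold fa fb
    rw [if_neg hi]
    linarith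
  · intro i
    unfold fw2
    simp only [div_eq_mul_inv]
    split_ifs <;> nlinarith
  · intro i hi
    have hm := hμ
    unfold sc fa fw2 pt
    simp only [if_neg hi]
    push_cast
    simp only [div_eq_mul_inv, ← mul_assoc] at hm ⊢
    nlinarith
  · intro i hi
    have hm := hμ
    unfold sc fa fw2 pt
    simp only [if_neg hi]
    push_cast
    simp only [div_eq_mul_inv, ← mul_assoc] at hm ⊢
    nlinarith
  · intro i hi
    have hm := hμ
    unfold sc fb fw2 pt
    simp only [if_neg hi]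
    push_cast
    simp only [div_eq_mul_inv, ← mul_assoc] at hm ⊢
    nlinarith
  · intro i hi
    have hm := hμ
    unfold sc fb fw2 pt
    simp only [if_neg hi]
    push_cast
    simp only [div_eq_mul_inv, ← mul_assoc] at hm ⊢
    nlinarith
  · intro i hi
    have hk := hin i hi
    unfold fw2
    rw [if_neg hi]
    simp only [div_eq_mul_inv, ← mul_assoc] at hk ⊢
    constructor <;> nlinarith [hk.1, hk.2]
  · unfold sc ht
    rw [if_pos rfl, hwk, add_zero]
  · unfold fw2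
    rw [if_pos rfl]
    have hm := hμ
    simp only [div_eq_mul_inv] at hm ⊢
    nlinarith
  · unfold fw2
    rw [if_pos rfl]
    simp only [div_eq_mul_inv]
    nlinarith
  · intro i hi
    unfold fa fb
    rw [if_neg hi]
    push_cast
    linarith
  · refine lt_of_le_of_lt (le_of_eq ?_) (hη.trans_le (by norm_num))
    norm_num

/-- levels of the big body -/
theorem big2_levels (hLev : SpecLev2) (H : Near2 K Λ h v N k ζ q0 q1 o A μ η cu cd)
    (hμ : μ ≤ 1 / 8 / 2 ^ N) {R : ℤ} (hR : 2 ≤ R) (hαβ : ∀ i, β i = α i + R)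
    (hη : 6 * ((R : ℝ) + 1) ^ 2 * ((2 * μ + η) / (3 / 4 / 2 ^ N)) < 1 / (2 * R))
    (hin : ∀ i, i ≠ k → q0 i + 2 / 2 ^ N ≤ hp v N α i ∧ hp v N β i ≤ q1 i - 2 / 2 ^ N) :
    ∃ T : Set ℝ, BigT k α β T ∧ (bigBody2 v N k ζ o A α β T).Good Λ ∧
      RectIn v N k q0 q1 α β ∧ ∃ y : ℝ → B → V,
      (∀ t ∈ T, Crosses K.toGraph h ((bigBody2 v N k ζ o A α β T).at t)
        (cr2 K v N k ζ α β) (y t)) ∧
      PosY2 K h v N k ζ o A μ (bc2 v N k ζ α β) (bw2 N k α β) α β T y := by
  have hd : (0:ℝ) < (2 ^ N)⁻¹ := by positivity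
  have hR1 : (2:ℝ) ≤ R := by exact_mod_cast hR
  have hR0 : (0:ℝ) < R := by linarith
  set ε : ℝ := 1 / (4 * R) with hε
  have hεR : ε * R = 1 / 4 := by rw [hε]; field_simp
  have hε0 : 0 < ε := by positivity
  have hε1 : ε ≤ 1 / 4 := by
    rw [hε]
    apply one_div_le_one_div_of_le (by norm_num)
    linarith
  have hεd : ε * (2 ^ N)⁻¹ ≤ 1 / 4 * (2 ^ N)⁻¹ := mul_le_mul_of_nonneg_right hε1 hd.le
  obtain ⟨T, hT, h1, h2, y, h4, h5⟩ := hLev Vx B J I e0 e1 inc qC Ω K Λ h v N k ζ q0 q1 o A μ η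
    cu cd H (bc2 v N k ζ α β) (bw2 N k α β) α β (1 - ε) (1 + ε) (3 / 4 / 2 ^ N) (R + 1)
    (by linarith) (by linarith) (by positivity) (fun i _ => by rw [hαβ i]; linarith) (fun i => by
      unfold bw2
      split_ifs with hi
      · exact le_rfl
      · rw [hαβ i]
        push_cast
        rw [add_sub_cancel_left]
        simp only [div_eq_mul_inv]
        nlinarith [mul_le_mul_of_nonneg_right hR1 hd.le])
    (fun i hi => by
      have hm := hμ
      unfold bc2 bw2 pt
      rw [hαβ i]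
      simp only [if_neg hi]
      push_cast
      simp only [div_eq_mul_inv, ← mul_assoc] at hm ⊢
      nlinarith [mul_pos hε0 hd])
    (fun i hi => by
      have hm := hμ
      unfold bc2 bw2 pt
      rw [hαβ i]
      simp only [if_neg hi]
      push_cast
      simp only [div_eq_mul_inv, ← mul_assoc] at hm ⊢
      nlinarith [mul_pos hε0 hd])
    (fun i hi => by
      have hm := hμ
      unfold bc2 bw2 pt
      rw [hαβ i]
      simp only [if_neg hi]
      push_cast
      simp only [div_eq_mul_inv, ← mul_assoc] at hm ⊢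
      nlinarith [mul_pos hε0 hd])
    (fun i hi => by
      have hm := hμ
      unfold bc2 bw2 pt
      rw [hαβ i]
      simp only [if_neg hi]
      push_cast
      simp only [div_eq_mul_inv, ← mul_assoc] at hm ⊢
      nlinarith [mul_pos hε0 hd])
    (fun i hi => by
      have hk := hin i hi
      unfold hp at hk
      unfold bc2 bw2
      rw [hαβ i] at hk ⊢
      simp only [if_neg hi]
      push_cast at hk ⊢
      simp only [div_eq_mul_inv, ← mul_assoc] at hk ⊢
      constructor <;> nlinarith [hk.1, hk.2, mul_pos hε0 hd])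
    (by unfold bc2; rw [if_pos rfl])
    (by
      have hm := hμ
      unfold bw2
      rw [if_pos rfl]
      simp only [div_eq_mul_inv] at hm ⊢
      nlinarith)
    (by
      unfold bw2
      rw [if_pos rfl]
      simp only [div_eq_mul_inv]
      nlinarith)
    (fun i _ => by rw [hαβ i]; push_cast; linarith)
    (by
      refine hη.trans_le (le_of_eq ?_)
      rw [hε]
      field_simp
      ring)
  refine ⟨T, ?_, h1, h2, y, h4, h5⟩
  intro t ht
  have ht' := hT ht
  have h6 : |t - 1| ≤ ε := by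
    rw [abs_le]
    constructor <;> linarith [ht'.1, ht'.2]
  refine ⟨by linarith [ht'.1], fun j _ => ?_⟩
  rw [hαβ j]
  push_cast
  rw [add_sub_cancel_left]
  calc |t - 1| * R ≤ ε * R := mul_le_mul_of_nonneg_right h6 hR0.le
    _ = 1 / 4 := hεR
    _ ≤ 1 / 4 := le_rfl

end P073.PL
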