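import Vale.Agent.P073.PL.Spec
import Vale.Agent.P073.GBM.Gap489

/-!
# P073, block SpecPlate, part (GAP2) (helper315): the edges of generation `n₂ + k₁` of the gap of
a plate
-/

open Set Metric Topology Filter MeasureTheory
open scoped ENNReal NNReal

namespace P073.PL.Gap315

open P073 P073.PR720 P073.GB73 P073.GBM P073.Gauge P073.GB1W P073.Cell P073.Plate
open P073.Cell.Gap
open Vale.Agent.P073.St (V)
open Vale.Agent.P073.AB
open Vale.Agent.P073.SQ (ev)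
open P073.Net (dyc dyo)

variable {Vx B J I : Type} {e0 e1 : B → Vx} {inc : B → J → Prop} {qC : J → I → Prop} {Ω : Set V}
  {v : V} {n₂ k₁ k₀ : ℕ} {z w a : Fin 3 → ℤ} {k l : Fin 3} {d δ : ℝ}

/-- height of the plate -/
theorem ht_plate (v : V) (n₂ k₁ k₀ : ℕ) (z : Fin 3 → ℤ) (k : Fin 3) :
    ht v (gN n₂ k₁ k₀) k (z k * 2 ^ (k₁ + k₀)) = v k + z k / 2 ^ n₂ := by
  unfold ht gN
  rw [show n₂ + k₁ + k₀ = n₂ + (k₁ + k₀) by ring, pow_add 2 n₂ (k₁ + k₀)]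
  push_cast
  field_simp

/-- a point is in the domain box of the plate -/
theorem mem_pb {x : V} :
    x ∈ Icc (plo v n₂ k₁ k₀ z k d) (phi v n₂ k₁ k₀ z k d) ↔
    (v k + z k / 2 ^ n₂ - d ≤ x k ∧ x k ≤ v k + z k / 2 ^ n₂ + d) ∧ ∀ j, j ≠ k →
      v j + ((al k₁ k₀ z j : ℝ) + 1 / 2) / 2 ^ (gN n₂ k₁ k₀) ≤ x j ∧
      x j ≤ v j + ((be k₁ k₀ z j : ℝ) + 1 / 2) / 2 ^ (gN n₂ k₁ k₀) := by
  rw [mem_Icc, Pi.le_def, Pi.le_def, ← forall_and]
  unfold plo phi rlo rhi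
  rw [ht_plate]
  constructor
  · intro h
    refine ⟨?_, fun j hj => ?_⟩
    · have := h k
      rw [Function.update_self, Function.update_self] at this
      exact this
    · have := h j
      rw [Function.update_of_ne hj, Function.update_of_ne hj] at this
      exact this
  · rintro ⟨h1, h2⟩ j
    by_cases hj : j = k
    · subst hj
      rw [Function.update_self, Function.update_self]
      exact h1
    · rw [Function.update_of_ne hj, Function.update_of_ne hj]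
      exact h2 j hj

/-- the points in the interior of the box -/
theorem of_interior2 {x : V}
    (hx : x ∈ interior (Icc (plo v n₂ k₁ k₀ z k d) (phi v n₂ k₁ k₀ z k d))) {j : Fin 3}
    (hj : j ≠ k) : v j + ((al k₁ k₀ z j : ℝ) + 1 / 2) / 2 ^ (gN n₂ k₁ k₀) < x j ∧
      x j < v j + ((be k₁ k₀ z j : ℝ) + 1 / 2) / 2 ^ (gN n₂ k₁ k₀) := by
  have key : ∀ σ : ℝ, ∀ᶠ s : ℝ in 𝓝[>] 0, x + s • (σ • ev j) ∈
      Icc (plo v n₂ k₁ k₀ z k d) (phi v n₂ k₁ k₀ z k d) := by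
    intro σ
    have hcont : Continuous fun s : ℝ => x + s • (σ • ev j) := by fun_prop
    have h2 := (hcont.continuousAt (x := 0)).eventually_mem
      (s := Icc (plo v n₂ k₁ k₀ z k d) (phi v n₂ k₁ k₀ z k d)) (by
        simp only [zero_smul, add_zero]
        exact mem_interior_iff_mem_nhds.1 hx)
    exact h2.filter_mono nhdsWithin_le_nhds
  constructor
  · obtain ⟨s, hs, hs0⟩ := ((key (-1)).and self_mem_nhdsWithin).exists
    have hs0' : 0 < s := hs0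
    have h := ((mem_pb.1 hs).2 j hj).1
    simp only [Pi.add_apply, Pi.smul_apply, smul_eq_mul, ev_same, mul_one] at h
    linarith
  · obtain ⟨s, hs, hs0⟩ := ((key 1).and self_mem_nhdsWithin).exists
    have hs0' : 0 < s := hs0
    have h := ((mem_pb.1 hs).2 j hj).2
    simp only [Pi.add_apply, Pi.smul_apply, smul_eq_mul, ev_same, mul_one] at h
    linarith

/-- what is known about the new map on the line of a marked fine edge -/
structure Fine2 (v : V) (n₂ k₁ k₀ : ℕ) (z a : Fin 3 → ℤ) (k l : Fin 3) (d : ℝ)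
    (h h3 Lt : V → V) (r : ℝ) : Prop where
  r_mem : r ∈ Icc (1 / 4 : ℝ) (3 / 4)
  fine : ∀ s ∈ Icc (0:ℝ) 1, gam v ((gN n₂ k₁ k₀, a), l) s ∉
    interior (Icc (plo v n₂ k₁ k₀ z k d) (phi v n₂ k₁ k₀ z k d)) →
    h3 (gam v ((gN n₂ k₁ k₀, a), l) s) = h (gam v ((gN n₂ k₁ k₀, a), l) (GB1.rep (1 / 2) r s))
  model : ∀ s : ℝ, gam v ((gN n₂ k₁ k₀, a), l) s ∈
      Icc (plo v n₂ k₁ k₀ z k d) (phi v n₂ k₁ k₀ z k d) →
    |s - 1 / 2| ≤ 2 ^ k₀ - 1 / 2 →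
    h3 (gam v ((gN n₂ k₁ k₀, a), l) s) = Lt (gam v ((gN n₂ k₁ k₀, a), l) s)

theorem exists_fine2 {K : Cx3 e0 e1 inc qC Ω} {h h3 Lt : V → V} {χ : B → V → V} {p' : B → V}
    {b : B} (hb : K.arc b = edge v ((gN n₂ k₁ k₀, a), l)) (hM : Marked2 k₁ k₀ z a k l)
    (hcut : IsCut2 K v (gN n₂ k₁ k₀) k (z k * 2 ^ (k₁ + k₀)) (al k₁ k₀ z) (be k₁ k₀ z) p')
    (h1 : ∀ b, ∀ x ∈ K.arc b, x ∉ interior (Icc (plo v n₂ k₁ k₀ z k d) (phi v n₂ k₁ k₀ z k d)) →
      h3 x = h (χ b x))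
    (h2 : ∀ b a l, K.arc b = edge v ((gN n₂ k₁ k₀, a), l) →
        Cross2 k (z k * 2 ^ (k₁ + k₀)) (al k₁ k₀ z) (be k₁ k₀ z) a l →
        ∃ r ∈ Icc (1 / 4 : ℝ) (3 / 4), ∀ s ∈ Icc (0:ℝ) 1,
          χ b (pt v (gN n₂ k₁ k₀) a + s • ((1 / 2 ^ (gN n₂ k₁ k₀) : ℝ) • ev l)) =
            pt v (gN n₂ k₁ k₀) a +
              GB1.rep (1 / 2) r s • ((1 / 2 ^ (gN n₂ k₁ k₀) : ℝ) • ev l))
    (h3' : ∀ b a l, K.arc b = edge v ((gN n₂ k₁ k₀, a), l) → Marked2 k₁ k₀ z a k l →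
      ∀ x ∈ Icc (plo v n₂ k₁ k₀ z k d) (phi v n₂ k₁ k₀ z k d), ‖x - p' b‖ ≤ mg n₂ k₁ k₀ →
        (∀ j, j ≠ l → x j = p' b j) → h3 x = Lt x) :
    ∃ r, Fine2 v n₂ k₁ k₀ z a k l d h h3 Lt r := by
  obtain ⟨r, hr, hχ⟩ := h2 b a l hb hM.1
  have hp : p' b = gam v ((gN n₂ k₁ k₀, a), l) (1 / 2) := by
    rw [hcut b a l hb hM.1, gam]
    unfold Cell.mid
    congr 1
    show (1 / 2 / 2 ^ (gN n₂ k₁ k₀) : ℝ) • ev l =
      (1 / 2 : ℝ) • ((1 / 2 ^ (gN n₂ k₁ k₀) : ℝ) • ev l)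
    rw [smul_smul]
    congr 1
    ring
  refine ⟨r, hr, fun s hs hni => ?_, fun s hs hsr => ?_⟩
  · rw [h1 b _ (by rw [hb]; exact gam_mem_edge v _ hs) hni]
    congr 1
    exact hχ s hs
  · refine h3' b a l hb hM _ hs ?_ ?_
    · rw [hp, norm_gam_sub]
      show |s - 1 / 2| / 2 ^ (gN n₂ k₁ k₀) ≤ mg n₂ k₁ k₀
      have hD : (0:ℝ) < 2 ^ (n₂ + k₁) := by positivity
      have hT : (0:ℝ) < 2 ^ k₀ := by positivity
      unfold mg gN
      rw [div_le_iff₀ (by positivity)]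
      have : (1 / 2 ^ (n₂ + k₁) - 1 / 2 / 2 ^ (n₂ + k₁ + k₀) : ℝ) * 2 ^ (n₂ + k₁ + k₀) =
          2 ^ k₀ - 1 / 2 := by
        rw [pow_add 2 (n₂ + k₁) k₀]
        field_simp
      rw [this]
      exact hsr
    · intro j hj
      rw [hp, gam_apply, gam_apply, if_neg hj, if_neg hj]

/-- closeness on the line of a marked fine edge -/
theorem Fine2.close {h h3 Lt : V → V} {r : ℝ} {o : V} {A : V ≃L[ℝ] V} {M μ : ℝ}
    (F : Fine2 v n₂ k₁ k₀ z a k l d h h3 Lt r) (hA : ∀ w, ‖A w‖ ≤ M * ‖w‖) (hM : 0 < M)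
    (hsup : ∀ x ∈ edge v ((gN n₂ k₁ k₀, a), l), ‖A.symm (h x - o) - x‖ ≤ μ)
    (hμ : μ ≤ 1 / 8 / 2 ^ (gN n₂ k₁ k₀))
    (hLt : ∀ s : ℝ, gam v ((gN n₂ k₁ k₀, a), l) s ∈
        Icc (plo v n₂ k₁ k₀ z k d) (phi v n₂ k₁ k₀ z k d) →
      ‖A.symm (Lt (gam v ((gN n₂ k₁ k₀, a), l) s) - o) - gam v ((gN n₂ k₁ k₀, a), l) s‖ ≤
        μ + 1 / 8 / 2 ^ (gN n₂ k₁ k₀)) {s : ℝ}
    (hs : (s ∈ Icc (0:ℝ) 1 ∧ gam v ((gN n₂ k₁ k₀, a), l) s ∉
        interior (Icc (plo v n₂ k₁ k₀ z k d) (phi v n₂ k₁ k₀ z k d))) ∨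
      (gam v ((gN n₂ k₁ k₀, a), l) s ∈ Icc (plo v n₂ k₁ k₀ z k d) (phi v n₂ k₁ k₀ z k d) ∧
        |s - 1 / 2| ≤ 2 ^ k₀ - 1 / 2)) :
    ‖h3 (gam v ((gN n₂ k₁ k₀, a), l) s) - (o + A (gam v ((gN n₂ k₁ k₀, a), l) s))‖ ≤
      2 * M * (1 / 2 ^ (gN n₂ k₁ k₀)) := by
  set D : ℝ := 1 / 2 ^ (gN n₂ k₁ k₀) with hd
  have hd0 : 0 < D := by positivity
  have hμ' : μ ≤ D / 8 := by
    rw [hd]
    calc μ ≤ 1 / 8 / 2 ^ (gN n₂ k₁ k₀) := hμ
      _ = _ := by ring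
  rcases hs with ⟨hs1, hs2⟩ | ⟨hs1, hs2⟩
  · rw [F.fine s hs1 hs2]
    have hr := rep_mem F.r_mem hs1
    set s' := GB1.rep (1 / 2) r s with hs'
    have h1 := norm_of_symm hA hM.le (hsup _ (gam_mem_edge v _ hr))
    have h2 := norm_A_sub hA (gam v ((gN n₂ k₁ k₀, a), l) s') (gam v ((gN n₂ k₁ k₀, a), l) s)
    rw [norm_gam_sub] at h2
    have h3 : |s' - s| ≤ 1 := by
      rw [abs_le]
      constructor
      · linarith [hr.1, hs1.2]
      · linarith [hr.2, hs1.1]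
    have h4 : |s' - s| / 2 ^ (gN n₂ k₁ k₀) ≤ D := by
      rw [hd]
      gcongr
    calc ‖h (gam v ((gN n₂ k₁ k₀, a), l) s') - (o + A (gam v ((gN n₂ k₁ k₀, a), l) s))‖
        = ‖(h (gam v ((gN n₂ k₁ k₀, a), l) s') - (o + A (gam v ((gN n₂ k₁ k₀, a), l) s'))) +
            (A (gam v ((gN n₂ k₁ k₀, a), l) s') - A (gam v ((gN n₂ k₁ k₀, a), l) s))‖ := by
          congr 1
          abel
      _ ≤ M * μ + M * (|s' - s| / 2 ^ (gN n₂ k₁ k₀)) :=
          (norm_add_le _ _).trans (add_le_add h1 h2)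
      _ ≤ M * (D / 8) + M * D := by gcongr
      _ ≤ 2 * M * D := by nlinarith [mul_pos hM hd0]
  · rw [F.model s hs1 hs2]
    refine (norm_of_symm hA hM.le (hLt _ hs1)).trans ?_
    have h1 : μ + 1 / 8 / 2 ^ (gN n₂ k₁ k₀) ≤ D / 8 + D / 8 := by
      have : (1 / 8 / 2 ^ (gN n₂ k₁ k₀) : ℝ) = D / 8 := by rw [hd]; ring
      rw [this]
      linarith
    calc M * (μ + 1 / 8 / 2 ^ (gN n₂ k₁ k₀)) ≤ M * (D / 8 + D / 8) := by gcongr
      _ ≤ 2 * M * D := by nlinarith [mul_pos hM hd0]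

/-- positions on the line of the fine edge, relative to the box -/
theorem notMem_low (hlk : l ≠ k) (ha : a l = al k₁ k₀ z l) {s : ℝ} (hs : s ≤ 1 / 2) :
    gam v ((gN n₂ k₁ k₀, a), l) s ∉
      interior (Icc (plo v n₂ k₁ k₀ z k d) (phi v n₂ k₁ k₀ z k d)) := by
  intro h
  have h1 := (of_interior2 h hlk).1
  rw [gam_apply, if_pos rfl, add_lt_add_iff_left, div_lt_div_iff_of_pos_right (by positivity),
    ha] at h1
  linarith

theorem notMem_high (hlk : l ≠ k) (ha : a l = be k₁ k₀ z l) {s : ℝ} (hs : 1 / 2 ≤ s) :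
    gam v ((gN n₂ k₁ k₀, a), l) s ∉
      interior (Icc (plo v n₂ k₁ k₀ z k d) (phi v n₂ k₁ k₀ z k d)) := by
  intro h
  have h1 := (of_interior2 h hlk).2
  rw [gam_apply, if_pos rfl, add_lt_add_iff_left, div_lt_div_iff_of_pos_right (by positivity),
    ha] at h1
  linarith

theorem gam_k (hlk : l ≠ k) (hak : a k = z k * 2 ^ (k₁ + k₀)) (s : ℝ) :
    gam v ((gN n₂ k₁ k₀, a), l) s k = v k + z k / 2 ^ n₂ := by
  rw [gam_apply, if_neg (Ne.symm hlk), add_zero, hak, ← ht_plate v n₂ k₁ k₀ z k]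
  rfl

theorem mem_pb_line (hlk : l ≠ k) (hak : a k = z k * 2 ^ (k₁ + k₀)) (hd : 0 < d)
    (hj : ∀ j, j ≠ l → j ≠ k → al k₁ k₀ z j < a j ∧ a j ≤ be k₁ k₀ z j) {s : ℝ}
    (h1 : (al k₁ k₀ z l : ℝ) + 1 / 2 ≤ a l + s) (h2 : (a l : ℝ) + s ≤ be k₁ k₀ z l + 1 / 2) :
    gam v ((gN n₂ k₁ k₀, a), l) s ∈ Icc (plo v n₂ k₁ k₀ z k d) (phi v n₂ k₁ k₀ z k d) := by
  rw [mem_pb]
  refine ⟨?_, fun j hjk => ?_⟩
  · rw [gam_k hlk hak]
    constructor <;> linarith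
  rw [gam_apply, add_le_add_iff_left, add_le_add_iff_left,
    div_le_div_iff_of_pos_right (by positivity), div_le_div_iff_of_pos_right (by positivity)]
  by_cases hjl : j = l
  · subst hjl
    rw [if_pos rfl]
    exact ⟨h1, h2⟩
  · rw [if_neg hjl, add_zero]
    obtain ⟨h3, h4⟩ := hj j hjl hjk
    have h5 : (al k₁ k₀ z j : ℝ) + 1 ≤ a j := by exact_mod_cast h3
    have h6 : (a j : ℝ) ≤ be k₁ k₀ z j := by exact_mod_cast h4
    constructor <;> linarith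

theorem pbox_iff {s : ℝ} {x : V} : x ∈ pbox v ((n₂, z), k) s 0 ↔ x k = v k + z k / 2 ^ n₂ ∧
    ∀ i, i ≠ k → v i + z i / 2 ^ n₂ + s ≤ x i ∧ x i ≤ v i + (z i + 1) / 2 ^ n₂ - s := by
  unfold pbox
  simp only [mem_ofPred_eq]
  refine and_congr_left fun _ => ?_
  rw [abs_nonpos_iff, sub_eq_zero]

/-- the bounds of a coarse edge in the plate -/
theorem bounds2 (h : edge v ((n₂ + k₁, w), l) ⊆ pbox v ((n₂, z), k) (1 / 2 ^ (n₂ + k₁)) 0) :
    l ≠ k ∧ w k = z k * 2 ^ k₁ ∧ (∀ j, j ≠ k → P k₁ z j ≤ w j ∧ w j ≤ Q k₁ z j) ∧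
      w l + 1 ≤ Q k₁ z l := by
  have hD : (0:ℝ) < 2 ^ (n₂ + k₁) := by positivity
  have h0 := pbox_iff.1 (h (gam_mem_edge v _ (t := 0) ⟨le_refl _, zero_le_one⟩))
  have h1 := pbox_iff.1 (h (gam_mem_edge v _ (t := 1) ⟨zero_le_one, le_refl _⟩))
  have hlk : l ≠ k := by
    rintro rfl
    have h2 := h0.1
    have h3 := h1.1
    rw [gam_apply, if_pos rfl] at h2 h3
    have h4 : ((w l : ℝ) + 0) / 2 ^ (n₂ + k₁) = (w l + 1) / 2 ^ (n₂ + k₁) := by linarith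
    rw [div_left_inj' hD.ne'] at h4
    linarith
  have hz : (z k * 2 ^ k₁ : ℝ) / 2 ^ (n₂ + k₁) = z k / 2 ^ n₂ := by
    rw [pow_add]
    field_simp
  refine ⟨hlk, ?_, fun j hj => ?_, ?_⟩
  · have h2 := h0.1
    rw [gam_apply, if_neg (Ne.symm hlk), add_zero, add_right_inj, ← hz,
      div_left_inj' hD.ne'] at h2
    exact_mod_cast h2
  · have h2 := h0.2 j hj
    have e1 : v j + z j / 2 ^ n₂ + 1 / 2 ^ (n₂ + k₁) = v j + (P k₁ z j : ℝ) / 2 ^ (n₂ + k₁) := by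
      rw [P_div]; ring
    have e2 : v j + (z j + 1) / 2 ^ n₂ - 1 / 2 ^ (n₂ + k₁) =
        v j + (Q k₁ z j : ℝ) / 2 ^ (n₂ + k₁) := by
      rw [Q_div]; ring
    rw [e1, e2, gam_apply] at h2
    simp only [ite_self, add_zero, add_le_add_iff_left, div_le_div_iff_of_pos_right hD] at h2
    exact ⟨by exact_mod_cast h2.1, by exact_mod_cast h2.2⟩
  · have h2 := (h1.2 l hlk).2
    have e2 : v l + (z l + 1) / 2 ^ n₂ - 1 / 2 ^ (n₂ + k₁) =
        v l + (Q k₁ z l : ℝ) / 2 ^ (n₂ + k₁) := by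
      rw [Q_div]; ring
    rw [e2, gam_apply] at h2
    simp only [if_true, add_le_add_iff_left, div_le_div_iff_of_pos_right hD] at h2
    exact_mod_cast h2

/-- an edge which is not in the boundary -/
theorem strict2 (h : edge v ((n₂ + k₁, w), l) ⊆ pbox v ((n₂, z), k) (1 / 2 ^ (n₂ + k₁)) 0)
    (hfr : ¬ edge v ((n₂ + k₁, w), l) ⊆ pbox v ((n₂, z), k) (1 / 2 ^ (n₂ + k₁)) 0 \
        prel v ((n₂, z), k) (1 / 2 ^ (n₂ + k₁))) {j : Fin 3} (hj : j ≠ l) (hjk : j ≠ k) :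
    P k₁ z j + 1 ≤ w j ∧ w j ≤ Q k₁ z j - 1 := by
  have hD : (0:ℝ) < 2 ^ (n₂ + k₁) := by positivity
  rw [not_subset] at hfr
  obtain ⟨x, hx, hx2⟩ := hfr
  have hxp : x ∈ prel v ((n₂, z), k) (1 / 2 ^ (n₂ + k₁)) := by
    by_contra hcon
    exact hx2 ⟨h hx, hcon⟩
  obtain ⟨t, ht, rfl⟩ := exists_gam hx
  have h2 := hxp.2 j hjk
  have h2' : v j + z j / 2 ^ n₂ + 1 / 2 ^ (n₂ + k₁) < gam v ((n₂ + k₁, w), l) t j ∧
      gam v ((n₂ + k₁, w), l) t j < v j + (z j + 1) / 2 ^ n₂ - 1 / 2 ^ (n₂ + k₁) := h2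
  have e1 : v j + z j / 2 ^ n₂ + 1 / 2 ^ (n₂ + k₁) = v j + (P k₁ z j : ℝ) / 2 ^ (n₂ + k₁) := by
    rw [P_div]; ring
  have e2 : v j + (z j + 1) / 2 ^ n₂ - 1 / 2 ^ (n₂ + k₁) =
      v j + (Q k₁ z j : ℝ) / 2 ^ (n₂ + k₁) := by
    rw [Q_div]; ring
  rw [e1, e2, gam_apply, if_neg hj, add_zero, add_lt_add_iff_left, add_lt_add_iff_left,
    div_lt_div_iff_of_pos_right hD, div_lt_div_iff_of_pos_right hD] at h2'
  have h3 : P k₁ z j < w j := by exact_mod_cast h2'.1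
  have h4 : w j < Q k₁ z j := by exact_mod_cast h2'.2
  constructor <;> omega

/-- the lens contains the plate -/
theorem sub_lens (hδ : 0 ≤ δ) {x : V} (hx : x ∈ pbox v ((n₂, z), k) (1 / 2 ^ (n₂ + k₁)) 0) :
    x ∈ Icc (llo v n₂ z k δ) (lhi v n₂ z k δ) := by
  obtain ⟨h1, h2⟩ := pbox_iff.1 hx
  have hD : (0:ℝ) < 1 / 2 ^ (n₂ + k₁) := by positivity
  constructor
  · intro j
    unfold llo
    split_ifs with hj
    · subst hj
      rw [h1]; linarith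
    · linarith [(h2 j hj).1]
  · intro j
    unfold lhi
    split_ifs with hj
    · subst hj
      rw [h1]; linarith
    · linarith [(h2 j hj).2]

theorem sub_lens_int (hδ : 0 < δ) {x : V}
    (hx : x ∈ pbox v ((n₂, z), k) (1 / 2 ^ (n₂ + k₁)) 0) :
    x ∈ interior (Icc (llo v n₂ z k δ) (lhi v n₂ z k δ)) := by
  obtain ⟨h1, h2⟩ := pbox_iff.1 hx
  have hD : (0:ℝ) < 1 / 2 ^ (n₂ + k₁) := by positivity
  have hint : interior (Icc (llo v n₂ z k δ) (lhi v n₂ z k δ)) =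
      Set.pi univ fun i => Ioo (llo v n₂ z k δ i) (lhi v n₂ z k δ i) := by
    rw [← pi_univ_Icc, interior_pi_set finite_univ]
    simp only [interior_Icc]
  rw [hint]
  intro j _
  unfold llo lhi
  by_cases hj : j = k
  · subst hj
    simp only [if_true, mem_Ioo]
    rw [h1]
    constructor <;> linarith
  · simp only [if_neg hj, mem_Ioo]
    constructor
    · linarith [(h2 j hj).1]
    · linarith [(h2 j hj).2]

theorem sub_squ {x : V} (hx : x ∈ pbox v ((n₂, z), k) (1 / 2 ^ (n₂ + k₁)) 0) :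
    x ∈ squ v ((n₂, z), k) := by
  obtain ⟨h1, h2⟩ := pbox_iff.1 hx
  have hD : (0:ℝ) < 1 / 2 ^ (n₂ + k₁) := by positivity
  refine ⟨h1, fun j hj => ?_⟩
  constructor
  · linarith [(h2 j hj).1]
  · linarith [(h2 j hj).2]

/-- the bounds of `a = fc k₀ w l m` at the height -/
theorem fc_k (hlk : l ≠ k) (hw : w k = z k * 2 ^ k₁) (m : ℤ) :
    fc k₀ w l m k = z k * 2 ^ (k₁ + k₀) := by
  unfold fc
  rw [if_neg (Ne.symm hlk), add_zero, hw, pow_add]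
  ring

/-- **(GAP2)** -/
theorem specGap2 : SpecGap2 := by
  intro Vx B J I e0 e1 inc qC Ω K Λ h v n₂ k₁ k₀ z k δ o A μ η cu cd hδ near p M κ d hp hM hκ hd
    hdδ hA hk₁ hk₀ hμ h4M hdv h3 Lt χ p' hcut hχ1 _ hχ2 hR hmod hLt1 hLt2 e he hsub hfr
  obtain ⟨⟨n, w⟩, l⟩ := e
  obtain rfl : n = n₂ + k₁ := he
  have hsubB : edge v ((n₂ + k₁, w), l) ⊆ pbox v ((n₂, z), k) (1 / 2 ^ (n₂ + k₁)) 0 :=
    fun x hx => (hsub hx).1
  obtain ⟨hlk, hwk, hb, hbk⟩ := bounds2 hsubB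
  have hst := fun j hj hjk => strict2 hsubB hfr (j := j) hj hjk
  have hPQ := P_Q hk₁ z l
  have hT : (0:ℝ) < 2 ^ k₀ := by positivity
  have hT1 : (1:ℝ) ≤ 2 ^ k₀ := one_le_pow₀ (by norm_num)
  have hTZ : (1:ℤ) ≤ 2 ^ k₀ := one_le_pow₀ (by norm_num)
  have hD : (0:ℝ) < 2 ^ (n₂ + k₁) := by positivity
  have hA' : ∀ w, ‖(A : V →L[ℝ] V) w‖ ≤ M * ‖w‖ := hA
  have hgk := fun (m : ℤ) (s : ℝ) => gam_k (v := v) (n₂ := n₂) (k₁ := k₁) (k₀ := k₀) hlk
    (fc_k (k₀ := k₀) hlk hwk m) s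
  -- the fine edge number `m` and the facts about the new map on its line
  have main : ∀ m : ℤ, 0 ≤ m → m + 1 ≤ 2 ^ k₀ → Marked2 k₁ k₀ z (fc k₀ w l m) k l →
      (∃ r, Fine2 v n₂ k₁ k₀ z (fc k₀ w l m) k l d h h3 Lt r) ∧
      edge v ((gN n₂ k₁ k₀, fc k₀ w l m), l) ⊆ pbox v ((n₂, z), k) (1 / 2 ^ (n₂ + k₁)) 0 := by
    intro m hm0 hm1 hmk
    have hsub' := (fine_subset v _ k₀ w l hm0 hm1).trans hsubB
    obtain ⟨b, hbb⟩ := near.lat.arc' (fc k₀ w l m) l hlk (fc_k hlk hwk m)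
      ⟨_, left_mem_edge, sub_lens_int hδ (hsub' left_mem_edge)⟩
    exact ⟨exists_fine2 hbb hmk hcut hχ1 hχ2 hmod, hsub'⟩
  have hLL : ∀ x y : V, x k = v k + z k / 2 ^ n₂ → y k = v k + z k / 2 ^ n₂ →
      ‖Lt x - Lt y‖ ≤ 9 / 4 * M * ‖x - y‖ := by
    intro x y hx hy
    rw [← ht_plate v n₂ k₁ k₀ z k] at hx hy
    calc ‖Lt x - Lt y‖ = ‖A (A.symm (Lt x - Lt y))‖ := by rw [A.apply_symm_apply]
      _ ≤ M * ‖A.symm (Lt x - Lt y)‖ := hA _
      _ ≤ M * (9 / 4 * ‖x - y‖) := mul_le_mul_of_nonneg_left (hLt2 x y hx hy) hM.le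
      _ = _ := by ring
  have hcl : ∀ (m : ℤ) (s : ℝ), gam v ((gN n₂ k₁ k₀, fc k₀ w l m), l) s ∈
        Icc (plo v n₂ k₁ k₀ z k d) (phi v n₂ k₁ k₀ z k d) →
      ‖A.symm (Lt (gam v ((gN n₂ k₁ k₀, fc k₀ w l m), l) s) - o) -
        gam v ((gN n₂ k₁ k₀, fc k₀ w l m), l) s‖ ≤ μ + 1 / 8 / 2 ^ (gN n₂ k₁ k₀) := by
    intro m s hs
    exact hLt1 _ hs (by rw [hgk, ht_plate])
  by_cases hlow : w l = P k₁ z l
  · -- the lower radial edges
    have hak : fc k₀ w l 0 l = al k₁ k₀ z l := by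
      unfold fc
      rw [if_pos rfl, add_zero, hlow, al_eq]
    have hoth : ∀ j, j ≠ l → j ≠ k → al k₁ k₀ z j < fc k₀ w l 0 j ∧
        fc k₀ w l 0 j ≤ be k₁ k₀ z j := fun j hj hjk => (fc_other hj (hst j hj hjk)).1
    have hmk : Marked2 k₁ k₀ z (fc k₀ w l 0) k l :=
      ⟨⟨hlk, fc_k hlk hwk 0, Or.inl hak, hoth⟩,
        fun j hj hjk => (fc_other hj (hst j hj hjk)).2⟩
    obtain ⟨⟨r, F⟩, hsubd⟩ := main 0 le_rfl (by simpa using hTZ) hmk
    have hr := F.r_mem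
    -- the two parts
    have hg : ∀ t : ℝ, gam v ((n₂ + k₁, w), l) t =
        gam v ((gN n₂ k₁ k₀, fc k₀ w l 0), l) (2 ^ k₀ * t) := by
      intro t
      rw [gam_fine v (n₂ + k₁) k₀ w l 0 t]
      simp
    have hfine : ∀ t ∈ Icc (0:ℝ) 1, 2 ^ k₀ * t ≤ 1 / 2 → 2 ^ k₀ * t ∈ Icc (0:ℝ) 1 ∧
        gam v ((gN n₂ k₁ k₀, fc k₀ w l 0), l) (2 ^ k₀ * t) ∉
          interior (Icc (plo v n₂ k₁ k₀ z k d) (phi v n₂ k₁ k₀ z k d)) := fun t ht h12 =>
      ⟨⟨mul_nonneg hT.le ht.1, by linarith⟩, notMem_low hlk hak h12⟩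
    have hmodel : ∀ t ∈ Icc (0:ℝ) 1, 1 / 2 ≤ 2 ^ k₀ * t →
        gam v ((gN n₂ k₁ k₀, fc k₀ w l 0), l) (2 ^ k₀ * t) ∈
          Icc (plo v n₂ k₁ k₀ z k d) (phi v n₂ k₁ k₀ z k d) ∧
          |2 ^ k₀ * t - 1 / 2| ≤ 2 ^ k₀ - 1 / 2 := by
      intro t ht h12
      have h5 : 2 ^ k₀ * t ≤ 2 ^ k₀ := by nlinarith [ht.2]
      refine ⟨mem_pb_line hlk (fc_k hlk hwk 0) hd hoth ?_ ?_, ?_⟩
      · rw [hak]
        linarith
      · rw [hak, al_eq, be_eq]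
        have h6 : ((P k₁ z l : ℝ) + 1) ≤ Q k₁ z l - 1 := by exact_mod_cast hPQ
        push_cast
        nlinarith
      · rw [abs_of_nonneg (by linarith)]
        linarith
    refine ⟨fun x hx => ?_, ?_⟩
    · obtain ⟨t, ht, rfl⟩ := exists_gam hx
      rw [hg]
      refine le_trans (F.close hA hM (near.sup _ l hlk (fc_k hlk hwk 0)
        fun x hx => sub_lens hδ.le (hsubd hx)) hμ (hcl 0) ?_) (two_M h4M)
      rcases le_total (2 ^ k₀ * t) (1 / 2) with h12 | h12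
      · exact Or.inl (hfine t ht h12)
      · exact Or.inr (hmodel t ht h12)
    · refine GBM489.dvarLeft (e := ((n₂ + k₁, w), l)) (e' := ((gN n₂ k₁ k₀, fc k₀ w l 0), l))
        (h := h) (L := (A : V →L[ℝ] V)) (lam := 2 * r * 2 ^ k₀) hp k₀ rfl (by
          have := hr.1
          positivity) (by nlinarith [hr.2]) (by positivity) hκ hM.le hA' ?_ ?_ ?_
      · intro t ht
        have ht1 : 2 ^ k₀ * t ≤ 1 / 2 := by
          have := ht.2
          rw [le_div_iff₀ (by positivity)] at this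
          linarith
        have ht' : t ∈ Icc (0:ℝ) 1 := ⟨ht.1, by nlinarith⟩
        rw [hg, F.fine _ (hfine t ht' ht1).1 (hfine t ht' ht1).2, GB1.rep_le ht1]
        congr 2
        ring
      · intro s hs t ht
        have key : ∀ t ∈ Icc (1 / (2 * 2 ^ k₀) : ℝ) 1,
            h3 (gam v ((n₂ + k₁, w), l) t) = Lt (gam v ((n₂ + k₁, w), l) t) := by
          intro t ht
          have h1 := ht.1
          have ht0 : 0 ≤ t := le_trans (by positivity) h1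
          rw [div_le_iff₀ (by positivity)] at h1
          have h2 := hmodel t ⟨ht0, ht.2⟩ (by linarith)
          rw [hg, F.model _ h2.1 h2.2]
        rw [key s hs, key t ht]
        refine (hLL _ _ (by rw [hg, hgk]) (by rw [hg, hgk])).trans (le_of_eq ?_)
        rw [norm_gam_sub]
        ring
      · exact hdv ((gN n₂ k₁ k₀, fc k₀ w l 0), l) rfl fun x hx => sub_squ (hsubd hx)
  · by_cases hup : w l + 1 = Q k₁ z l
    · -- the upper radial edges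
      have hak : fc k₀ w l (2 ^ k₀ - 1) l = be k₁ k₀ z l := by
        unfold fc
        rw [if_pos rfl, be_eq, ← hup]
        ring
      have hoth : ∀ j, j ≠ l → j ≠ k → al k₁ k₀ z j < fc k₀ w l (2 ^ k₀ - 1) j ∧
          fc k₀ w l (2 ^ k₀ - 1) j ≤ be k₁ k₀ z j :=
        fun j hj hjk => (fc_other hj (hst j hj hjk)).1
      have hmk : Marked2 k₁ k₀ z (fc k₀ w l (2 ^ k₀ - 1)) k l :=
        ⟨⟨hlk, fc_k hlk hwk _, Or.inr hak, hoth⟩,
          fun j hj hjk => (fc_other hj (hst j hj hjk)).2⟩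
      obtain ⟨⟨r, F⟩, hsubd⟩ := main (2 ^ k₀ - 1) (by linarith) (by linarith) hmk
      have hr := F.r_mem
      have hg : ∀ t : ℝ, gam v ((n₂ + k₁, w), l) t =
          gam v ((gN n₂ k₁ k₀, fc k₀ w l (2 ^ k₀ - 1)), l) (1 - 2 ^ k₀ * (1 - t)) := by
        intro t
        rw [gam_fine v (n₂ + k₁) k₀ w l (2 ^ k₀ - 1) t]
        congr 1
        push_cast
        ring
      have hfine : ∀ t ∈ Icc (0:ℝ) 1, 1 / 2 ≤ 1 - 2 ^ k₀ * (1 - t) →
          1 - 2 ^ k₀ * (1 - t) ∈ Icc (0:ℝ) 1 ∧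
          gam v ((gN n₂ k₁ k₀, fc k₀ w l (2 ^ k₀ - 1)), l) (1 - 2 ^ k₀ * (1 - t)) ∉
            interior (Icc (plo v n₂ k₁ k₀ z k d) (phi v n₂ k₁ k₀ z k d)) := fun t ht h12 =>
        ⟨⟨by linarith, by nlinarith [ht.2]⟩, notMem_high hlk hak h12⟩
      have hmodel : ∀ t ∈ Icc (0:ℝ) 1, 1 - 2 ^ k₀ * (1 - t) ≤ 1 / 2 →
          gam v ((gN n₂ k₁ k₀, fc k₀ w l (2 ^ k₀ - 1)), l) (1 - 2 ^ k₀ * (1 - t)) ∈
            Icc (plo v n₂ k₁ k₀ z k d) (phi v n₂ k₁ k₀ z k d) ∧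
            |1 - 2 ^ k₀ * (1 - t) - 1 / 2| ≤ 2 ^ k₀ - 1 / 2 := by
        intro t ht h12
        have h5 : 2 ^ k₀ * (1 - t) ≤ 2 ^ k₀ := by nlinarith [ht.1]
        refine ⟨mem_pb_line hlk (fc_k hlk hwk _) hd hoth ?_ ?_, ?_⟩
        · rw [hak, al_eq, be_eq]
          have h6 : ((P k₁ z l : ℝ) + 1) ≤ Q k₁ z l - 1 := by exact_mod_cast hPQ
          push_cast
          nlinarith
        · rw [hak]
          linarith
        · rw [abs_of_nonpos (by linarith)]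
          linarith
      refine ⟨fun x hx => ?_, ?_⟩
      · obtain ⟨t, ht, rfl⟩ := exists_gam hx
        rw [hg]
        refine le_trans (F.close hA hM (near.sup _ l hlk (fc_k hlk hwk _)
          fun x hx => sub_lens hδ.le (hsubd hx)) hμ (hcl _) ?_) (two_M h4M)
        rcases le_total (1 / 2) (1 - 2 ^ k₀ * (1 - t)) with h12 | h12
        · exact Or.inl (hfine t ht h12)
        · exact Or.inr (hmodel t ht h12)
      · refine GBM489.dvarRight (e := ((n₂ + k₁, w), l))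
          (e' := ((gN n₂ k₁ k₀, fc k₀ w l (2 ^ k₀ - 1)), l))
          (h := h) (L := (A : V →L[ℝ] V)) (lam := 2 * (1 - r) * 2 ^ k₀) hp k₀ rfl (by
            have : 0 < 1 - r := by linarith [hr.2]
            positivity) (by nlinarith [hr.1]) (by positivity) hκ hM.le hA' ?_ ?_ ?_
        · intro t ht
          have ht1 : 1 / 2 ≤ 1 - 2 ^ k₀ * (1 - t) := by
            have h1 : 1 - t ≤ 1 / (2 * 2 ^ k₀) := by linarith [ht.1]
            rw [le_div_iff₀ (by positivity)] at h1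
            linarith
          have ht' : t ∈ Icc (0:ℝ) 1 := ⟨by nlinarith, ht.2⟩
          rw [hg, F.fine _ (hfine t ht' ht1).1 (hfine t ht' ht1).2,
            GB1.rep_ge (by norm_num) ht1]
          congr 2
          ring
        · intro s hs t ht
          have key : ∀ t ∈ Icc (0:ℝ) (1 - 1 / (2 * 2 ^ k₀)),
              h3 (gam v ((n₂ + k₁, w), l) t) = Lt (gam v ((n₂ + k₁, w), l) t) := by
            intro t ht
            have h1 : 1 / (2 * 2 ^ k₀) ≤ 1 - t := by linarith [ht.2]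
            have ht1 : t ≤ 1 := by
              have : (0:ℝ) < 1 / (2 * 2 ^ k₀) := by positivity
              linarith
            rw [div_le_iff₀ (by positivity)] at h1
            have h2 := hmodel t ⟨ht.1, ht1⟩ (by linarith)
            rw [hg, F.model _ h2.1 h2.2]
          rw [key s hs, key t ht]
          refine (hLL _ _ (by rw [hg, hgk]) (by rw [hg, hgk])).trans (le_of_eq ?_)
          rw [norm_gam_sub]
          ring
        · exact hdv ((gN n₂ k₁ k₀, fc k₀ w l (2 ^ k₀ - 1)), l) rfl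
            fun x hx => sub_squ (hsubd hx)
    · -- the edges in the protected square
      have hin : ∀ x ∈ edge v ((n₂ + k₁, w), l),
          x ∈ pbox v ((n₂, z), k) (2 / 2 ^ (n₂ + k₁)) 0 := by
        intro x hx
        have hxp := pbox_iff.1 (hsubB hx)
        obtain ⟨t, ht, rfl⟩ := exists_gam hx
        rw [pbox_iff]
        refine ⟨hxp.1, fun j hjk => ?_⟩
        have e1 : v j + z j / 2 ^ n₂ + 2 / 2 ^ (n₂ + k₁) =
            v j + ((P k₁ z j : ℝ) + 1) / 2 ^ (n₂ + k₁) := by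
          rw [add_div, P_div]; ring
        have e2 : v j + (z j + 1) / 2 ^ n₂ - 2 / 2 ^ (n₂ + k₁) =
            v j + ((Q k₁ z j : ℝ) - 1) / 2 ^ (n₂ + k₁) := by
          rw [sub_div, Q_div]; ring
        rw [e1, e2, gam_apply, add_le_add_iff_left, add_le_add_iff_left,
          div_le_div_iff_of_pos_right hD, div_le_div_iff_of_pos_right hD]
        by_cases hj : j = l
        · subst hj
          rw [if_pos rfl]
          have h1 : P k₁ z j + 1 ≤ w j := by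
            have := (hb j hjk).1
            omega
          have h2 : w j + 1 ≤ Q k₁ z j - 1 := by omega
          have h1' : (P k₁ z j : ℝ) + 1 ≤ w j := by exact_mod_cast h1
          have h2' : (w j : ℝ) + 1 ≤ Q k₁ z j - 1 := by exact_mod_cast h2
          constructor
          · linarith [ht.1]
          · linarith [ht.2]
        · rw [if_neg hj, add_zero]
          obtain ⟨h1, h2⟩ := hst j hj hjk
          exact ⟨by exact_mod_cast h1, by exact_mod_cast h2⟩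
      refine ⟨fun x hx => ?_, ?_⟩
      · rw [hR x (hin x hx), sub_self, norm_zero]
        positivity
      · refine (GBM489.dvar_affine' (A := fun x => o + A x) (L := (A : V →L[ℝ] V)) hp hM.le
          (fun x y => by
            show o + A y - (o + A x) = A (y - x)
            rw [map_sub]
            abel) hA' fun x hx => hR x (hin x hx)).trans ?_
        apply ENNReal.ofReal_le_ofReal
        have h1 : M ^ p ≤ (9 / 4 * M) ^ p :=
          Real.rpow_le_rpow hM.le (by linarith) (by linarith)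
        have h2 : 0 ≤ (4:ℝ) ^ p * (κ + M ^ p) := by positivity
        exact mul_le_mul_of_nonneg_right (by linarith) (by positivity)

end P073.PL.Gap315
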