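import Vale.Agent.P073.PL.Spec
import Vale.Agent.P073.GBM.Gap489

/-!
# P073, block SpecPlate, part (GAP2) (helper371): the edges of generation `n₂ + k₁` of the gap
(planar copy of `GBM/Gap489*.lean`)
-/

open Set Metric Topology Filter MeasureTheory
open scoped ENNReal NNReal

namespace P073.PL

open P073 P073.PR720 P073.GB73 P073.GBM P073.Gauge P073.GB1W P073.Cell P073.Plate
open P073.Cell.Gap (P Q P_div Q_div gam_apply gam_mem_edge exists_gam al_eq be_eq fc gam_fine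
  norm_gam_sub rep_mem norm_A_sub norm_of_symm two_M P_Q fine_subset fc_other)
open Vale.Agent.P073.St (V)
open Vale.Agent.P073.AB
open Vale.Agent.P073.SQ (ev)
open P073.Net (dyc dyo)

namespace Gap371

variable {Vx B J I : Type} {e0 e1 : B → Vx} {inc : B → J → Prop} {qC : J → I → Prop} {Ω : Set V}

theorem ht_eq' (v : V) (n₂ k₁ k₀ : ℕ) (z : Fin 3 → ℤ) (k : Fin 3) :
    ht v (gN n₂ k₁ k₀) k (z k * 2 ^ (k₁ + k₀)) = v k + z k / 2 ^ n₂ := by
  unfold ht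
  have h2 : (2:ℝ) ^ (k₁ + k₀) ≠ 0 := by positivity
  have e : (2:ℝ) ^ (gN n₂ k₁ k₀) = 2 ^ n₂ * 2 ^ (k₁ + k₀) := by
    show (2:ℝ) ^ (n₂ + k₁ + k₀) = _
    rw [add_assoc, pow_add]
  rw [e]
  push_cast
  rw [mul_div_mul_right _ _ h2]

theorem mem_pbB {v : V} {n₂ k₁ : ℕ} {z : Fin 3 → ℤ} {k : Fin 3} {x : V} :
    x ∈ pbox v ((n₂, z), k) (1 / 2 ^ (n₂ + k₁)) 0 ↔ x k = v k + z k / 2 ^ n₂ ∧
    ∀ j, j ≠ k → v j + (P k₁ z j : ℝ) / 2 ^ (n₂ + k₁) ≤ x j ∧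
      x j ≤ v j + (Q k₁ z j : ℝ) / 2 ^ (n₂ + k₁) := by
  unfold pbox
  simp only [mem_ofPred_eq, P_div, Q_div]
  refine and_congr ?_ (forall_congr' fun j => forall_congr' fun _ => ?_)
  · rw [abs_le]
    constructor
    · rintro ⟨h1, h2⟩; linarith
    · intro h; rw [h]; simp
  constructor
  · rintro ⟨h1, h2⟩
    constructor <;> linarith
  · rintro ⟨h1, h2⟩
    constructor <;> linarith

theorem mem_prel {v : V} {n₂ k₁ : ℕ} {z : Fin 3 → ℤ} {k : Fin 3} {x : V} :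
    x ∈ prel v ((n₂, z), k) (1 / 2 ^ (n₂ + k₁)) ↔ x k = v k + z k / 2 ^ n₂ ∧
    ∀ j, j ≠ k → v j + (P k₁ z j : ℝ) / 2 ^ (n₂ + k₁) < x j ∧
      x j < v j + (Q k₁ z j : ℝ) / 2 ^ (n₂ + k₁) := by
  unfold prel
  simp only [mem_ofPred_eq, P_div, Q_div]
  refine and_congr Iff.rfl (forall_congr' fun j => forall_congr' fun _ => ?_)
  constructor
  · rintro ⟨h1, h2⟩
    constructor <;> linarith
  · rintro ⟨h1, h2⟩
    constructor <;> linarith

theorem mem_pbR {v : V} {n₂ k₁ : ℕ} {z : Fin 3 → ℤ} {k : Fin 3} {x : V} :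
    x ∈ pbox v ((n₂, z), k) (2 / 2 ^ (n₂ + k₁)) 0 ↔ x k = v k + z k / 2 ^ n₂ ∧
    ∀ j, j ≠ k → v j + ((P k₁ z j : ℝ) + 1) / 2 ^ (n₂ + k₁) ≤ x j ∧
      x j ≤ v j + ((Q k₁ z j : ℝ) - 1) / 2 ^ (n₂ + k₁) := by
  unfold pbox
  simp only [mem_ofPred_eq, add_div, sub_div, P_div, Q_div]
  refine and_congr ?_ (forall_congr' fun j => forall_congr' fun _ => ?_)
  · rw [abs_le]
    constructor
    · rintro ⟨h1, h2⟩; linarith
    · intro h; rw [h]; simp
  have h : (2:ℝ) / 2 ^ (n₂ + k₁) = 1 / 2 ^ (n₂ + k₁) + 1 / 2 ^ (n₂ + k₁) := by ring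
  rw [h]
  constructor
  · rintro ⟨h1, h2⟩
    constructor <;> linarith
  · rintro ⟨h1, h2⟩
    constructor <;> linarith

/-- the bounds of an edge in the plate -/
theorem bounds {v : V} {n₂ k₁ : ℕ} {z w : Fin 3 → ℤ} {k l : Fin 3}
    (h : edge v ((n₂ + k₁, w), l) ⊆ pbox v ((n₂, z), k) (1 / 2 ^ (n₂ + k₁)) 0) :
    l ≠ k ∧ w k = z k * 2 ^ k₁ ∧ (∀ j, j ≠ k → P k₁ z j ≤ w j ∧ w j ≤ Q k₁ z j) ∧
      w l + 1 ≤ Q k₁ z l := by
  have hD : (0:ℝ) < 2 ^ (n₂ + k₁) := by positivity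
  have h0 := mem_pbB.1 (h (gam_mem_edge v _ (t := 0) ⟨le_refl _, zero_le_one⟩))
  have h1 := mem_pbB.1 (h (gam_mem_edge v _ (t := 1) ⟨zero_le_one, le_refl _⟩))
  have hlk : l ≠ k := by
    rintro rfl
    have a1 := h0.1
    have a2 := h1.1
    rw [gam_apply] at a1 a2
    simp only [if_true] at a1 a2
    rw [← a1] at a2
    have : (0:ℝ) < 1 / 2 ^ (n₂ + k₁) := by positivity
    rw [add_div, add_div] at a2
    simp only [zero_div] at a2
    linarith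
  refine ⟨hlk, ?_, ?_, ?_⟩
  · have a1 := h0.1
    rw [gam_apply] at a1
    simp only [ite_self, add_zero, add_right_inj] at a1
    rw [pow_add, div_eq_div_iff (by positivity) (by positivity)] at a1
    have h2 : (0:ℝ) < 2 ^ n₂ := by positivity
    have a2 : ((w k : ℝ)) * 2 ^ n₂ = (z k * 2 ^ k₁) * 2 ^ n₂ := by rw [a1]; ring
    have a3 := mul_right_cancel₀ h2.ne' a2
    exact_mod_cast a3
  · intro j hj
    have h2 := h0.2 j hj
    rw [gam_apply] at h2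
    simp only [ite_self, add_zero, add_le_add_iff_left, div_le_div_iff_of_pos_right hD] at h2
    exact ⟨by exact_mod_cast h2.1, by exact_mod_cast h2.2⟩
  · have h2 := (h1.2 l hlk).2
    rw [gam_apply] at h2
    simp only [if_true, add_le_add_iff_left, div_le_div_iff_of_pos_right hD] at h2
    exact_mod_cast h2

/-- an edge in the boundary -/
theorem strict {v : V} {n₂ k₁ : ℕ} {z w : Fin 3 → ℤ} {k l : Fin 3}
    (h : edge v ((n₂ + k₁, w), l) ⊆ pbox v ((n₂, z), k) (1 / 2 ^ (n₂ + k₁)) 0)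
    (hfr : ¬ edge v ((n₂ + k₁, w), l) ⊆ pbox v ((n₂, z), k) (1 / 2 ^ (n₂ + k₁)) 0 \
      prel v ((n₂, z), k) (1 / 2 ^ (n₂ + k₁))) {j : Fin 3} (hj : j ≠ l) (hjk : j ≠ k) :
    P k₁ z j + 1 ≤ w j ∧ w j ≤ Q k₁ z j - 1 := by
  have hD : (0:ℝ) < 2 ^ (n₂ + k₁) := by positivity
  obtain ⟨x, hx, hx'⟩ := not_subset.1 hfr
  have hx2 : x ∈ prel v ((n₂, z), k) (1 / 2 ^ (n₂ + k₁)) := by
    by_contra hn
    exact hx' ⟨h hx, hn⟩
  obtain ⟨t, ht, rfl⟩ := exists_gam hx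
  have h1 := (mem_prel.1 hx2).2 j hjk
  rw [gam_apply, if_neg hj, add_zero, add_lt_add_iff_left, add_lt_add_iff_left,
    div_lt_div_iff_of_pos_right hD, div_lt_div_iff_of_pos_right hD] at h1
  have h2 : P k₁ z j < w j := by exact_mod_cast h1.1
  have h3 : w j < Q k₁ z j := by exact_mod_cast h1.2
  omega

section box

variable {v : V} {n₂ k₁ k₀ : ℕ} {z : Fin 3 → ℤ} {k : Fin 3} {d : ℝ}

theorem mem_box {x : V} :
    x ∈ Icc (plo v n₂ k₁ k₀ z k d) (phi v n₂ k₁ k₀ z k d) ↔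
    (v k + z k / 2 ^ n₂ - d ≤ x k ∧ x k ≤ v k + z k / 2 ^ n₂ + d) ∧
    ∀ j, j ≠ k → v j + ((al k₁ k₀ z j : ℝ) + 1 / 2) / 2 ^ (gN n₂ k₁ k₀) ≤ x j ∧
      x j ≤ v j + ((be k₁ k₀ z j : ℝ) + 1 / 2) / 2 ^ (gN n₂ k₁ k₀) := by
  rw [mem_Icc, Pi.le_def, Pi.le_def, ← forall_and]
  constructor
  · intro h
    refine ⟨?_, fun j hj => ?_⟩
    · have := h k
      unfold plo phi rlo rhi at this
      rw [Function.update_self, Function.update_self, ht_eq'] at this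
      exact this
    · have := h j
      unfold plo phi rlo rhi at this
      rw [Function.update_of_ne hj, Function.update_of_ne hj] at this
      exact this
  · rintro ⟨h1, h2⟩ j
    by_cases hj : j = k
    · subst hj
      unfold plo phi rlo rhi
      rw [Function.update_self, Function.update_self, ht_eq']
      exact h1
    · unfold plo phi rlo rhi
      rw [Function.update_of_ne hj, Function.update_of_ne hj]
      exact h2 j hj

/-- the points in the interior of the box -/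
theorem of_interior {x : V}
    (hx : x ∈ interior (Icc (plo v n₂ k₁ k₀ z k d) (phi v n₂ k₁ k₀ z k d))) {j : Fin 3}
    (hj : j ≠ k) :
    v j + ((al k₁ k₀ z j : ℝ) + 1 / 2) / 2 ^ (gN n₂ k₁ k₀) < x j ∧
      x j < v j + ((be k₁ k₀ z j : ℝ) + 1 / 2) / 2 ^ (gN n₂ k₁ k₀) := by
  have key : ∀ σ : ℝ, ∀ᶠ s : ℝ in 𝓝[>] 0, x + s • (σ • ev j) ∈
      Icc (plo v n₂ k₁ k₀ z k d) (phi v n₂ k₁ k₀ z k d) := by
    intro σ
    have hcont : Continuous fun s : ℝ => x + s • (σ • ev j) := by fun_prop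
    have h2 := (hcont.continuousAt (x := 0)).eventually_mem
      (s := Icc (plo v n₂ k₁ k₀ z k d) (phi v n₂ k₁ k₀ z k d)) (by
        simp only [zero_smul, add_zero]
        exact mem_interior_iff_mem_nhds.1 hx)
    exact h2.filter_mono nhdsWithin_le_nhds
  constructor
  · obtain ⟨s, hs, hs0⟩ := ((key (-1)).and self_mem_nhdsWithin).exists
    have hs0' : 0 < s := hs0
    have h := ((mem_box.1 hs).2 j hj).1
    simp only [Pi.add_apply, Pi.smul_apply, smul_eq_mul, ev_same, mul_one] at h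
    linarith
  · obtain ⟨s, hs, hs0⟩ := ((key 1).and self_mem_nhdsWithin).exists
    have hs0' : 0 < s := hs0
    have h := ((mem_box.1 hs).2 j hj).2
    simp only [Pi.add_apply, Pi.smul_apply, smul_eq_mul, ev_same, mul_one] at h
    linarith

end box

/-- what is known about the new map on the line of a marked fine edge -/
structure Fine (X : Set V) (v : V) (n₂ k₁ k₀ : ℕ) (a : Fin 3 → ℤ) (l : Fin 3)
    (h h3 Lt : V → V) (r : ℝ) : Prop where
  r_mem : r ∈ Icc (1 / 4 : ℝ) (3 / 4)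
  fine : ∀ s ∈ Icc (0:ℝ) 1, gam v ((gN n₂ k₁ k₀, a), l) s ∉ interior X →
    h3 (gam v ((gN n₂ k₁ k₀, a), l) s) = h (gam v ((gN n₂ k₁ k₀, a), l) (GB1.rep (1 / 2) r s))
  model : ∀ s : ℝ, gam v ((gN n₂ k₁ k₀, a), l) s ∈ X → |s - 1 / 2| ≤ 2 ^ k₀ - 1 / 2 →
    h3 (gam v ((gN n₂ k₁ k₀, a), l) s) = Lt (gam v ((gN n₂ k₁ k₀, a), l) s)

theorem exists_fine {K : Cx3 e0 e1 inc qC Ω} {X : Set V} {v : V} {n₂ k₁ k₀ : ℕ}
    {z a : Fin 3 → ℤ} {k l : Fin 3}
    {h h3 Lt : V → V} {χ : B → V → V} {p' : B → V} {b : B}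
    (hb : K.arc b = edge v ((gN n₂ k₁ k₀, a), l)) (hM : Marked2 k₁ k₀ z a k l)
    (hcut : IsCut2 K v (gN n₂ k₁ k₀) k (z k * 2 ^ (k₁ + k₀)) (al k₁ k₀ z) (be k₁ k₀ z) p')
    (h1 : ∀ b, ∀ x ∈ K.arc b, x ∉ interior X → h3 x = h (χ b x))
    (h2 : ∀ b a l, K.arc b = edge v ((gN n₂ k₁ k₀, a), l) →
        Cross2 k (z k * 2 ^ (k₁ + k₀)) (al k₁ k₀ z) (be k₁ k₀ z) a l →
        ∃ r ∈ Icc (1 / 4 : ℝ) (3 / 4), ∀ s ∈ Icc (0:ℝ) 1,
          χ b (pt v (gN n₂ k₁ k₀) a + s • ((1 / 2 ^ (gN n₂ k₁ k₀) : ℝ) • ev l)) =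
            pt v (gN n₂ k₁ k₀) a +
              GB1.rep (1 / 2) r s • ((1 / 2 ^ (gN n₂ k₁ k₀) : ℝ) • ev l))
    (h3' : ∀ b a l, K.arc b = edge v ((gN n₂ k₁ k₀, a), l) → Marked2 k₁ k₀ z a k l →
      ∀ x ∈ X, ‖x - p' b‖ ≤ mg n₂ k₁ k₀ →
        (∀ j, j ≠ l → x j = p' b j) → h3 x = Lt x) :
    ∃ r, Fine X v n₂ k₁ k₀ a l h h3 Lt r := by
  obtain ⟨r, hr, hχ⟩ := h2 b a l hb hM.1
  have hp : p' b = gam v ((gN n₂ k₁ k₀, a), l) (1 / 2) := by
    rw [hcut b a l hb hM.1, gam]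
    show pt v (gN n₂ k₁ k₀) a + (1 / 2 / 2 ^ (gN n₂ k₁ k₀) : ℝ) • ev l =
      pt v (gN n₂ k₁ k₀) a + (1 / 2 : ℝ) • ((1 / 2 ^ (gN n₂ k₁ k₀) : ℝ) • ev l)
    rw [smul_smul]
    congr 2
    ring
  refine ⟨r, hr, fun s hs hni => ?_, fun s hs hsr => ?_⟩
  · rw [h1 b _ (by rw [hb]; exact gam_mem_edge v _ hs) hni]
    congr 1
    exact hχ s hs
  · refine h3' b a l hb hM _ hs ?_ ?_
    · rw [hp, norm_gam_sub]
      show |s - 1 / 2| / 2 ^ (gN n₂ k₁ k₀) ≤ mg n₂ k₁ k₀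
      have hD : (0:ℝ) < 2 ^ (n₂ + k₁) := by positivity
      have hT : (0:ℝ) < 2 ^ k₀ := by positivity
      unfold mg gN
      rw [div_le_iff₀ (by positivity)]
      have : (1 / 2 ^ (n₂ + k₁) - 1 / 2 / 2 ^ (n₂ + k₁ + k₀) : ℝ) * 2 ^ (n₂ + k₁ + k₀) =
          2 ^ k₀ - 1 / 2 := by
        rw [pow_add 2 (n₂ + k₁) k₀]
        field_simp
      rw [this]
      exact hsr
    · intro j hj
      rw [hp, gam_apply, gam_apply, if_neg hj, if_neg hj]

section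

variable {X : Set V} {v : V} {n₂ k₁ k₀ : ℕ} {a : Fin 3 → ℤ} {l : Fin 3} {h h3 Lt : V → V} {r : ℝ}
  {o : V} {A : V ≃L[ℝ] V} {M μ : ℝ}

/-- closeness on the line of a marked fine edge -/
theorem Fine.close (F : Fine X v n₂ k₁ k₀ a l h h3 Lt r) (hA : ∀ w, ‖A w‖ ≤ M * ‖w‖) (hM : 0 < M)
    (hsup : ∀ x ∈ edge v ((gN n₂ k₁ k₀, a), l), ‖A.symm (h x - o) - x‖ ≤ μ)
    (hμ : μ ≤ 1 / 8 / 2 ^ (gN n₂ k₁ k₀)) {s : ℝ}
    (hLt : gam v ((gN n₂ k₁ k₀, a), l) s ∈ X →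
      ‖A.symm (Lt (gam v ((gN n₂ k₁ k₀, a), l) s) - o) - gam v ((gN n₂ k₁ k₀, a), l) s‖ ≤
        μ + 1 / 8 / 2 ^ (gN n₂ k₁ k₀))
    (hs : (s ∈ Icc (0:ℝ) 1 ∧ gam v ((gN n₂ k₁ k₀, a), l) s ∉ interior X) ∨
      (gam v ((gN n₂ k₁ k₀, a), l) s ∈ X ∧ |s - 1 / 2| ≤ 2 ^ k₀ - 1 / 2)) :
    ‖h3 (gam v ((gN n₂ k₁ k₀, a), l) s) - (o + A (gam v ((gN n₂ k₁ k₀, a), l) s))‖ ≤
      2 * M * (1 / 2 ^ (gN n₂ k₁ k₀)) := by
  set d : ℝ := 1 / 2 ^ (gN n₂ k₁ k₀) with hd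
  have hd0 : 0 < d := by positivity
  have hμ' : μ ≤ d / 8 := by
    rw [hd]
    calc μ ≤ 1 / 8 / 2 ^ (gN n₂ k₁ k₀) := hμ
      _ = _ := by ring
  rcases hs with ⟨hs1, hs2⟩ | ⟨hs1, hs2⟩
  · rw [F.fine s hs1 hs2]
    have hr := rep_mem F.r_mem hs1
    set s' := GB1.rep (1 / 2) r s with hs'
    have h1 := norm_of_symm hA hM.le (hsup _ (gam_mem_edge v _ hr))
    have h2 := norm_A_sub hA (gam v ((gN n₂ k₁ k₀, a), l) s') (gam v ((gN n₂ k₁ k₀, a), l) s)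
    rw [norm_gam_sub] at h2
    have h3 : |s' - s| ≤ 1 := by
      rw [abs_le]
      constructor
      · linarith [hr.1, hs1.2]
      · linarith [hr.2, hs1.1]
    have h4 : |s' - s| / 2 ^ (gN n₂ k₁ k₀) ≤ d := by
      rw [hd]
      gcongr
    calc ‖h (gam v ((gN n₂ k₁ k₀, a), l) s') - (o + A (gam v ((gN n₂ k₁ k₀, a), l) s))‖
        = ‖(h (gam v ((gN n₂ k₁ k₀, a), l) s') - (o + A (gam v ((gN n₂ k₁ k₀, a), l) s'))) +
            (A (gam v ((gN n₂ k₁ k₀, a), l) s') - A (gam v ((gN n₂ k₁ k₀, a), l) s))‖ := by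
          congr 1
          abel
      _ ≤ M * μ + M * (|s' - s| / 2 ^ (gN n₂ k₁ k₀)) :=
          (norm_add_le _ _).trans (add_le_add h1 h2)
      _ ≤ M * (d / 8) + M * d := by gcongr
      _ ≤ 2 * M * d := by nlinarith [mul_pos hM hd0]
  · rw [F.model s hs1 hs2]
    refine (norm_of_symm hA hM.le (hLt hs1)).trans ?_
    have h1 : μ + 1 / 8 / 2 ^ (gN n₂ k₁ k₀) ≤ d / 8 + d / 8 := by
      have : (1 / 8 / 2 ^ (gN n₂ k₁ k₀) : ℝ) = d / 8 := by rw [hd]; ring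
      rw [this]
      linarith
    calc M * (μ + 1 / 8 / 2 ^ (gN n₂ k₁ k₀)) ≤ M * (d / 8 + d / 8) := by gcongr
      _ ≤ 2 * M * d := by nlinarith [mul_pos hM hd0]

end

/-- positions on the line of the fine edge, relative to the box -/
theorem notMem_interior_low {v : V} {n₂ k₁ k₀ : ℕ} {z a : Fin 3 → ℤ} {k l : Fin 3} {d : ℝ}
    (hlk : l ≠ k) (ha : a l = al k₁ k₀ z l) {s : ℝ} (hs : s ≤ 1 / 2) :
    gam v ((gN n₂ k₁ k₀, a), l) s ∉
      interior (Icc (plo v n₂ k₁ k₀ z k d) (phi v n₂ k₁ k₀ z k d)) := by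
  intro h
  have h1 := (of_interior h hlk).1
  rw [gam_apply, if_pos rfl, add_lt_add_iff_left, div_lt_div_iff_of_pos_right (by positivity),
    ha] at h1
  linarith

theorem notMem_interior_high {v : V} {n₂ k₁ k₀ : ℕ} {z a : Fin 3 → ℤ} {k l : Fin 3} {d : ℝ}
    (hlk : l ≠ k) (ha : a l = be k₁ k₀ z l) {s : ℝ} (hs : 1 / 2 ≤ s) :
    gam v ((gN n₂ k₁ k₀, a), l) s ∉
      interior (Icc (plo v n₂ k₁ k₀ z k d) (phi v n₂ k₁ k₀ z k d)) := by
  intro h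
  have h1 := (of_interior h hlk).2
  rw [gam_apply, if_pos rfl, add_lt_add_iff_left, div_lt_div_iff_of_pos_right (by positivity),
    ha] at h1
  linarith

/-- the height of the fine edges -/
theorem gam_k {v : V} {n₂ k₁ k₀ : ℕ} {z a : Fin 3 → ℤ} {k l : Fin 3} (hlk : l ≠ k)
    (hak : a k = z k * 2 ^ (k₁ + k₀)) (s : ℝ) :
    gam v ((gN n₂ k₁ k₀, a), l) s k = ht v (gN n₂ k₁ k₀) k (z k * 2 ^ (k₁ + k₀)) := by
  rw [gam_apply, if_neg (Ne.symm hlk), add_zero, hak]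
  rfl

theorem mem_box_line {v : V} {n₂ k₁ k₀ : ℕ} {z a : Fin 3 → ℤ} {k l : Fin 3} {d : ℝ} (hd : 0 < d)
    (hlk : l ≠ k) (hak : a k = z k * 2 ^ (k₁ + k₀))
    (hj : ∀ j, j ≠ l → j ≠ k → al k₁ k₀ z j < a j ∧ a j ≤ be k₁ k₀ z j) {s : ℝ}
    (h1 : (al k₁ k₀ z l : ℝ) + 1 / 2 ≤ a l + s) (h2 : (a l : ℝ) + s ≤ be k₁ k₀ z l + 1 / 2) :
    gam v ((gN n₂ k₁ k₀, a), l) s ∈ Icc (plo v n₂ k₁ k₀ z k d) (phi v n₂ k₁ k₀ z k d) := by
  rw [mem_box]
  refine ⟨?_, fun j hjk' => ?_⟩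
  · rw [gam_k hlk hak, ht_eq']
    constructor <;> linarith
  rw [gam_apply, add_le_add_iff_left, add_le_add_iff_left,
    div_le_div_iff_of_pos_right (by positivity), div_le_div_iff_of_pos_right (by positivity)]
  by_cases hjk : j = l
  · subst hjk
    rw [if_pos rfl]
    exact ⟨h1, h2⟩
  · rw [if_neg hjk, add_zero]
    obtain ⟨h3, h4⟩ := hj j hjk hjk'
    have h5 : (al k₁ k₀ z j : ℝ) + 1 ≤ a j := by exact_mod_cast h3
    have h6 : (a j : ℝ) ≤ be k₁ k₀ z j := by exact_mod_cast h4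
    constructor <;> linarith

theorem pbox_squ {v : V} {n₂ k₁ : ℕ} {z : Fin 3 → ℤ} {k : Fin 3} :
    pbox v ((n₂, z), k) (1 / 2 ^ (n₂ + k₁)) 0 ⊆ squ v ((n₂, z), k) := by
  rintro x ⟨h1, h2⟩
  have hp : (0:ℝ) < 1 / 2 ^ (n₂ + k₁) := by positivity
  have h1 : |x k - (v k + z k / 2 ^ n₂)| ≤ 0 := h1
  refine ⟨?_, fun i hi => ?_⟩
  · show x k = v k + z k / 2 ^ n₂
    have := abs_le.1 h1
    linarith [this.1, this.2]
  · have := h2 i hi
    simp only at this ⊢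
    constructor <;> linarith

theorem pbox_interior {v : V} {n₂ k₁ : ℕ} {z : Fin 3 → ℤ} {k : Fin 3} {δ : ℝ} (hδ : 0 < δ) :
    pbox v ((n₂, z), k) (1 / 2 ^ (n₂ + k₁)) 0 ⊆
      interior (Icc (llo v n₂ z k δ) (lhi v n₂ z k δ)) := by
  rintro x ⟨h1, h2⟩
  have hp : (0:ℝ) < 1 / 2 ^ (n₂ + k₁) := by positivity
  have h1 : |x k - (v k + z k / 2 ^ n₂)| ≤ 0 := h1
  have h1' := abs_le.1 h1
  rw [← pi_univ_Icc, interior_pi_set finite_univ]
  intro i _
  simp only [interior_Icc, mem_Ioo]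
  by_cases hi : i = k
  · subst hi
    simp only [llo, lhi, if_true]
    constructor <;> linarith [h1'.1, h1'.2]
  · have := h2 i hi
    simp only [llo, lhi, hi, if_false] at this ⊢
    constructor <;> linarith [this.1, this.2]

end Gap371

open Gap371 in
/-- **(GAP2)** -/
theorem specGap2 : SpecGap2 := by
  intro Vx B J I e0 e1 inc qC Ω K Λ h v n₂ k₁ k₀ z k δ o A μ η cu cd hδ near p M κ d hp hM hκ hd0
    hdδ hA hk₁ hk₀ hμ h4M hdv h3 Lt χ p' hcut hχ1 hχ0 hχ2 hR hmod hLt1 hLt2 e he hsub hfr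
  obtain ⟨⟨n, w⟩, l⟩ := e
  obtain rfl : n = n₂ + k₁ := he
  have hsubB : edge v ((n₂ + k₁, w), l) ⊆ pbox v ((n₂, z), k) (1 / 2 ^ (n₂ + k₁)) 0 :=
    fun x hx => (hsub hx).1
  obtain ⟨hlk, hwk, hb, hbk⟩ := bounds hsubB
  have hst := fun j hj hjk => strict hsubB hfr (j := j) hj hjk
  have hPQ := P_Q hk₁ z l
  have hT : (0:ℝ) < 2 ^ k₀ := by positivity
  have hT1 : (1:ℝ) ≤ 2 ^ k₀ := one_le_pow₀ (by norm_num)
  have hTZ : (1:ℤ) ≤ 2 ^ k₀ := one_le_pow₀ (by norm_num)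
  have hD : (0:ℝ) < 2 ^ (n₂ + k₁) := by positivity
  have hA' : ∀ w, ‖(A : V →L[ℝ] V) w‖ ≤ M * ‖w‖ := hA
  set X : Set V := Icc (plo v n₂ k₁ k₀ z k d) (phi v n₂ k₁ k₀ z k d) with hX
  have hfk : ∀ m : ℤ, fc k₀ w l m k = z k * 2 ^ (k₁ + k₀) := by
    intro m
    unfold fc
    rw [if_neg (Ne.symm hlk), add_zero, hwk, pow_add]
    ring
  have hgk := fun (m : ℤ) (s : ℝ) => gam_k (v := v) (n₂ := n₂) (k₁ := k₁) (k₀ := k₀) hlk (hfk m) s
  -- the fine edge number `m` and the facts about the new map on its line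
  have main : ∀ m : ℤ, 0 ≤ m → m + 1 ≤ 2 ^ k₀ → Marked2 k₁ k₀ z (fc k₀ w l m) k l →
      (∃ r, Fine X v n₂ k₁ k₀ (fc k₀ w l m) l h h3 Lt r) ∧
      edge v ((gN n₂ k₁ k₀, fc k₀ w l m), l) ⊆ pbox v ((n₂, z), k) (1 / 2 ^ (n₂ + k₁)) 0 := by
    intro m hm0 hm1 hmk
    have hsub' := (fine_subset v _ k₀ w l hm0 hm1).trans hsubB
    obtain ⟨b, hbb⟩ := near.lat.arc' (fc k₀ w l m) l hlk (hfk m)
      ⟨_, left_mem_edge, pbox_interior hδ (hsub' left_mem_edge)⟩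
    exact ⟨exists_fine hbb hmk hcut hχ1 hχ2 hmod, hsub'⟩
  have hsupm : ∀ m : ℤ, edge v ((gN n₂ k₁ k₀, fc k₀ w l m), l) ⊆
      pbox v ((n₂, z), k) (1 / 2 ^ (n₂ + k₁)) 0 →
      ∀ x ∈ edge v ((gN n₂ k₁ k₀, fc k₀ w l m), l), ‖A.symm (h x - o) - x‖ ≤ μ :=
    fun m hm => near.sup _ l hlk (hfk m) (hm.trans ((pbox_interior hδ).trans interior_subset))
  have hLL : ∀ x y, x k = ht v (gN n₂ k₁ k₀) k (z k * 2 ^ (k₁ + k₀)) →
      y k = ht v (gN n₂ k₁ k₀) k (z k * 2 ^ (k₁ + k₀)) → ‖Lt x - Lt y‖ ≤ 9 / 4 * M * ‖x - y‖ := by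
    intro x y hx hy
    calc ‖Lt x - Lt y‖ = ‖A (A.symm (Lt x - Lt y))‖ := by rw [A.apply_symm_apply]
      _ ≤ M * ‖A.symm (Lt x - Lt y)‖ := hA _
      _ ≤ M * (9 / 4 * ‖x - y‖) := mul_le_mul_of_nonneg_left (hLt2 x y hx hy) hM.le
      _ = _ := by ring
  have hcoarse : ∀ t : ℝ, gam v ((n₂ + k₁, w), l) t k =
      ht v (gN n₂ k₁ k₀) k (z k * 2 ^ (k₁ + k₀)) := by
    intro t
    rw [gam_fine v (n₂ + k₁) k₀ w l 0 t]
    exact hgk 0 _
  by_cases hlow : w l = P k₁ z l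
  · -- the lower radial edges
    have hak : fc k₀ w l 0 l = al k₁ k₀ z l := by
      unfold fc
      rw [if_pos rfl, add_zero, hlow, al_eq]
    have hmk : Marked2 k₁ k₀ z (fc k₀ w l 0) k l :=
      ⟨⟨hlk, hfk 0, Or.inl hak, fun j hj hjk => (fc_other hj (hst j hj hjk)).1⟩,
        fun j hj hjk => (fc_other hj (hst j hj hjk)).2⟩
    obtain ⟨⟨r, F⟩, hsubd⟩ := main 0 le_rfl (by simpa using hTZ) hmk
    have hr := F.r_mem
    -- the two parts
    have hg : ∀ t : ℝ, gam v ((n₂ + k₁, w), l) t =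
        gam v ((gN n₂ k₁ k₀, fc k₀ w l 0), l) (2 ^ k₀ * t) := by
      intro t
      rw [gam_fine v (n₂ + k₁) k₀ w l 0 t]
      simp
    have hfine : ∀ t ∈ Icc (0:ℝ) 1, 2 ^ k₀ * t ≤ 1 / 2 → 2 ^ k₀ * t ∈ Icc (0:ℝ) 1 ∧
        gam v ((gN n₂ k₁ k₀, fc k₀ w l 0), l) (2 ^ k₀ * t) ∉ interior X := fun t ht h12 =>
      ⟨⟨mul_nonneg hT.le ht.1, by linarith⟩, notMem_interior_low hlk hak h12⟩
    have hmodel : ∀ t ∈ Icc (0:ℝ) 1, 1 / 2 ≤ 2 ^ k₀ * t →
        gam v ((gN n₂ k₁ k₀, fc k₀ w l 0), l) (2 ^ k₀ * t) ∈ X ∧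
          |2 ^ k₀ * t - 1 / 2| ≤ 2 ^ k₀ - 1 / 2 := by
      intro t ht h12
      have h5 : 2 ^ k₀ * t ≤ 2 ^ k₀ := by nlinarith [ht.2]
      refine ⟨mem_box_line hd0 hlk (hfk 0) (fun j hj hjk => (fc_other hj (hst j hj hjk)).1) ?_ ?_,
        ?_⟩
      · rw [hak]
        linarith
      · rw [hak, al_eq, be_eq]
        have h6 : ((P k₁ z l : ℝ) + 1) ≤ Q k₁ z l - 1 := by exact_mod_cast hPQ
        push_cast
        nlinarith
      · rw [abs_of_nonneg (by linarith)]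
        linarith
    refine ⟨fun x hx => ?_, ?_⟩
    · obtain ⟨t, ht, rfl⟩ := exists_gam hx
      rw [hg]
      refine le_trans (F.close hA hM (hsupm 0 hsubd) hμ (fun hx => hLt1 _ hx (hgk 0 _)) ?_)
        (two_M h4M)
      rcases le_total (2 ^ k₀ * t) (1 / 2) with h12 | h12
      · exact Or.inl (hfine t ht h12)
      · exact Or.inr (hmodel t ht h12)
    · refine GBM489.dvarLeft (e := ((n₂ + k₁, w), l)) (e' := ((gN n₂ k₁ k₀, fc k₀ w l 0), l))
        (h := h) (L := (A : V →L[ℝ] V)) (lam := 2 * r * 2 ^ k₀) hp k₀ rfl (by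
          have := hr.1
          positivity) (by nlinarith [hr.2]) (by positivity) hκ hM.le hA' ?_ ?_ ?_
      · intro t ht
        have ht1 : 2 ^ k₀ * t ≤ 1 / 2 := by
          have := ht.2
          rw [le_div_iff₀ (by positivity)] at this
          linarith
        have ht' : t ∈ Icc (0:ℝ) 1 := ⟨ht.1, by nlinarith⟩
        rw [hg, F.fine _ (hfine t ht' ht1).1 (hfine t ht' ht1).2, GB1.rep_le ht1]
        congr 2
        ring
      · intro s hs t ht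
        have key : ∀ t ∈ Icc (1 / (2 * 2 ^ k₀) : ℝ) 1,
            h3 (gam v ((n₂ + k₁, w), l) t) = Lt (gam v ((n₂ + k₁, w), l) t) := by
          intro t ht
          have h1 := ht.1
          have ht0 : 0 ≤ t := le_trans (by positivity) h1
          rw [div_le_iff₀ (by positivity)] at h1
          have h2 := hmodel t ⟨ht0, ht.2⟩ (by linarith)
          rw [hg, F.model _ h2.1 h2.2]
        rw [key s hs, key t ht]
        refine (hLL _ _ (hcoarse s) (hcoarse t)).trans (le_of_eq ?_)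
        rw [norm_gam_sub]
        ring
      · exact hdv ((gN n₂ k₁ k₀, fc k₀ w l 0), l) rfl (hsubd.trans pbox_squ)
  · by_cases hup : w l + 1 = Q k₁ z l
    · -- the upper radial edges
      have hak : fc k₀ w l (2 ^ k₀ - 1) l = be k₁ k₀ z l := by
        unfold fc
        rw [if_pos rfl, be_eq, ← hup]
        ring
      have hmk : Marked2 k₁ k₀ z (fc k₀ w l (2 ^ k₀ - 1)) k l :=
        ⟨⟨hlk, hfk _, Or.inr hak, fun j hj hjk => (fc_other hj (hst j hj hjk)).1⟩,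
          fun j hj hjk => (fc_other hj (hst j hj hjk)).2⟩
      obtain ⟨⟨r, F⟩, hsubd⟩ := main (2 ^ k₀ - 1) (by linarith) (by linarith) hmk
      have hr := F.r_mem
      have hg : ∀ t : ℝ, gam v ((n₂ + k₁, w), l) t =
          gam v ((gN n₂ k₁ k₀, fc k₀ w l (2 ^ k₀ - 1)), l) (1 - 2 ^ k₀ * (1 - t)) := by
        intro t
        rw [gam_fine v (n₂ + k₁) k₀ w l (2 ^ k₀ - 1) t]
        congr 1
        push_cast
        ring
      have hfine : ∀ t ∈ Icc (0:ℝ) 1, 1 / 2 ≤ 1 - 2 ^ k₀ * (1 - t) →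
          1 - 2 ^ k₀ * (1 - t) ∈ Icc (0:ℝ) 1 ∧
          gam v ((gN n₂ k₁ k₀, fc k₀ w l (2 ^ k₀ - 1)), l) (1 - 2 ^ k₀ * (1 - t)) ∉
            interior X := fun t ht h12 =>
        ⟨⟨by linarith, by nlinarith [ht.2]⟩, notMem_interior_high hlk hak h12⟩
      have hmodel : ∀ t ∈ Icc (0:ℝ) 1, 1 - 2 ^ k₀ * (1 - t) ≤ 1 / 2 →
          gam v ((gN n₂ k₁ k₀, fc k₀ w l (2 ^ k₀ - 1)), l) (1 - 2 ^ k₀ * (1 - t)) ∈ X ∧
            |1 - 2 ^ k₀ * (1 - t) - 1 / 2| ≤ 2 ^ k₀ - 1 / 2 := by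
        intro t ht h12
        have h5 : 2 ^ k₀ * (1 - t) ≤ 2 ^ k₀ := by nlinarith [ht.1]
        refine ⟨mem_box_line hd0 hlk (hfk _) (fun j hj hjk => (fc_other hj (hst j hj hjk)).1)
          ?_ ?_, ?_⟩
        · rw [hak, al_eq, be_eq]
          have h6 : ((P k₁ z l : ℝ) + 1) ≤ Q k₁ z l - 1 := by exact_mod_cast hPQ
          push_cast
          nlinarith
        · rw [hak]
          linarith
        · rw [abs_of_nonpos (by linarith)]
          linarith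
      refine ⟨fun x hx => ?_, ?_⟩
      · obtain ⟨t, ht, rfl⟩ := exists_gam hx
        rw [hg]
        refine le_trans (F.close hA hM (hsupm _ hsubd) hμ (fun hx => hLt1 _ hx (hgk _ _)) ?_)
          (two_M h4M)
        rcases le_total (1 / 2) (1 - 2 ^ k₀ * (1 - t)) with h12 | h12
        · exact Or.inl (hfine t ht h12)
        · exact Or.inr (hmodel t ht h12)
      · refine GBM489.dvarRight (e := ((n₂ + k₁, w), l))
          (e' := ((gN n₂ k₁ k₀, fc k₀ w l (2 ^ k₀ - 1)), l))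
          (h := h) (L := (A : V →L[ℝ] V)) (lam := 2 * (1 - r) * 2 ^ k₀) hp k₀ rfl (by
            have : 0 < 1 - r := by linarith [hr.2]
            positivity) (by nlinarith [hr.1]) (by positivity) hκ hM.le hA' ?_ ?_ ?_
        · intro t ht
          have ht1 : 1 / 2 ≤ 1 - 2 ^ k₀ * (1 - t) := by
            have h1 : 1 - t ≤ 1 / (2 * 2 ^ k₀) := by linarith [ht.1]
            rw [le_div_iff₀ (by positivity)] at h1
            linarith
          have ht' : t ∈ Icc (0:ℝ) 1 := ⟨by nlinarith, ht.2⟩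
          rw [hg, F.fine _ (hfine t ht' ht1).1 (hfine t ht' ht1).2,
            GB1.rep_ge (by norm_num) ht1]
          congr 2
          ring
        · intro s hs t ht
          have key : ∀ t ∈ Icc (0:ℝ) (1 - 1 / (2 * 2 ^ k₀)),
              h3 (gam v ((n₂ + k₁, w), l) t) = Lt (gam v ((n₂ + k₁, w), l) t) := by
            intro t ht
            have h1 : 1 / (2 * 2 ^ k₀) ≤ 1 - t := by linarith [ht.2]
            have ht1 : t ≤ 1 := by
              have : (0:ℝ) < 1 / (2 * 2 ^ k₀) := by positivity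
              linarith
            rw [div_le_iff₀ (by positivity)] at h1
            have h2 := hmodel t ⟨ht.1, ht1⟩ (by linarith)
            rw [hg, F.model _ h2.1 h2.2]
          rw [key s hs, key t ht]
          refine (hLL _ _ (hcoarse s) (hcoarse t)).trans (le_of_eq ?_)
          rw [norm_gam_sub]
          ring
        · exact hdv ((gN n₂ k₁ k₀, fc k₀ w l (2 ^ k₀ - 1)), l) rfl (hsubd.trans pbox_squ)
    · -- the edges in the protected box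
      have hin : ∀ x ∈ edge v ((n₂ + k₁, w), l), x ∈ pbox v ((n₂, z), k) (2 / 2 ^ (n₂ + k₁)) 0 := by
        intro x hx
        obtain ⟨t, ht, rfl⟩ := exists_gam hx
        rw [mem_pbR]
        refine ⟨by rw [hcoarse, ht_eq'], fun j hjk => ?_⟩
        rw [gam_apply, add_le_add_iff_left, add_le_add_iff_left,
          div_le_div_iff_of_pos_right hD, div_le_div_iff_of_pos_right hD]
        by_cases hj : j = l
        · subst hj
          rw [if_pos rfl]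
          have h1 : P k₁ z j + 1 ≤ w j := by
            have := (hb j hjk).1
            omega
          have h2 : w j + 1 ≤ Q k₁ z j - 1 := by omega
          have h1' : (P k₁ z j : ℝ) + 1 ≤ w j := by exact_mod_cast h1
          have h2' : (w j : ℝ) + 1 ≤ Q k₁ z j - 1 := by exact_mod_cast h2
          constructor
          · linarith [ht.1]
          · linarith [ht.2]
        · rw [if_neg hj, add_zero]
          obtain ⟨h1, h2⟩ := hst j hj hjk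
          exact ⟨by exact_mod_cast h1, by exact_mod_cast h2⟩
      refine ⟨fun x hx => ?_, ?_⟩
      · rw [hR x (hin x hx), sub_self, norm_zero]
        positivity
      · refine (GBM489.dvar_affine' (A := fun x => o + A x) (L := (A : V →L[ℝ] V)) hp hM.le
          (fun x y => by
            show o + A y - (o + A x) = A (y - x)
            rw [map_sub]
            abel) hA' fun x hx => hR x (hin x hx)).trans ?_
        apply ENNReal.ofReal_le_ofReal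
        have h1 : M ^ p ≤ (9 / 4 * M) ^ p :=
          Real.rpow_le_rpow hM.le (by linarith) (by linarith)
        have h2 : 0 ≤ (4:ℝ) ^ p * (κ + M ^ p) := by positivity
        exact mul_le_mul_of_nonneg_right (by linarith) (by positivity)

end P073.PL
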