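import Vale.Agent.P073.PL.Lens932
import Vale.Agent.P073.GBM.CellLa

/-!
# P073, block SpecPlate, part (LA2): the net in a plate (helper371)
-/

open Set Metric Topology Filter MeasureTheory
open scoped ENNReal NNReal

namespace P073.PL

open P073 P073.PR720 P073.GB73 P073.GBM P073.Gauge P073.GB1W P073.Cell P073.Plate
open Vale.Agent.P073.St (V)
open Vale.Agent.P073.AB
open Vale.Agent.P073.SQ (ev)
open P073.Net (dyc dyo)

namespace La371

variable {Ω : Set V} {v : V} {I : Set Idx}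

/-- the two cubes on the two sides of a minimal square touch its plane -/
theorem two_plane (hI : Part Ω v I) {s : Idx × Fin 3} (hs : MinSq v I s) {qp qm : Idx}
    (h : P86.Two v I s qp qm) :
    v s.2 + (qp.2 s.2 : ℝ) / 2 ^ qp.1 = v s.2 + s.1.2 s.2 / 2 ^ s.1.1 ∧
    v s.2 + ((qm.2 s.2 : ℝ) + 1) / 2 ^ qm.1 = v s.2 + s.1.2 s.2 / 2 ^ s.1.1 := by
  have hsp : squ v s ⊆ dyc v qp.1 qp.2 := P86.squ_sub_hi.trans h.subp
  have hsm : squ v s ⊆ dyc v qm.1 qm.2 := P86.squ_sub_lo.trans h.subm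
  have hsc : P86.sc v s s.2 = v s.2 + (s.1.2 s.2 : ℝ) / 2 ^ s.1.1 := by simp [P86.sc]
  have hpos : (0:ℝ) < 1 / 2 ^ s.1.1 := by positivity
  constructor
  · have h1 := P86.abseq (P86.bd_pos hI hs h.memp hsp).1
    rw [hsc] at h1
    rcases h1 with h1 | h1
    · exact h1.symm
    · exfalso
      have h2 := (P86.sub_ineq h.subp s.2).2
      rw [add_div (s.1.2 s.2 : ℝ)] at h2
      linarith
  · have h1 := P86.abseq (P86.bd_pos hI hs h.memm hsm).1
    rw [hsc] at h1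
    rcases h1 with h1 | h1
    · exfalso
      have h2 := (P86.sub_ineq h.subm s.2).1
      rw [P86.lo_same] at h2
      push_cast at h2
      rw [sub_div] at h2
      linarith
    · exact h1.symm

/-- a square in a plane `x k = H` has normal direction `k` -/
theorem dir_eq {s : Idx × Fin 3} {k : Fin 3} {H : ℝ} (h : ∀ x ∈ squ v s, x k = H) :
    s.2 = k ∧ v k + (s.1.2 k : ℝ) / 2 ^ s.1.1 = H := by
  have hp : (0:ℝ) < 1 / 2 ^ s.1.1 := by positivity
  have h1 : (fun j => v j + s.1.2 j / 2 ^ s.1.1 : V) ∈ squ v s :=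
    ⟨rfl, fun j _ => ⟨le_rfl, by rw [add_div]; linarith⟩⟩
  have h2 : (fun j => if j = s.2 then v j + s.1.2 j / 2 ^ s.1.1 else
      v j + (s.1.2 j + 1) / 2 ^ s.1.1 : V) ∈ squ v s := by
    refine ⟨by simp, fun j hj => ?_⟩
    simp only [if_neg hj]
    exact ⟨by rw [add_div]; linarith, le_rfl⟩
  have g1 : v k + (s.1.2 k : ℝ) / 2 ^ s.1.1 = H := h _ h1
  have g2 : (if k = s.2 then v k + s.1.2 k / 2 ^ s.1.1 else
      v k + (s.1.2 k + 1) / 2 ^ s.1.1) = H := h _ h2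
  refine ⟨?_, g1⟩
  by_contra hne
  rw [if_neg (Ne.symm hne), add_div] at g2
  linarith

end La371

open La371

/-- **(LA2)** the net in a plate -/
theorem specLa2 : SpecLa2 := by
  intro Ω v I T D n₂ k₁ k₀ z k hΩ hI hT hl hfine
  refine ⟨?_, ?_⟩
  swap
  · intro b w l hb
    rw [D.arc b] at hb
    have h1 := Cell.gen_eq_of_edge_eq hb
    have h3 : D.φ b = ((gN n₂ k₁ k₀, (D.φ b).1.2), (D.φ b).2) := by
      have : (D.φ b).1.1 = gN n₂ k₁ k₀ := h1
      rw [← this]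
    rw [h3] at hb
    obtain ⟨h4, h5⟩ := edge_inj hb
    rw [h3, h4, h5]
  intro b hb
  obtain ⟨s', hs', rfl, hsub⟩ := hl
  have hp2 : (0:ℝ) < 1 / 2 ^ n₂ := by positivity
  -- the coarse square is in the relative interior of the minimal square
  have hin : ∀ x ∈ squ v ((n₂, z), s'.2), ∀ t : ℝ, |t| ≤ 1 / 2 ^ n₂ → ∀ i, i ≠ s'.2 →
      Function.update x i (x i + t) ∈ squ v s' := by
    intro x hx t ht i hi
    apply hsub
    have ht' := abs_le.1 ht
    refine ⟨?_, fun j hj => ?_⟩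
    · show |Function.update x i (x i + t) s'.2 - (v s'.2 + z s'.2 / 2 ^ n₂)| ≤ 0
      rw [Function.update_of_ne (Ne.symm hi)]
      have : x s'.2 = v s'.2 + z s'.2 / 2 ^ n₂ := hx.1
      rw [this, sub_self, abs_zero]
    · have hx2 := hx.2 j hj
      simp only at hx2 hj ⊢
      by_cases hji : j = i
      · subst hji
        rw [Function.update_self]
        constructor <;> linarith [ht'.1, ht'.2]
      · rw [Function.update_of_ne hji]
        constructor <;> linarith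
  have hrel : ∀ x ∈ squ v ((n₂, z), s'.2), x ∈ P86.rel v s' := by
    intro x hx
    have hex : ∃ i : Fin 3, i ≠ s'.2 := exists_ne s'.2
    obtain ⟨i₀, hi₀⟩ := hex
    have h0 := hin x hx 0 (by rw [abs_zero]; exact hp2.le) i₀ hi₀
    rw [add_zero, Function.update_eq_self] at h0
    refine ⟨h0.1, fun i hi => ?_⟩
    have h1 := (hin x hx (1 / 2 ^ n₂) (by rw [abs_of_pos hp2]) i hi).2 i hi
    have h2 := (hin x hx (-(1 / 2 ^ n₂)) (by rw [abs_neg, abs_of_pos hp2]) i hi).2 i hi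
    rw [Function.update_self] at h1 h2
    constructor
    · linarith [h2.1]
    · linarith [h1.2]
  obtain ⟨qp, qm, htwo⟩ := P86.two_of_minSq hΩ hI hs'
  obtain ⟨hqp, hqm⟩ := two_plane hI hs' htwo
  -- the tile
  obtain ⟨s1, hs1, he⟩ := D.edgeOf b
  obtain ⟨s'', hs'', hdir, hs1s''⟩ := hT.sub s1 hs1
  obtain ⟨q1, q2, htwo'⟩ := P86.two_of_minSq hΩ hI hs''
  obtain ⟨hq1, hq2⟩ := two_plane hI hs'' htwo'
  set x0 : V := pt v (D.φ b).1.1 (D.φ b).1.2 with hx0
  have hx0e : x0 ∈ edge v (D.φ b) := left_mem_segment ℝ _ _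
  have hx0S : x0 ∈ squ v ((n₂, z), s'.2) := hb (by rw [D.arc]; exact hx0e)
  have hx01 : x0 ∈ squ v s1 := CxA.edgeOfSq_subset he hx0e
  have hsq1 : squ v s'' ⊆ dyc v q1.1 q1.2 := P86.squ_sub_hi.trans htwo'.subp
  have hsq2 : squ v s'' ⊆ dyc v q2.1 q2.2 := P86.squ_sub_lo.trans htwo'.subm
  have hne : q1 ≠ q2 := by
    intro h
    rw [← h] at hq2
    rw [← hq1, add_div] at hq2
    have : (0:ℝ) < 1 / 2 ^ q1.1 := by positivity
    linarith
  have hm1 := P86.rel_mem hI htwo (hrel x0 hx0S) htwo'.memp (hsq1 (hs1s'' hx01))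
  have hm2 := P86.rel_mem hI htwo (hrel x0 hx0S) htwo'.memm (hsq2 (hs1s'' hx01))
  have hbox : ∀ x ∈ squ v s1, x ∈ dyc v qp.1 qp.2 ∧ x ∈ dyc v qm.1 qm.2 := by
    intro x hx
    have a1 := hsq1 (hs1s'' hx)
    have a2 := hsq2 (hs1s'' hx)
    rcases hm1 with h1 | h1 <;> rcases hm2 with h2 | h2
    · exact absurd (h1.trans h2.symm) hne
    · rw [h1] at a1; rw [h2] at a2; exact ⟨a1, a2⟩
    · rw [h1] at a1; rw [h2] at a2; exact ⟨a2, a1⟩
    · exact absurd (h1.trans h2.symm) hne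
  have hH : v s'.2 + (s'.1.2 s'.2 : ℝ) / 2 ^ s'.1.1 = v s'.2 + z s'.2 / 2 ^ n₂ := by
    have h1 : x0 s'.2 = v s'.2 + z s'.2 / 2 ^ n₂ := hx0S.1
    have h2 := (hrel x0 hx0S).1
    rw [← h2, h1]
  have hplane : ∀ x ∈ squ v s1, x s'.2 = v s'.2 + z s'.2 / 2 ^ n₂ := by
    intro x hx
    obtain ⟨a1, a2⟩ := hbox x hx
    have b1 := (a1 s'.2).1
    have b2 := (a2 s'.2).2
    rw [hqp, hH] at b1
    rw [hqm, hH] at b2
    exact le_antisymm b2 b1
  obtain ⟨hd, hh⟩ := dir_eq hplane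
  -- generations
  set g : ℕ := gN n₂ k₁ k₀ with hg
  obtain ⟨⟨n1, w1⟩, k'⟩ := s1
  have hd : k' = s'.2 := hd
  subst hd
  have hPn : (2:ℝ) ^ n1 ≠ 0 := by positivity
  have hh : v s'.2 + (w1 s'.2 : ℝ) / 2 ^ n1 = v s'.2 + z s'.2 / 2 ^ n₂ := hh
  have hgen : n1 = g := by
    rcases le_total n1 g with hle | hle
    · obtain ⟨d, hd⟩ := Nat.exists_eq_add_of_le hle
      obtain ⟨w, hwk, hw, hxw⟩ := Lens932.exists_fine (k₁ := d) (k₀ := 0) hx01
      have hsub' := Lens932.fine_sub (v := v) (n₂ := n1) hwk hw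
      have hgg : gN n1 d 0 = g := by rw [hd]; rfl
      rw [hgg] at hxw hsub'
      have htT := hfine ((g, w), s'.2) rfl rfl ⟨x0, hxw, hx0S⟩
      have := hT.disj _ htT _ hs1 rfl hsub'
      exact (congrArg (fun s : Idx × Fin 3 => s.1.1) this).symm
    · obtain ⟨d, hd⟩ := Nat.exists_eq_add_of_le hle
      subst hd
      have h2d : (0:ℤ) < 2 ^ (d + 0) := by positivity
      set w : Fin 3 → ℤ := fun i => w1 i / 2 ^ (d + 0) with hw
      have hgg : gN g d 0 = g + d := rfl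
      have e1 := Lens932.div_fine n₂ k₁ k₀ (z s'.2)
      have e2 := Lens932.div_fine g d 0 (z s'.2 * 2 ^ (k₁ + k₀))
      have hwk : w1 s'.2 = z s'.2 * 2 ^ (k₁ + k₀) * 2 ^ (d + 0) := by
        have a1 : (w1 s'.2 : ℝ) / 2 ^ (g + d) =
            ((z s'.2 * 2 ^ (k₁ + k₀) * 2 ^ (d + 0) : ℤ) : ℝ) / 2 ^ (g + d) := by
          rw [hgg] at e2
          rw [e2, e1]
          linarith
        rw [div_left_inj' hPn] at a1
        exact_mod_cast a1
      have hsub' : squ v ((gN g d 0, w1), s'.2) ⊆ squ v ((g, w), s'.2) := by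
        apply Lens932.fine_sub
        · rw [hw]
          simp only
          rw [hwk, Int.mul_ediv_cancel _ h2d.ne']
        · intro i _
          refine ⟨Int.ediv_mul_le _ h2d.ne', ?_⟩
          have := Int.lt_ediv_add_one_mul_self (w1 i) h2d
          exact this
      rw [hgg] at hsub'
      have htT := hfine ((g, w), s'.2) rfl rfl ⟨x0, hsub' hx01, hx0S⟩
      have := hT.disj _ hs1 _ htT rfl hsub'
      exact congrArg (fun s : Idx × Fin 3 => s.1.1) this
  subst hgen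
  obtain ⟨g1, g2, g3, g4, -⟩ := he
  refine ⟨(D.φ b).1.2, (D.φ b).2, g2, ?_, ?_⟩
  · have e1 := Lens932.div_fine n₂ k₁ k₀ (z s'.2)
    have a1 : (w1 s'.2 : ℝ) / 2 ^ g =
        ((z s'.2 * 2 ^ (k₁ + k₀) : ℤ) : ℝ) / 2 ^ g := by
      rw [e1]; linarith
    rw [div_left_inj' hPn] at a1
    have a2 : w1 s'.2 = z s'.2 * 2 ^ (k₁ + k₀) := by exact_mod_cast a1
    exact g4.trans a2
  · have : (D.φ b).1.1 = g := g1
    rw [← this]

end P073.PL
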