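import Vale.Agent.P073.PL.Spec
import Vale.Agent.P073.GB932.Lens
import Vale.Agent.P073.Gauge.CxA86

/-!
# P073, block SpecPlate: two thin box cells over the plate are split off (`SpecLens`)
-/

open Set Metric Topology Filter MeasureTheory
open scoped ENNReal NNReal

namespace P073.PL

open P073 P073.PR720 P073.GB73 P073.GBM P073.Gauge P073.GB1W P073.Cell P073.Plate
open Vale.Agent.P073.St (V)
open Vale.Agent.P073.AB
open Vale.Agent.P073.SQ (ev)
open P073.Net (dyc dyo)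

namespace Lens932

/-- choice of an integer interval -/
theorem exists_int {u : ℝ} {a m : ℤ} (h0 : (a:ℝ) ≤ u) (h1 : u ≤ a + m) (hm : 0 < m) :
    ∃ w : ℤ, a ≤ w ∧ w + 1 ≤ a + m ∧ (w:ℝ) ≤ u ∧ u ≤ w + 1 := by
  rcases lt_or_ge u (a + m) with h | h
  · refine ⟨⌊u⌋, Int.le_floor.2 h0, ?_, Int.floor_le u, (Int.lt_floor_add_one u).le⟩
    have : ⌊u⌋ < a + m := Int.floor_lt.2 (by push_cast; exact h)
    omega
  · refine ⟨a + m - 1, by omega, by omega, ?_, ?_⟩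
    · push_cast; linarith
    · push_cast; linarith

theorem gN_eq (n₂ k₁ k₀ : ℕ) : (2:ℝ) ^ (gN n₂ k₁ k₀) = 2 ^ n₂ * 2 ^ (k₁ + k₀) := by
  show (2:ℝ) ^ (n₂ + k₁ + k₀) = _
  rw [add_assoc, pow_add]

theorem div_fine (n₂ k₁ k₀ : ℕ) (a : ℤ) :
    ((a * 2 ^ (k₁ + k₀) : ℤ) : ℝ) / 2 ^ (gN n₂ k₁ k₀) = a / 2 ^ n₂ := by
  have h2 : (2:ℝ) ^ (k₁ + k₀) ≠ 0 := by positivity
  rw [gN_eq]
  push_cast
  rw [mul_div_mul_right _ _ h2]

theorem ht_eq (v : V) (n₂ k₁ k₀ : ℕ) (z : Fin 3 → ℤ) (k : Fin 3) :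
    ht v (gN n₂ k₁ k₀) k (z k * 2 ^ (k₁ + k₀)) = v k + z k / 2 ^ n₂ := by
  unfold ht
  rw [div_fine]

/-- fine squares contained in the coarse square -/
theorem fine_sub {v : V} {n₂ k₁ k₀ : ℕ} {z w : Fin 3 → ℤ} {k : Fin 3}
    (hk : w k = z k * 2 ^ (k₁ + k₀))
    (h : ∀ i, i ≠ k → z i * 2 ^ (k₁ + k₀) ≤ w i ∧ w i + 1 ≤ (z i + 1) * 2 ^ (k₁ + k₀)) :
    squ v ((gN n₂ k₁ k₀, w), k) ⊆ squ v ((n₂, z), k) := by
  rintro x ⟨hxk, hx⟩
  have hP : (0:ℝ) < 2 ^ (gN n₂ k₁ k₀) := by positivity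
  refine ⟨?_, fun i hi => ?_⟩
  · show x k = v k + z k / 2 ^ n₂
    have h1 : x k = v k + w k / 2 ^ (gN n₂ k₁ k₀) := hxk
    rw [h1, hk, div_fine]
  · obtain ⟨h1, h2⟩ := hx i hi
    obtain ⟨h3, h4⟩ := h i hi
    simp only at h1 h2 ⊢
    have e1 := div_fine n₂ k₁ k₀ (z i)
    have e2 := div_fine n₂ k₁ k₀ (z i + 1)
    push_cast at e2
    have h3' : ((z i * 2 ^ (k₁ + k₀) : ℤ) : ℝ) ≤ w i := by exact_mod_cast h3
    have h4' : ((w i : ℝ) + 1) ≤ ((z i : ℝ) + 1) * 2 ^ (k₁ + k₀) := by exact_mod_cast h4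
    constructor
    · rw [← e1]
      have := div_le_div_of_nonneg_right h3' hP.le
      linarith
    · rw [← e2]
      have := div_le_div_of_nonneg_right h4' hP.le
      linarith

/-- every point of the coarse square is in a fine square -/
theorem exists_fine {v : V} {n₂ k₁ k₀ : ℕ} {z : Fin 3 → ℤ} {k : Fin 3} {x : V}
    (hx : x ∈ squ v ((n₂, z), k)) :
    ∃ w : Fin 3 → ℤ, w k = z k * 2 ^ (k₁ + k₀) ∧
      (∀ i, i ≠ k → z i * 2 ^ (k₁ + k₀) ≤ w i ∧ w i + 1 ≤ (z i + 1) * 2 ^ (k₁ + k₀)) ∧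
      x ∈ squ v ((gN n₂ k₁ k₀, w), k) := by
  have hP : (0:ℝ) < 2 ^ (gN n₂ k₁ k₀) := by positivity
  have key : ∀ i, ∃ w : ℤ, i ≠ k → (z i * 2 ^ (k₁ + k₀) ≤ w ∧
      w + 1 ≤ (z i + 1) * 2 ^ (k₁ + k₀)) ∧ v i + w / 2 ^ (gN n₂ k₁ k₀) ≤ x i ∧
      x i ≤ v i + (w + 1) / 2 ^ (gN n₂ k₁ k₀) := by
    intro i
    by_cases hi : i = k
    · exact ⟨0, fun h => absurd hi h⟩
    · obtain ⟨h1, h2⟩ := hx.2 i hi
      simp only at h1 h2
      have e1 := div_fine n₂ k₁ k₀ (z i)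
      have e2 := div_fine n₂ k₁ k₀ (z i + 1)
      rw [div_eq_iff hP.ne'] at e1 e2
      have g1 : ((z i * 2 ^ (k₁ + k₀) : ℤ) : ℝ) ≤ (x i - v i) * 2 ^ (gN n₂ k₁ k₀) := by
        rw [e1]; exact mul_le_mul_of_nonneg_right (by linarith) hP.le
      have g2 : (x i - v i) * 2 ^ (gN n₂ k₁ k₀) ≤
          ((z i * 2 ^ (k₁ + k₀) : ℤ) : ℝ) + ((2 ^ (k₁ + k₀) : ℤ) : ℝ) := by
        have : ((z i * 2 ^ (k₁ + k₀) : ℤ) : ℝ) + ((2 ^ (k₁ + k₀) : ℤ) : ℝ) =
            (((z i + 1) * 2 ^ (k₁ + k₀) : ℤ) : ℝ) := by push_cast; ring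
        rw [this, e2]
        push_cast
        exact mul_le_mul_of_nonneg_right (by linarith) hP.le
      obtain ⟨w, w1, w2, w3, w4⟩ := exists_int g1 g2 (by positivity)
      refine ⟨w, fun _ => ⟨⟨w1, by linarith⟩, ?_, ?_⟩⟩
      · have := (div_le_iff₀ hP).2 w3
        linarith
      · have := (le_div_iff₀ hP).2 w4
        linarith
  choose w hw using key
  refine ⟨fun i => if i = k then z k * 2 ^ (k₁ + k₀) else w i, by simp, fun i hi => ?_, ?_, ?_⟩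
  · simp only [hi, if_false]; exact (hw i hi).1
  · show x k = v k + ((if k = k then z k * 2 ^ (k₁ + k₀) else w k : ℤ) : ℝ) / 2 ^ (gN n₂ k₁ k₀)
    rw [if_pos rfl, div_fine]
    exact hx.1
  · intro i hi
    have hi' : i ≠ k := hi
    simp only [hi', if_false]
    exact (hw i hi').2

/-- lower corner of a dyadic cube -/
noncomputable def cLo (v : V) (q : Idx) : V := fun i => v i + q.2 i / 2 ^ q.1

/-- upper corner of a dyadic cube -/
noncomputable def cHi (v : V) (q : Idx) : V := fun i => v i + (q.2 i + 1) / 2 ^ q.1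

theorem dyc_eq (v : V) (q : Idx) : dyc v q.1 q.2 = Icc (cLo v q) (cHi v q) := by
  ext x
  simp only [dyc, mem_ofPred_eq, mem_Icc, Pi.le_def, cLo, cHi]
  exact forall_and

theorem cLo_lt_cHi (v : V) (q : Idx) (i : Fin 3) : cHi v q i = cLo v q i + 1 / 2 ^ q.1 := by
  simp only [cLo, cHi]; rw [add_div]; ring

/-- two dyadic edges of the same generation, one in the other -/
theorem edge_eq_of_sub {v : V} {N : ℕ} {w w' : Fin 3 → ℤ} {l l' : Fin 3}
    (h : edge v ((N, w'), l') ⊆ edge v ((N, w), l)) :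
    edge v ((N, w'), l') = edge v ((N, w), l) := by
  have hP : (0:ℝ) < 2 ^ N := by positivity
  have h0 : pt v N w' ∈ edge v ((N, w), l) := h (left_mem_segment ℝ _ _)
  have h1 : pt v N w' + (1 / 2 ^ N : ℝ) • ev l' ∈ edge v ((N, w), l) :=
    h (right_mem_segment ℝ _ _)
  rw [Gr.mem_edge] at h0 h1
  simp only at h0 h1
  have hll : l' = l := by
    by_contra hne
    have a1 := h0.1 l' hne
    have a2 := h1.1 l' hne
    simp only [Pi.add_apply, Pi.smul_apply, smul_eq_mul] at a2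
    rw [a1] at a2
    have : ev l' l' = 1 := by simp [ev]
    rw [this] at a2
    have hp : (0:ℝ) < 1 / 2 ^ N := by positivity
    linarith
  subst hll
  have hev : ev l' l' = 1 := by simp [ev]
  have hw : ∀ j, w' j = w j := by
    intro j
    by_cases hj : j = l'
    · subst hj
      have a1 := h0.2.1
      have a2 := h1.2.2
      simp only [pt, Pi.add_apply, Pi.smul_apply, smul_eq_mul, hev] at a1 a2
      have b1 : (w j : ℝ) / 2 ^ N ≤ w' j / 2 ^ N := by linarith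
      have b2 : ((w' j : ℝ) + 1) / 2 ^ N ≤ (w j + 1) / 2 ^ N := by
        rw [add_div]; linarith
      rw [div_le_div_iff_of_pos_right hP] at b1 b2
      have c1 : w j ≤ w' j := by exact_mod_cast b1
      have c2 : w' j + 1 ≤ w j + 1 := by exact_mod_cast b2
      omega
    · have a1 := h0.1 j hj
      simp only [pt] at a1
      have b1 : (w' j : ℝ) / 2 ^ N = w j / 2 ^ N := by linarith
      rw [div_left_inj' hP.ne'] at b1
      exact_mod_cast b1
  have : w' = w := funext hw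
  rw [this]

/-- a square inside a minimal square, with margins: the two cells -/
theorem two_cells {Ω : Set V} {v : V} {I : Set Idx} (hΩ : IsOpen Ω) (hI : Part Ω v I) {n₂ : ℕ}
    {z : Fin 3 → ℤ} {k : Fin 3}
    (hl : ∃ s', MinSq v I s' ∧ s'.2 = k ∧ pbox v ((n₂, z), k) (-(1 / 2 ^ n₂)) 0 ⊆ squ v s') :
    ∃ qp ∈ I, ∃ qm ∈ I, cLo v qp k = v k + z k / 2 ^ n₂ ∧ cHi v qm k = v k + z k / 2 ^ n₂ ∧
      (∀ i, i ≠ k → cLo v qp i < v i + z i / 2 ^ n₂ ∧ v i + (z i + 1) / 2 ^ n₂ < cHi v qp i) ∧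
      (∀ i, i ≠ k → cLo v qm i < v i + z i / 2 ^ n₂ ∧ v i + (z i + 1) / 2 ^ n₂ < cHi v qm i) ∧
      squ v ((n₂, z), k) ⊆ dyc v qp.1 qp.2 ∧ squ v ((n₂, z), k) ⊆ dyc v qm.1 qm.2 := by
  obtain ⟨s', hs', rfl, hsub⟩ := hl
  obtain ⟨qp, qm, htwo⟩ := P86.two_of_minSq hΩ hI hs'
  have hp2 : (0:ℝ) < 1 / 2 ^ n₂ := by positivity
  have hsp : squ v s' ⊆ dyc v qp.1 qp.2 := P86.squ_sub_hi.trans htwo.subp
  have hsm : squ v s' ⊆ dyc v qm.1 qm.2 := P86.squ_sub_lo.trans htwo.subm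
  have hss : squ v ((n₂, z), s'.2) ⊆ squ v s' := by
    refine subset_trans ?_ hsub
    rintro x ⟨hx1, hx2⟩
    have hx1 : x s'.2 = v s'.2 + z s'.2 / 2 ^ n₂ := hx1
    refine ⟨?_, fun i hi => ?_⟩
    · show |x s'.2 - (v s'.2 + z s'.2 / 2 ^ n₂)| ≤ 0
      rw [hx1, sub_self, abs_zero]
    · have := hx2 i hi
      simp only at this ⊢
      constructor <;> linarith
  -- the corners of the enlarged square
  have c0 : (fun i => if i = s'.2 then v i + z i / 2 ^ n₂ else v i + z i / 2 ^ n₂ - 1 / 2 ^ n₂ : V) ∈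
      squ v s' := by
    apply hsub
    refine ⟨?_, fun i hi => ?_⟩
    · show |(if s'.2 = s'.2 then v s'.2 + z s'.2 / 2 ^ n₂ else v s'.2 + z s'.2 / 2 ^ n₂ - 1 / 2 ^ n₂)
        - (v s'.2 + z s'.2 / 2 ^ n₂)| ≤ 0
      simp
    · have hi : i ≠ s'.2 := hi
      simp only [hi, if_false]
      rw [add_div]
      constructor <;> linarith
  have c1 : (fun i => if i = s'.2 then v i + z i / 2 ^ n₂ else
      v i + (z i + 1) / 2 ^ n₂ + 1 / 2 ^ n₂ : V) ∈ squ v s' := by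
    apply hsub
    refine ⟨?_, fun i hi => ?_⟩
    · show |(if s'.2 = s'.2 then v s'.2 + z s'.2 / 2 ^ n₂ else
        v s'.2 + (z s'.2 + 1) / 2 ^ n₂ + 1 / 2 ^ n₂) - (v s'.2 + z s'.2 / 2 ^ n₂)| ≤ 0
      simp
    · have hi : i ≠ s'.2 := hi
      simp only [hi, if_false]
      rw [add_div]
      constructor <;> linarith
  have hH : v s'.2 + (s'.1.2 s'.2 : ℝ) / 2 ^ s'.1.1 = v s'.2 + z s'.2 / 2 ^ n₂ := by
    have := c0.1
    simp only [if_true] at this
    exact this.symm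
  have hsc : P86.sc v s' s'.2 = v s'.2 + (s'.1.2 s'.2 : ℝ) / 2 ^ s'.1.1 := by simp [P86.sc]
  have hpos : (0:ℝ) < 1 / 2 ^ s'.1.1 := by positivity
  refine ⟨qp, htwo.memp, qm, htwo.memm, ?_, ?_, ?_, ?_, hss.trans hsp, hss.trans hsm⟩
  · have h1 := P86.abseq (P86.bd_pos hI hs' htwo.memp hsp).1
    rw [hsc] at h1
    rcases h1 with h1 | h1
    · show v s'.2 + (qp.2 s'.2 : ℝ) / 2 ^ qp.1 = _
      rw [← h1, hH]
    · exfalso
      have h2 := (P86.sub_ineq htwo.subp s'.2).2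
      rw [add_div (s'.1.2 s'.2 : ℝ)] at h2
      linarith
  · have h1 := P86.abseq (P86.bd_pos hI hs' htwo.memm hsm).1
    rw [hsc] at h1
    rcases h1 with h1 | h1
    · exfalso
      have h2 := (P86.sub_ineq htwo.subm s'.2).1
      rw [P86.lo_same] at h2
      push_cast at h2
      rw [sub_div] at h2
      linarith
    · show v s'.2 + ((qm.2 s'.2 : ℝ) + 1) / 2 ^ qm.1 = _
      rw [← h1, hH]
  · intro i hi
    have h1 := (hsp c0 i).1
    have h2 := (hsp c1 i).2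
    simp only [hi, if_false] at h1 h2
    show v i + (qp.2 i : ℝ) / 2 ^ qp.1 < _ ∧ _ < v i + ((qp.2 i : ℝ) + 1) / 2 ^ qp.1
    constructor <;> linarith
  · intro i hi
    have h1 := (hsm c0 i).1
    have h2 := (hsm c1 i).2
    simp only [hi, if_false] at h1 h2
    show v i + (qm.2 i : ℝ) / 2 ^ qm.1 < _ ∧ _ < v i + ((qm.2 i : ℝ) + 1) / 2 ^ qm.1
    constructor <;> linarith

section boxes

variable {v : V} {n₂ : ℕ} {z : Fin 3 → ℤ} {k : Fin 3} {δ : ℝ}

theorem llo_k : llo v n₂ z k δ k = v k + z k / 2 ^ n₂ - δ := by simp [llo]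
theorem lhi_k : lhi v n₂ z k δ k = v k + z k / 2 ^ n₂ + δ := by simp [lhi]
theorem llo_ne {i : Fin 3} (hi : i ≠ k) : llo v n₂ z k δ i = v i + z i / 2 ^ n₂ := by
  simp [llo, hi]
theorem lhi_ne {i : Fin 3} (hi : i ≠ k) : lhi v n₂ z k δ i = v i + (z i + 1) / 2 ^ n₂ := by
  simp [lhi, hi]

theorem fc_lens (hδ : 0 < δ) : GB932.fc k (v k + z k / 2 ^ n₂)
    (Function.update (llo v n₂ z k δ) k (v k + z k / 2 ^ n₂)) (lhi v n₂ z k δ) =
    squ v ((n₂, z), k) := by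
  ext x
  constructor
  · rintro ⟨hx, hxk⟩
    refine ⟨hxk, fun i hi => ?_⟩
    have hi : i ≠ k := hi
    have h1 := hx.1 i
    have h2 := hx.2 i
    rw [Function.update_of_ne hi, llo_ne hi] at h1
    rw [lhi_ne hi] at h2
    exact ⟨h1, h2⟩
  · rintro ⟨hxk, hx⟩
    have hxk : x k = v k + z k / 2 ^ n₂ := hxk
    refine ⟨⟨fun i => ?_, fun i => ?_⟩, hxk⟩
    · by_cases hi : i = k
      · subst hi; rw [Function.update_self, hxk]
      · rw [Function.update_of_ne hi, llo_ne hi]; exact (hx i hi).1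
    · by_cases hi : i = k
      · subst hi; rw [lhi_k, hxk]; linarith
      · rw [lhi_ne hi]; exact (hx i hi).2

theorem rm_lens (hδ : 0 < δ) : GB932.rm k (v k + z k / 2 ^ n₂)
    (Function.update (llo v n₂ z k δ) k (v k + z k / 2 ^ n₂)) (lhi v n₂ z k δ) =
    CxA.sqbd v ((n₂, z), k) := by
  ext x
  rw [CxA.mem_sqbd, ← fc_lens hδ]
  constructor
  · rintro ⟨h1, h2, i, hi, h3⟩
    rw [Function.update_of_ne hi, llo_ne hi, lhi_ne hi] at h3
    exact ⟨⟨h1, h2⟩, i, hi, h3⟩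
  · rintro ⟨⟨h1, h2⟩, i, hi, h3⟩
    have hi : i ≠ k := hi
    refine ⟨h1, h2, i, hi, ?_⟩
    rw [Function.update_of_ne hi, llo_ne hi, lhi_ne hi]
    exact h3

theorem mem_squ_of_interior {x : V} (hx : x ∈ interior (Icc (llo v n₂ z k δ) (lhi v n₂ z k δ)))
    (hxk : x k = v k + z k / 2 ^ n₂) : x ∈ squ v ((n₂, z), k) := by
  have hx := interior_subset hx
  refine ⟨hxk, fun i hi => ?_⟩
  have hi : i ≠ k := hi
  have h1 := hx.1 i
  have h2 := hx.2 i
  rw [llo_ne hi] at h1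
  rw [lhi_ne hi] at h2
  exact ⟨h1, h2⟩

end boxes

/-- the arcs in the boundary of the coarse square -/
theorem exists_fine_edge {v : V} {n₂ k₁ k₀ : ℕ} {z : Fin 3 → ℤ} {k : Fin 3} {x : V}
    (hx : x ∈ CxA.sqbd v ((n₂, z), k)) :
    ∃ (w : Fin 3 → ℤ) (e : Idx × Fin 3), w k = z k * 2 ^ (k₁ + k₀) ∧
      squ v ((gN n₂ k₁ k₀, w), k) ⊆ squ v ((n₂, z), k) ∧
      x ∈ squ v ((gN n₂ k₁ k₀, w), k) ∧ EdgeOfSq e ((gN n₂ k₁ k₀, w), k) ∧ x ∈ edge v e ∧
      edge v e ⊆ CxA.sqbd v ((n₂, z), k) := by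
  obtain ⟨hxs, i, hi, hxi⟩ := CxA.mem_sqbd.1 hx
  have hi : i ≠ k := hi
  obtain ⟨w, hwk, hw, hxw⟩ := exists_fine (k₁ := k₁) (k₀ := k₀) hxs
  have hsub := fine_sub (n₂ := n₂) hwk hw (v := v)
  have hP : (0:ℝ) < 2 ^ (gN n₂ k₁ k₀) := by positivity
  obtain ⟨l, hl1, hl2⟩ := CxA.exists_third i k
  have h3 : ∀ j, j ≠ l → j = i ∨ j = k := fun j hj => CxA.third i k l j hi hl1 hl2 hj
  obtain ⟨hxk, hxj⟩ := hxw
  have hxk : x k = v k + w k / 2 ^ (gN n₂ k₁ k₀) := hxk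
  have e1 := div_fine n₂ k₁ k₀ (z i)
  have e2 := div_fine n₂ k₁ k₀ (z i + 1)
  push_cast at e2
  obtain ⟨w1, w2⟩ := hw i hi
  have w1' : ((z i * 2 ^ (k₁ + k₀) : ℤ) : ℝ) ≤ w i := by exact_mod_cast w1
  have w2' : ((w i : ℝ) + 1) ≤ ((z i : ℝ) + 1) * 2 ^ (k₁ + k₀) := by exact_mod_cast w2
  have g1 := hxj i hi
  simp only at g1
  simp only at hxi
  rcases hxi with hxi | hxi
  · -- lower side
    have hwi : (w i : ℝ) / 2 ^ (gN n₂ k₁ k₀) = z i / 2 ^ n₂ := by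
      have := div_le_div_of_nonneg_right w1' hP.le
      rw [e1] at this
      linarith [g1.1]
    have he : EdgeOfSq ((gN n₂ k₁ k₀, w), l) ((gN n₂ k₁ k₀, w), k) :=
      ⟨rfl, hl2, rfl, rfl, fun j _ _ => Or.inl rfl⟩
    have hes := CxA.edgeOfSq_subset he (v := v)
    refine ⟨w, ((gN n₂ k₁ k₀, w), l), hwk, hsub, ⟨hxk, hxj⟩, he, ?_, ?_⟩
    · rw [Gr.mem_edge]
      refine ⟨fun j hj => ?_, ?_⟩
      · rcases h3 j hj with rfl | rfl
        · show x j = v j + w j / 2 ^ (gN n₂ k₁ k₀)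
          rw [hwi, hxi]
        · exact hxk
      · exact hxj l hl2
    · intro y hy
      refine CxA.mem_sqbd.2 ⟨hsub (hes hy), i, hi, Or.inl ?_⟩
      have := (Gr.mem_edge.1 hy).1 i (Ne.symm hl1)
      simp only at this ⊢
      rw [this, hwi]
  · -- upper side
    have hwi : ((w i : ℝ) + 1) / 2 ^ (gN n₂ k₁ k₀) = (z i + 1) / 2 ^ n₂ := by
      have := div_le_div_of_nonneg_right w2' hP.le
      rw [e2] at this
      linarith [g1.2]
    have he : EdgeOfSq ((gN n₂ k₁ k₀, Function.update w i (w i + 1)), l)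
        ((gN n₂ k₁ k₀, w), k) := by
      refine ⟨rfl, hl2, ?_, ?_, fun j _ _ => ?_⟩
      · exact Function.update_of_ne hl1 _ _
      · exact Function.update_of_ne (Ne.symm hi) _ _
      · by_cases hj : j = i
        · subst hj; right; exact Function.update_self _ _ _
        · left; exact Function.update_of_ne hj _ _
    have hes := CxA.edgeOfSq_subset he (v := v)
    refine ⟨w, ((gN n₂ k₁ k₀, Function.update w i (w i + 1)), l), hwk, hsub, ⟨hxk, hxj⟩, he, ?_, ?_⟩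
    · rw [Gr.mem_edge]
      refine ⟨fun j hj => ?_, ?_⟩
      · rcases h3 j hj with rfl | rfl
        · simp only [Function.update_self]; push_cast; rw [hwi, hxi]
        · simp only [Function.update_of_ne (Ne.symm hi)]; exact hxk
      · simp only [Function.update_of_ne hl1]
        exact hxj l hl2
    · intro y hy
      refine CxA.mem_sqbd.2 ⟨hsub (hes hy), i, hi, Or.inr ?_⟩
      have := (Gr.mem_edge.1 hy).1 i (Ne.symm hl1)
      simp only [Function.update_self] at this ⊢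
      push_cast at this
      rw [this, hwi]

end Lens932

open Lens932

/-- **(LENS)** two thin box cells over the plate are split off. -/
theorem specLens : SpecLens := by
  intro Ω v I T D n₂ k₁ k₀ z k hΩ hI hT hl hfine Z hZ hZS
  obtain ⟨qp, hqp, qm, hqm, hpk, hmk, hpi, hmi, hsp, hsm⟩ := two_cells hΩ hI hl
  set H : ℝ := v k + z k / 2 ^ n₂ with hH
  have hht : ht v (gN n₂ k₁ k₀) k (z k * 2 ^ (k₁ + k₀)) = H := ht_eq v n₂ k₁ k₀ z k
  have hp2 : (0:ℝ) < 1 / 2 ^ n₂ := by positivity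
  have hpp : (0:ℝ) < 1 / 2 ^ qp.1 := by positivity
  have hpm : (0:ℝ) < 1 / 2 ^ qm.1 := by positivity
  have hpk' := cLo_lt_cHi v qp k
  have hmk' := cLo_lt_cHi v qm k
  -- the thickness
  have hScpt : IsCompact (squ v ((n₂, z), k)) := by
    have := (P86.isCompact_dyc v qp.1 qp.2).inter_right
      (t := squ v ((n₂, z), k)) (by
        have : squ v ((n₂, z), k) = GB932.fc k H
            (Function.update (llo v n₂ z k 1) k H) (lhi v n₂ z k 1) := (fc_lens one_pos).symm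
        rw [this]
        exact isClosed_Icc.inter (isClosed_singleton.preimage (continuous_apply k)))
    rwa [inter_eq_right.2 hsp] at this
  have hSΩ : squ v ((n₂, z), k) ⊆ Ω := hsp.trans (hI.sub qp hqp)
  obtain ⟨ε, hε, hεZ⟩ : ∃ ε > 0, Disjoint (thickening ε (squ v ((n₂, z), k))) (closure Z) := by
    obtain ⟨ε, hε, h⟩ := hScpt.exists_thickening_subset_open isClosed_closure.isOpen_compl
      (fun x hx hxZ => disjoint_left.1 hZS (hZ.closed x (hSΩ hx) hxZ) hx)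
    exact ⟨ε, hε, disjoint_left.2 fun x hx hx' => h hx hx'⟩
  obtain ⟨δ, hδ, hδε, hδp, hδm⟩ : ∃ δ : ℝ, 0 < δ ∧ δ < ε ∧ δ < 1 / 2 ^ qp.1 ∧ δ < 1 / 2 ^ qm.1 := by
    refine ⟨min ε (min (1 / 2 ^ qp.1) (1 / 2 ^ qm.1)) / 2, ?_, ?_, ?_, ?_⟩
    · have : 0 < min ε (min ((1:ℝ) / 2 ^ qp.1) (1 / 2 ^ qm.1)) := by positivity
      linarith
    · have h1 : min ε (min ((1:ℝ) / 2 ^ qp.1) (1 / 2 ^ qm.1)) ≤ ε := min_le_left _ _
      linarith
    · have h1 : min ε (min ((1:ℝ) / 2 ^ qp.1) (1 / 2 ^ qm.1)) ≤ 1 / 2 ^ qp.1 :=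
        (min_le_right _ _).trans (min_le_left _ _)
      linarith
    · have h1 : min ε (min ((1:ℝ) / 2 ^ qp.1) (1 / 2 ^ qm.1)) ≤ 1 / 2 ^ qm.1 :=
        (min_le_right _ _).trans (min_le_right _ _)
      linarith
  set q0 : V := llo v n₂ z k δ with hq0
  set q1 : V := lhi v n₂ z k δ with hq1
  have h0 : q0 k < H := by rw [hq0, llo_k]; linarith
  have h1 : H < q1 k := by rw [hq1, lhi_k]; linarith
  have hZd : Disjoint Z (Icc q0 q1) := by
    rw [disjoint_left]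
    intro x hxZ hx
    refine disjoint_left.1 hεZ ?_ (subset_closure hxZ)
    rw [mem_thickening_iff]
    refine ⟨Function.update x k H, ?_, ?_⟩
    · refine ⟨?_, fun i hi => ?_⟩
      · show Function.update x k H k = v k + z k / 2 ^ n₂
        rw [Function.update_self]
      · have hi : i ≠ k := hi
        have g1 := hx.1 i
        have g2 := hx.2 i
        rw [hq0, llo_ne hi] at g1
        rw [hq1, lhi_ne hi] at g2
        rw [Function.update_of_ne hi]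
        exact ⟨g1, g2⟩
    · have g1 := hx.1 k
      have g2 := hx.2 k
      rw [hq0, llo_k] at g1
      rw [hq1, lhi_k] at g2
      refine lt_of_le_of_lt ?_ hδε
      rw [dist_pi_le_iff hδ.le]
      intro i
      by_cases hi : i = k
      · subst hi
        rw [Function.update_self, Real.dist_eq, abs_le]
        constructor <;> linarith
      · rw [Function.update_of_ne hi, dist_self]; exact hδ.le
  -- the cells
  have hcu : D.K.cell ⟨qp, hqp⟩ = Icc (cLo v qp) (cHi v qp) := by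
    rw [D.cell]; exact dyc_eq v qp
  have hcd : D.K.cell ⟨qm, hqm⟩ = Icc (cLo v qm) (cHi v qm) := by
    rw [D.cell]; exact dyc_eq v qm
  have hne : (⟨qp, hqp⟩ : I) ≠ ⟨qm, hqm⟩ := by
    intro h
    have h' : qp = qm := congrArg Subtype.val h
    rw [h'] at hpk
    linarith
  have hq01 : ∀ i, i ≠ k → q0 i < q1 i := by
    intro i hi
    rw [hq0, hq1, llo_ne hi, lhi_ne hi, add_div]
    linarith
  have Au : GB932.Att k H (cLo v qp) (cHi v qp) (Function.update q0 k H) q1 := by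
    refine ⟨fun i => ?_, fun i hi => ?_, Or.inl ⟨?_, hpk.symm, ?_⟩⟩
    · by_cases hi : i = k
      · subst hi; rw [Function.update_self]; exact h1
      · rw [Function.update_of_ne hi]; exact hq01 i hi
    · rw [Function.update_of_ne hi, hq0, hq1, llo_ne hi, lhi_ne hi]; exact hpi i hi
    · rw [Function.update_self]
    · rw [hq1, lhi_k, hpk', hpk]; linarith
  have Ad : GB932.Att k H (cLo v qm) (cHi v qm) q0 (Function.update q1 k H) := by
    refine ⟨fun i => ?_, fun i hi => ?_, Or.inr ⟨?_, hmk.symm, ?_⟩⟩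
    · by_cases hi : i = k
      · subst hi; rw [Function.update_self]; exact h0
      · rw [Function.update_of_ne hi]; exact hq01 i hi
    · rw [Function.update_of_ne hi, hq0, hq1, llo_ne hi, lhi_ne hi]; exact hmi i hi
    · rw [Function.update_self]
    · rw [hq0, llo_k]; linarith
  -- the tiles
  let T0 : Set D.J := {j | ∃ w : Fin 3 → ℤ, D.ψ j = ((gN n₂ k₁ k₀, w), k) ∧
    w k = z k * 2 ^ (k₁ + k₀) ∧ squ v ((gN n₂ k₁ k₀, w), k) ⊆ squ v ((n₂, z), k)}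
  have hmemT : ∀ w : Fin 3 → ℤ, (squ v ((gN n₂ k₁ k₀, w), k) ∩ squ v ((n₂, z), k)).Nonempty →
      ∃ j, D.ψ j = ((gN n₂ k₁ k₀, w), k) := by
    intro w hw
    have := hfine ((gN n₂ k₁ k₀, w), k) rfl rfl hw
    rw [← D.rangeψ] at this
    exact this
  have hTu : ∀ j ∈ T0, D.qC j ⟨qp, hqp⟩ := by
    rintro j ⟨w, hj, -, hsub⟩
    rw [D.qC_iff, hj]
    exact hsub.trans hsp
  have hTd : ∀ j ∈ T0, D.qC j ⟨qm, hqm⟩ := by
    rintro j ⟨w, hj, -, hsub⟩
    rw [D.qC_iff, hj]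
    exact hsub.trans hsm
  have hTS : (⋃ j ∈ T0, D.K.tile j) = GB932.fc k H (Function.update q0 k H) q1 := by
    rw [fc_lens hδ]
    apply Subset.antisymm
    · refine iUnion₂_subset ?_
      rintro j ⟨w, hj, -, hsub⟩
      rw [D.tile, hj]; exact hsub
    · intro x hx
      obtain ⟨w, hwk, hw, hxw⟩ := exists_fine (k₁ := k₁) (k₀ := k₀) hx
      obtain ⟨j, hj⟩ := hmemT w ⟨x, hxw, hx⟩
      refine mem_iUnion₂.2 ⟨j, ⟨w, hj, hwk, fine_sub (n₂ := n₂) hwk hw⟩, ?_⟩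
      rw [D.tile, hj]; exact hxw
  let S0 : Set D.B := {b | (∃ j ∈ T0, D.inc b j) ∧ D.K.arc b ⊆ CxA.sqbd v ((n₂, z), k)}
  have hS : S0.Finite := by
    have hTf : T0.Finite := (D.K.fin_qC ⟨qp, hqp⟩).subset fun j hj => hTu j hj
    refine (hTf.biUnion fun j _ => D.K.fin_inc j).subset ?_
    rintro b ⟨⟨j, hj, hb⟩, -⟩
    exact mem_biUnion hj hb
  have hS0 : (⋃ b ∈ S0, D.K.arc b) = GB932.rm k H (Function.update q0 k H) q1 := by
    rw [rm_lens hδ]
    apply Subset.antisymm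
    · exact iUnion₂_subset fun b hb => hb.2
    · intro x hx
      obtain ⟨w, e, hwk, hsub, hxw, he, hxe, hes⟩ :=
        exists_fine_edge (k₁ := k₁) (k₀ := k₀) hx
      obtain ⟨j, hj⟩ := hmemT w ⟨x, hxw, CxA.sqbd_subset hx⟩
      have hjT : ((gN n₂ k₁ k₀, w), k) ∈ T := by rw [← D.rangeψ]; exact ⟨j, hj⟩
      obtain ⟨S, hS'⟩ := D.edges e ⟨_, hjT, he⟩
      have hxe' := hxe
      rw [hS'] at hxe'
      obtain ⟨b, hb, hxb⟩ := mem_iUnion₂.1 hxe'
      have hbe : edge v (D.φ b) ⊆ edge v e := by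
        rw [hS']; exact subset_biUnion_of_mem (u := fun b => edge v (D.φ b)) hb
      refine mem_iUnion₂.2 ⟨b, ⟨⟨j, ⟨w, hj, hwk, hsub⟩, ?_⟩, ?_⟩, ?_⟩
      · rw [D.inc_iff, hj]
        exact hbe.trans (CxA.edgeOfSq_subset he)
      · rw [D.arc]; exact hbe.trans hes
      · rw [D.arc]; exact hxb
  obtain ⟨J', I', inc', qC', K', ι, cu', cd', f1, f2, f3, f4, f5, f6, f7, f8, f9, -, f11⟩ :=
    GB932.exists_lens D.K hne hcu hcd Au Ad h0 h1 hTu hTd hTS hS hS0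
  have farc : ∀ b, K'.arc b = edge v (D.φ b) := by
    intro b
    rw [← D.arc]
    exact congrArg (fun G : Graph D.e0 D.e1 V => G.arc b) f1
  -- arcs inside
  have harc : ∀ b, (K'.arc b ∩ interior (Icc q0 q1)).Nonempty →
      (D.φ b).1.1 = gN n₂ k₁ k₀ ∧ (D.φ b).2 ≠ k ∧ (D.φ b).1.2 k = z k * 2 ^ (k₁ + k₀) := by
    rintro b ⟨x, hxb, hx⟩
    obtain ⟨s1, hs1, hes⟩ := D.edgeOf b
    rw [← D.rangeψ] at hs1
    obtain ⟨j1, rfl⟩ := hs1
    rw [farc] at hxb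
    obtain ⟨j, hj, hjj⟩ := f9 (ι j1) ⟨x, by
      rw [f2, D.tile]; exact CxA.edgeOfSq_subset hes hxb, hx⟩
    obtain ⟨w, hw, hwk, -⟩ := hj
    rw [← f3 hjj] at hw
    rw [hw] at hes
    obtain ⟨g1, g2, g3, g4, -⟩ := hes
    exact ⟨g1, g2, g4.trans hwk⟩
  refine ⟨J', I', inc', qC', K', δ, cu', cd', hδ, f1, ?_, f11 Z hZ hZd, ?_, ?_⟩
  · constructor
    · intro i
      by_cases hi : i = k
      · subst hi; exact h0.trans h1
      · exact hq01 i hi
    · rw [hht, llo_k, lhi_k]; ring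
    · rw [GB932.Icc_cut h0.le h1.le, ← f6, ← f7]
      exact union_subset (GB932.cell_subset K' cu') (GB932.cell_subset K' cd')
    · intro b hb
      obtain ⟨g1, g2, g3⟩ := harc b hb
      refine ⟨(D.φ b).1.2, (D.φ b).2, g2, g3, ?_⟩
      rw [farc, ← g1]
    · rintro w l hlk hwk ⟨x, hxe, hx⟩
      have he : EdgeOfSq ((gN n₂ k₁ k₀, w), l) ((gN n₂ k₁ k₀, w), k) :=
        ⟨rfl, hlk, rfl, rfl, fun j _ _ => Or.inl rfl⟩
      have hxs : x ∈ squ v ((gN n₂ k₁ k₀, w), k) := CxA.edgeOfSq_subset he hxe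
      have hxk : x k = H := by
        have : x k = v k + (w k : ℝ) / 2 ^ (gN n₂ k₁ k₀) := hxs.1
        rw [this, hwk, div_fine]
      obtain ⟨j, hj⟩ := hmemT w ⟨x, hxs, mem_squ_of_interior hx hxk⟩
      have hjT : ((gN n₂ k₁ k₀, w), k) ∈ T := by rw [← D.rangeψ]; exact ⟨j, hj⟩
      obtain ⟨S, hS'⟩ := D.edges _ ⟨_, hjT, he⟩
      have hxe' := hxe
      rw [hS'] at hxe'
      obtain ⟨b, hb, hxb⟩ := mem_iUnion₂.1 hxe'
      have hbe : edge v (D.φ b) ⊆ edge v ((gN n₂ k₁ k₀, w), l) := by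
        rw [hS']; exact subset_biUnion_of_mem (u := fun b => edge v (D.φ b)) hb
      obtain ⟨g1, g2, g3⟩ := harc b ⟨x, by rw [farc]; exact hxb, hx⟩
      refine ⟨b, ?_⟩
      rw [farc]
      have hφ : D.φ b = ((gN n₂ k₁ k₀, (D.φ b).1.2), (D.φ b).2) := by
        rw [← g1]
      rw [hφ] at hbe ⊢
      exact edge_eq_of_sub hbe
    · intro j' hj'
      obtain ⟨j, ⟨w, hj, hwk, -⟩, rfl⟩ := f9 j' hj'
      exact ⟨w, hwk, by rw [f2, D.tile, hj]⟩
    · rintro w hwk ⟨x, hxs, hx⟩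
      have hxk : x k = H := by
        have : x k = v k + (w k : ℝ) / 2 ^ (gN n₂ k₁ k₀) := hxs.1
        rw [this, hwk, div_fine]
      obtain ⟨j, hj⟩ := hmemT w ⟨x, hxs, mem_squ_of_interior hx hxk⟩
      exact ⟨ι j, by rw [f2, D.tile, hj]⟩
    · exact f5
    · exact f8
    · rw [hht]; exact f6
    · rw [hht]; exact f7
  · rw [f6]
    refine hZd.mono_right ?_
    rw [GB932.Icc_cut h0.le h1.le]; exact subset_union_left
  · rw [f7]
    refine hZd.mono_right ?_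
    rw [GB932.Icc_cut h0.le h1.le]; exact subset_union_right

end P073.PL
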