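import Vale.Agent.P073.PL.Core937
import Vale.Agent.P073.GBM.CellMain

/-!
# P073, block PLATE: the composition
-/

open Set Metric Topology Filter MeasureTheory
open scoped ENNReal NNReal

namespace P073.PL

open P073 P073.PR720 P073.GB73 P073.GBM P073.Gauge P073.GB1W P073.Cell P073.Plate
open Vale.Agent.P073.St (V)
open Vale.Agent.P073.AB
open Vale.Agent.P073.SQ (ev)
open P073.Net (dyc dyo)

section aux

variable {v : V} {n₂ k₁ k₀ : ℕ} {z : Fin 3 → ℤ} {k : Fin 3}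

theorem ht_plate : ht v (gN n₂ k₁ k₀) k (z k * 2 ^ (k₁ + k₀)) = v k + (z k : ℝ) / 2 ^ n₂ := by
  unfold ht
  push_cast
  rw [mul_div_assoc, div_eq_mul_one_div ((2:ℝ) ^ (k₁ + k₀)), ← Dd n₂ k₁ k₀]
  ring

/-- points of the thin box at the height of the plate are in `prel` -/
theorem prel_of_box {d : ℝ} {x : V}
    (hx : x ∈ Icc (plo v n₂ k₁ k₀ z k d) (phi v n₂ k₁ k₀ z k d))
    (hxk : x k = ht v (gN n₂ k₁ k₀) k (z k * 2 ^ (k₁ + k₀))) :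
    x ∈ prel v ((n₂, z), k) (1 / 2 ^ (n₂ + k₁)) := by
  have hd : (0:ℝ) < 1 / 2 ^ (gN n₂ k₁ k₀) := by positivity
  refine ⟨by simp only; rw [hxk, ht_plate], fun i hi => ?_⟩
  simp only at hi ⊢
  have h1 := hx.1 i
  have h2 := hx.2 i
  have hbi : plo v n₂ k₁ k₀ z k d i = Cell.lo v n₂ k₁ k₀ z i := by
    unfold plo rlo; rw [Function.update_of_ne hi]; rfl
  have hbi' : phi v n₂ k₁ k₀ z k d i = Cell.hi v n₂ k₁ k₀ z i := by
    unfold phi rhi; rw [Function.update_of_ne hi]; rfl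
  rw [hbi, lo_apply] at h1
  rw [hbi', hi_apply] at h2
  have h5 : v i + (z i : ℝ) / 2 ^ n₂ = qlo v n₂ z i := rfl
  have h6 : v i + ((z i : ℝ) + 1) / 2 ^ n₂ = qhi v n₂ z i := rfl
  rw [h5, h6, gd n₂ k₁ k₀, qlo_eq n₂ k₁ k₀, qhi_eq n₂ k₁ k₀]
  constructor <;> linarith

/-- the thin box is in the interior of the lens -/
theorem box_sub_int {d δ : ℝ} (hk₁ : 3 ≤ k₁) (hk₀ : 3 ≤ k₀) (hdδ : d < δ) :
    Icc (plo v n₂ k₁ k₀ z k d) (phi v n₂ k₁ k₀ z k d) ⊆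
      interior (Icc (llo v n₂ z k δ) (lhi v n₂ z k δ)) := by
  have hd : (0:ℝ) < 1 / 2 ^ (gN n₂ k₁ k₀) := by positivity
  intro x hx
  rw [interior_Icc_pi']
  intro i
  have h1 := hx.1 i
  have h2 := hx.2 i
  by_cases hi : i = k
  · subst hi
    unfold plo rlo at h1
    unfold phi rhi at h2
    rw [Function.update_self, ht_plate] at h1 h2
    unfold llo lhi
    rw [if_pos rfl, if_pos rfl]
    constructor <;> linarith
  · unfold plo rlo at h1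
    unfold phi rhi at h2
    rw [Function.update_of_ne hi] at h1 h2
    have hR := RR_ge hk₁ hk₀
    have hαβ : (al k₁ k₀ z i : ℝ) < be k₁ k₀ z i := by
      have : al k₁ k₀ z i < be k₁ k₀ z i := by rw [be_eq]; linarith
      exact_mod_cast this
    have h5 := (near_box (n₂ := n₂) (v := v) hk₀ (w := al k₁ k₀ z i + 1 / 2)
      (k := i) (z := z) (k₁ := k₁) (by linarith) (by linarith)).1
    have h6 := (near_box (n₂ := n₂) (v := v) hk₀ (w := be k₁ k₀ z i + 1 / 2)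
      (k := i) (z := z) (k₁ := k₁) (by linarith) (by linarith)).2
    have e8 : (8:ℝ) / 2 ^ (gN n₂ k₁ k₀) = 8 * (1 / 2 ^ (gN n₂ k₁ k₀)) := by ring
    rw [e8] at h5 h6
    unfold GBM.hp at h1 h2
    have hl : llo v n₂ z k δ i = qlo v n₂ z i := by
      unfold llo qlo; rw [if_neg hi]
    have hh : lhi v n₂ z k δ i = qhi v n₂ z i := by
      unfold lhi qhi; rw [if_neg hi]
    rw [hl, hh]
    constructor <;> linarith

/-- the crossed edges are in `prel`, up to one end point -/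
theorem crossed_end2 {a : Fin 3 → ℤ} {l : Fin 3} (hk₁ : 3 ≤ k₁) (hk₀ : 3 ≤ k₀)
    (hc : Cross2 k (z k * 2 ^ (k₁ + k₀)) (al k₁ k₀ z) (be k₁ k₀ z) a l)
    {x : V} (hx : x ∈ edge v ((gN n₂ k₁ k₀, a), l))
    (hxB : x ∉ prel v ((n₂, z), k) (1 / 2 ^ (n₂ + k₁))) :
    x = pt v (gN n₂ k₁ k₀) a ∨
      x = pt v (gN n₂ k₁ k₀) a + (1 / 2 ^ (gN n₂ k₁ k₀) : ℝ) • ev l := by
  have hd : (0:ℝ) < 1 / 2 ^ (gN n₂ k₁ k₀) := by positivity
  have h8 := pow_k0R hk₀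
  have h64 := pow_k1R (k₀ := k₀) hk₁
  rw [GBM.mem_edge] at hx
  obtain ⟨h1, h2, h3⟩ := hx
  obtain ⟨hlk, hak, hal, haj⟩ := hc
  have hpt : ∀ j, pt v (gN n₂ k₁ k₀) a j = v j + a j * (1 / 2 ^ (gN n₂ k₁ k₀)) := by
    intro j; unfold pt; ring
  have hxk : x k = v k + (z k : ℝ) / 2 ^ n₂ := by
    rw [h1 k (Ne.symm hlk), ← ht_plate (k₁ := k₁) (k₀ := k₀)]
    unfold pt ht
    rw [hak]
  have hq : ∀ i, v i + (z i : ℝ) / 2 ^ n₂ = qlo v n₂ z i := fun _ => rfl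
  have hq' : ∀ i, v i + ((z i : ℝ) + 1) / 2 ^ n₂ = qhi v n₂ z i := fun _ => rfl
  -- the other coordinate is inside
  have hj : ∀ j, j ≠ l → j ≠ k → qlo v n₂ z j + 1 / 2 ^ (n₂ + k₁) < x j ∧
      x j < qhi v n₂ z j - 1 / 2 ^ (n₂ + k₁) := by
    intro j hjl hjk
    have h4 := haj j hjl hjk
    have h5 : (z j : ℝ) * 2 ^ (k₁ + k₀) + 2 ^ k₀ < a j := by
      have : al k₁ k₀ z j < a j := h4.1
      unfold al at this
      exact_mod_cast this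
    have h6 : (a j : ℝ) ≤ (z j + 1) * 2 ^ (k₁ + k₀) - 2 ^ k₀ - 1 := by
      have : a j ≤ be k₁ k₀ z j := h4.2
      unfold be at this
      exact_mod_cast this
    rw [h1 j hjl, hpt, qlo_eq n₂ k₁ k₀, qhi_eq n₂ k₁ k₀, gd n₂ k₁ k₀]
    have h7 := mul_lt_mul_of_pos_right h5 hd
    have h9 : (a j : ℝ) * (1 / 2 ^ (gN n₂ k₁ k₀)) <
        ((z j + 1) * 2 ^ (k₁ + k₀) - 2 ^ k₀) * (1 / 2 ^ (gN n₂ k₁ k₀)) :=
      mul_lt_mul_of_pos_right (by linarith) hd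
    constructor <;> linarith
  have hk : ¬ (qlo v n₂ z l + 1 / 2 ^ (n₂ + k₁) < x l ∧ x l < qhi v n₂ z l - 1 / 2 ^ (n₂ + k₁)) := by
    intro hk
    apply hxB
    refine ⟨hxk, fun j hjk => ?_⟩
    simp only at hjk ⊢
    rw [hq, hq']
    by_cases hjl : j = l
    · rw [hjl]; exact hk
    · exact hj j hjl hjk
  rw [qlo_eq n₂ k₁ k₀, qhi_eq n₂ k₁ k₀, gd n₂ k₁ k₀] at hk
  rw [hpt] at h2 h3
  rcases hal with h4 | h4
  · left
    have h5 : (a l : ℝ) = z l * 2 ^ (k₁ + k₀) + 2 ^ k₀ := by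
      rw [h4]; unfold al; push_cast; ring
    have h6 : x l = pt v (gN n₂ k₁ k₀) a l := by
      rw [hpt]
      by_contra hne
      apply hk
      rw [h5] at h2 h3 hne
      have h7 : (0:ℝ) < (2 ^ (k₁ + k₀) - 2 * 2 ^ k₀ - 1) * (1 / 2 ^ (gN n₂ k₁ k₀)) :=
        mul_pos (by linarith) hd
      constructor
      · rcases h2.lt_or_eq with h9 | h9
        · linarith
        · exact absurd h9.symm hne
      · linarith
    funext j
    by_cases hjk : j = l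
    · rw [hjk]; exact h6
    · exact h1 j hjk
  · right
    have h5 : (a l : ℝ) = (z l + 1) * 2 ^ (k₁ + k₀) - 2 ^ k₀ - 1 := by
      rw [h4]; unfold be; push_cast; ring
    have h6 : x l = pt v (gN n₂ k₁ k₀) a l + 1 / 2 ^ (gN n₂ k₁ k₀) := by
      rw [hpt]
      by_contra hne
      apply hk
      rw [h5] at h2 h3 hne
      have h7 : (0:ℝ) < (2 ^ (k₁ + k₀) - 2 * 2 ^ k₀ - 1) * (1 / 2 ^ (gN n₂ k₁ k₀)) :=
        mul_pos (by linarith) hd
      constructor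
      · linarith
      · rcases h3.lt_or_eq with h9 | h9
        · linarith
        · exact absurd h9 hne
    funext j
    by_cases hjk : j = l
    · subst hjk
      rw [h6, Pi.add_apply, Pi.smul_apply, ev_same, smul_eq_mul, mul_one]
    · rw [h1 j hjk, Pi.add_apply, Pi.smul_apply, ev_of_ne hjk, smul_zero, add_zero]

end aux

/-- the choice of `κ` -/
theorem exists_kappa2 {θ p R : ℝ} (hθ : 0 < θ) (hR : 1 ≤ R) :
    ∃ l > 0, ∃ κ > 0, κ ≤ 1 ∧ κ ≤ l ^ p ∧ ∀ N : ℕ,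
      θ⁻¹ * κ / 2 ^ N ≤ 1 / 8 / 2 ^ N ∧
      150 * ((2 * (θ⁻¹ * κ / 2 ^ N) + θ⁻¹ * (2 * l) / 2 ^ N) / (3 / 4 / 2 ^ N)) < 1 / 18 ∧
      6 * (R + 1) ^ 2 * ((2 * (θ⁻¹ * κ / 2 ^ N) + θ⁻¹ * (2 * l) / 2 ^ N) / (3 / 4 / 2 ^ N)) <
        1 / (2 * R) := by
  set X : ℝ := 100000 * (R + 1) ^ 3 with hX
  have hR3 : 8 ≤ (R + 1) ^ 3 := by nlinarith [sq_nonneg (R - 1), sq_nonneg R]
  have hX0 : 0 < X := by positivity
  have hX1 : 800000 ≤ X := by linarith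
  set l : ℝ := θ / X with hl
  have hl0 : 0 < l := by positivity
  have hθl : θ⁻¹ * l = 1 / X := by rw [hl]; field_simp
  refine ⟨l, hl0, min 1 (min l (l ^ p)), by positivity, min_le_left _ _,
    (min_le_right _ _).trans (min_le_right _ _), fun N => ?_⟩
  set κ : ℝ := min 1 (min l (l ^ p)) with hκ
  have hκl : κ ≤ l := (min_le_right _ _).trans (min_le_left _ _)
  have hθi : 0 < θ⁻¹ := inv_pos.2 hθ
  have h1 : θ⁻¹ * κ ≤ 1 / X := hθl ▸ mul_le_mul_of_nonneg_left hκl hθi.le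
  have h2 : 1 / X ≤ 1 / 800000 := one_div_le_one_div_of_le (by norm_num) hX1
  have hN : (0:ℝ) < 2 ^ N := by positivity
  have h3 : (2 * (θ⁻¹ * κ / 2 ^ N) + θ⁻¹ * (2 * l) / 2 ^ N) / (3 / 4 / 2 ^ N) ≤
      4 * (1 / X) / (3 / 4) := by
    have h4 : (2 * (θ⁻¹ * κ / 2 ^ N) + θ⁻¹ * (2 * l) / 2 ^ N) / (3 / 4 / 2 ^ N) =
        (2 * (θ⁻¹ * κ) + 2 * (θ⁻¹ * l)) / (3 / 4) := by
      field_simp
    rw [h4, hθl]
    exact div_le_div_of_nonneg_right (by linarith) (by norm_num)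
  refine ⟨?_, ?_, ?_⟩
  · exact div_le_div_of_nonneg_right (by linarith) hN.le
  · have h5 : 4 * (1 / X) / (3 / 4) ≤ 4 * (1 / 800000) / (3 / 4) :=
      div_le_div_of_nonneg_right (by linarith) (by norm_num)
    have h6 : (150:ℝ) * (4 * (1 / 800000) / (3 / 4)) < 1 / 18 := by norm_num
    linarith
  · have hR0 : 0 < R := by linarith
    have h7 : 6 * (R + 1) ^ 2 * (4 * (1 / X) / (3 / 4)) < 1 / (2 * R) := by
      have h8 : 6 * (R + 1) ^ 2 * (4 * (1 / X) / (3 / 4)) = 32 / 100000 / (R + 1) := by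
        rw [hX]
        field_simp
        ring
      rw [h8, div_lt_div_iff₀ (by linarith) (by positivity)]
      nlinarith
    have h9 : 0 ≤ 6 * (R + 1) ^ 2 := by positivity
    exact (mul_le_mul_of_nonneg_left h3 h9).trans_lt h7

/-- **(PLATE)** from the parts -/
theorem specPlateOf : SpecPlateOf := by
  intro hGB hCol hLens hLa hNear hPat hCut hLev hS1 hS2 hRim hVert hBd hMod hGap hU p θ M hp hθ hM
  have hCpos : 0 < (9 / 4 * M) ^ p + 4 ^ p * (1 + M ^ p) := by positivity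
  refine ⟨(9 / 4 * M) ^ p + 4 ^ p * (1 + M ^ p), hCpos, fun k₁ hk₁ => ?_⟩
  obtain ⟨ρ0, hρ0, hU'⟩ := hU hCol k₁ hk₁
  obtain ⟨K₀, hK₀⟩ := exists_K0 (4 / ρ0) (4 * M) k₁
  refine ⟨K₀, fun k₀ hk₀' => ?_⟩
  obtain ⟨hk₀, hρk, hMk⟩ := hK₀ k₀ hk₀'
  have hR : (1:ℝ) ≤ RR k₁ k₀ := by
    have := RR_ge hk₁ hk₀
    have h2 : (47:ℝ) ≤ RR k₁ k₀ := by exact_mod_cast this
    linarith
  obtain ⟨l, hl, κ, hκ, hκ1, hκl, hnum⟩ := exists_kappa2 (θ := θ) (p := p) hθ hR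
  refine ⟨κ, hκ, ?_⟩
  rintro Ω Λ v I T D ⟨⟨n₂, z⟩, k⟩ A L h hΩ hΛ hI hT H Z hZ hZd hZh
  simp only at hZh
  obtain ⟨J', I', inc', qC', K', δ, cu, cd, hδ, hgr, hlat, hZ', hZu, hZl⟩ :=
    hLens Ω v I T D n₂ k₁ k₀ z k hΩ hI hT H.lone H.fine Z hZ hZd
  obtain ⟨AL, hAL, hAs, hA, HN⟩ := hNear hLa p θ M κ l k₁ k₀ n₂ Ω Λ v I T D z k A L h hp hθ hl
    hκ.le hκl hΩ hI hT H J' I' inc' qC' K' δ cu cd hgr hlat
  obtain ⟨hn1, hn2, hn3⟩ := hnum (gN n₂ k₁ k₀)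
  have hd : (0:ℝ) < 1 / 2 ^ (gN n₂ k₁ k₀) := by positivity
  have hpb : ∀ y, Reg2 v (gN n₂ k₁ k₀) k (z k * 2 ^ (k₁ + k₀)) (llo v n₂ z k δ) (lhi v n₂ z k δ)
      (A 0) AL y →
      y ∈ A '' pbox v ((n₂, z), k) (1 / 2 ^ (n₂ + k₁ + k₀)) (1 / 2 ^ (n₂ + k₁ + k₀)) := by
    intro y hy
    refine ⟨AL.symm (y - A 0), ⟨?_, fun i hi => ?_⟩, ?_⟩
    · have h1 := hy.1
      rw [ht_plate] at h1
      exact h1
    · have h1 := hy.2 i hi
      unfold llo lhi at h1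
      simp only at hi
      rw [if_neg hi, if_neg hi] at h1
      exact h1
    · rw [hA, AL.apply_symm_apply]; abel
  obtain ⟨h3, Lt, χ, q, O⟩ := core_plate hGB ⟨hPat, hCut, hLev, hS1, hS2, hRim, hVert, hBd, hMod⟩
    hΩ hΛ HN hk₁ hk₀ hn1 hn2 hn3 (d := δ / 2) (by linarith) (by linarith)
    (hU' v n₂ k₀ z k (δ / 2) (by omega) (by linarith)) (by
      rw [show (4:ℝ) / 2 ^ (gN n₂ k₁ k₀) = 4 * (1 / 2 ^ (gN n₂ k₁ k₀)) by ring,
        div_eq_mul_one_div ρ0, gd n₂ k₁ k₀, ← mul_assoc]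
      refine mul_le_mul_of_nonneg_right ?_ hd.le
      rwa [div_le_iff₀' hρ0] at hρk) hZ' hZu hZl
    (fun x hx hr => hZh x hx (hpb _ hr))
  refine ⟨h3, ⟨fun x hx => ?_, fun e he hs1 hs2 => ?_⟩, fun e he x hx => ?_, O.prot⟩
  · exact (O.box x hx).trans (hA x).symm
  · obtain ⟨g1, g2⟩ := hGap D.Vx D.B J' I' D.e0 D.e1 inc' qC' Ω K' Λ h.toFun v n₂ k₁ k₀ z k δ
      (A 0) AL _ _ cu cd hδ HN p M κ (δ / 2) hp hM hκ.le (by linarith) (by linarith)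
      (fun w => by rw [hAL]; exact H.above w) hk₁ hk₀ hn1 hMk
      (fun e he hs => by rw [hAL]; exact (H.own e he hs).2)
      h3.toFun Lt χ q (fun b w l h1 _ => O.pm b w l h1) O.out O.chi_id O.chi O.box O.mark
      O.close O.lip e he hs1 hs2
    refine ⟨fun x hx => by rw [hA x]; exact g1 x hx, g2.trans (ENNReal.ofReal_le_ofReal ?_)⟩
    gcongr
  · obtain ⟨S, hS⟩ := D.edges e he
    have hx' := hx
    rw [hS] at hx'
    obtain ⟨b, hbS, hxb⟩ := mem_iUnion₂.1 hx'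
    have harc : K'.arc b = D.K.arc b := congrArg (fun G => G.arc b) hgr
    have hsub : edge v (D.φ b) ⊆ edge v e := by
      rw [hS]
      exact subset_biUnion_of_mem (u := fun b => edge v (D.φ b)) hbS
    rw [← D.arc b, ← harc] at hsub hxb
    have hplane : ∀ x ∈ Icc (plo v n₂ k₁ k₀ z k (δ / 2)) (phi v n₂ k₁ k₀ z k (δ / 2)),
        x ∈ K'.arc b → x ∈ prel v ((n₂, z), k) (1 / 2 ^ (n₂ + k₁)) := by
      intro x hx hxb
      obtain ⟨w, l, h1, h2, h4⟩ := hlat.arc b ⟨x, hxb, box_sub_int hk₁ hk₀ (by linarith) hx⟩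
      rw [h4, GBM.mem_edge] at hxb
      refine prel_of_box hx ?_
      rw [hxb.1 k (Ne.symm h1)]
      unfold pt ht
      rw [h2]
    refine ⟨fun hxB => ?_, ?_⟩
    · have hxI : x ∉ interior (Icc (plo v n₂ k₁ k₀ z k (δ / 2)) (phi v n₂ k₁ k₀ z k (δ / 2))) :=
        fun hxI => hxB (hplane x (interior_subset hxI) hxb)
      rw [O.out b x hxb hxI]
      by_cases hc : b ∈ cr2 K' v (gN n₂ k₁ k₀) k (z k * 2 ^ (k₁ + k₀)) (al k₁ k₀ z) (be k₁ k₀ z)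
      · obtain ⟨a, l, ha, hck⟩ := hc
        rw [ha] at hxb
        rcases crossed_end2 hk₁ hk₀ hck hxb hxB with hx1 | hx1
        · rw [hx1, ← HN.y0 b a l ha, O.chi0]
        · rw [hx1, ← HN.y1 b a l ha, O.chi1]
      · rw [O.chi_id b hc x hxb]
    · by_cases hxI : x ∈ Icc (plo v n₂ k₁ k₀ z k (δ / 2)) (phi v n₂ k₁ k₀ z k (δ / 2))
      · right
        exact hpb _ (O.reg x hxI)
      · left
        rw [O.out b x hxb (fun h' => hxI (interior_subset h'))]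
        exact ⟨χ b x, hsub (O.chi_mem b x hxb), rfl⟩

end P073.PL
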