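import Vale.Agent.P073.PL.ModChi73
import Vale.Agent.P073.GBM.Mod580b

/-!
# P073, block PLATE, part MOD2: the model maps
-/

open Set Metric Topology Filter MeasureTheory
open scoped ENNReal NNReal

namespace P073.PL.M73

open P073 P073.PR720 P073.GB73 P073.GBM P073.Gauge P073.GB1W P073.Cell P073.Plate P073.PL
open Vale.Agent.P073.St (V)
open Vale.Agent.P073.AB
open Vale.Agent.P073.SQ (ev)

/-- the affine stretch in one direction -/
def str (k : Fin 3) (c0 s : ℝ) (x : V) : V := Function.update x k (c0 + (x k - c0) * s)

theorem str_same (k : Fin 3) (c0 s : ℝ) (x : V) : str k c0 s x k = c0 + (x k - c0) * s := by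
  unfold str; rw [Function.update_self]

theorem str_ne {k : Fin 3} (c0 s : ℝ) (x : V) {j : Fin 3} (hj : j ≠ k) : str k c0 s x j = x j := by
  unfold str; rw [Function.update_of_ne hj]

theorem str_eq {k : Fin 3} {c0 : ℝ} (s : ℝ) {x : V} (hx : x k = c0) : str k c0 s x = x := by
  unfold str
  rw [hx, sub_self, zero_mul, add_zero, ← hx, Function.update_eq_self]

theorem str_str {k : Fin 3} {c0 s s' : ℝ} (hs : s * s' = 1) (x : V) :
    str k c0 s' (str k c0 s x) = x := by
  funext j
  by_cases hj : j = k
  · subst hj
    rw [str_same, str_same]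
    have : (x j - c0) * s * s' = x j - c0 := by rw [mul_assoc, hs, mul_one]
    rw [add_sub_cancel_left, this]; ring
  · rw [str_ne _ _ _ hj, str_ne _ _ _ hj]

theorem continuous_str (k : Fin 3) (c0 s : ℝ) : Continuous (str k c0 s) := by
  unfold str; fun_prop

theorem conicalOn_str (k : Fin 3) (c0 s : ℝ) {X : Set V} (hX : ConicalSet X) :
    ConicalOn (str k c0 s) X := by
  intro x hx
  refine conicalWithinAt_pi (hX x hx) fun j => ?_
  by_cases hj : j = k
  · subst hj
    have h1 : ConicalOn (fun y : V => c0 + s • (y j - c0)) X :=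
      (conicalOn_const c0 hX).add (((conicalOn_coord hX j).sub (conicalOn_const c0 hX)).const_smul s)
    have h2 : (fun y : V => str j c0 s y j) = fun y => c0 + s • (y j - c0) := by
      funext y; rw [str_same, smul_eq_mul, mul_comm]
    show ConicalWithinAt (fun y : V => str j c0 s y j) X x
    rw [h2]; exact h1 x hx
  · have h2 : (fun y : V => str k c0 s y j) = fun y => y j := by
      funext y; rw [str_ne _ _ _ hj]
    show ConicalWithinAt (fun y : V => str k c0 s y j) X x
    rw [h2]; exact conicalOn_coord hX j x hx

theorem str_mem {k : Fin 3} {a b : V} {c0 d w s : ℝ} (hs : 0 ≤ s) (hdw : d * s = w) {x : V}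
    (hx : x ∈ Icc (Function.update a k (c0 - d)) (Function.update b k (c0 + d))) :
    str k c0 s x ∈ Icc (Function.update a k (c0 - w)) (Function.update b k (c0 + w)) := by
  obtain ⟨h1, h2⟩ := hx
  constructor
  · intro j
    by_cases hj : j = k
    · subst hj
      have := h1 j
      rw [Function.update_self] at this ⊢
      rw [str_same]
      nlinarith
    · have := h1 j
      rw [Function.update_of_ne hj] at this ⊢
      rw [str_ne _ _ _ hj]; exact this
  · intro j
    by_cases hj : j = k
    · subst hj
      have := h2 j
      rw [Function.update_self] at this ⊢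
      rw [str_same]
      nlinarith
    · have := h2 j
      rw [Function.update_of_ne hj] at this ⊢
      rw [str_ne _ _ _ hj]; exact this

/-- the stretch of a box -/
theorem exists_str (k : Fin 3) (a b : V) (c0 : ℝ) {d w : ℝ} (hd : 0 < d) (hw : 0 < w) :
    ∃ S : ConHomeo (Icc (Function.update a k (c0 - d)) (Function.update b k (c0 + d)))
      (Icc (Function.update a k (c0 - w)) (Function.update b k (c0 + w))),
      S.toFun = str k c0 (w / d) := by
  have h1 : d * (w / d) = w := mul_div_cancel₀ w hd.ne'
  have h2 : w * (d / w) = d := mul_div_cancel₀ d hw.ne'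
  have h3 : w / d * (d / w) = 1 := by field_simp
  have h4 : d / w * (w / d) = 1 := by field_simp
  exact ⟨{ toFun := str k c0 (w / d)
           invFun := str k c0 (d / w)
           mapsTo := fun x hx => str_mem (div_nonneg hw.le hd.le) h1 hx
           mapsTo_inv := fun x hx => str_mem (div_nonneg hd.le hw.le) h2 hx
           left_inv := fun x _ => str_str h3 x
           right_inv := fun x _ => str_str h4 x
           cont := (continuous_str _ _ _).continuousOn
           cont_inv := (continuous_str _ _ _).continuousOn
           conical := conicalOn_str _ _ _ (convex_Icc _ _).conicalSet }, rfl⟩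

/-! ### numbers -/

section numbers

variable {v : V} {N : ℕ} {k : Fin 3} {ζ : ℤ} {α β : Fin 3 → ℤ}

theorem bc2_sub_bw2 : bc2 v N k ζ α β - bw2 N k α β =
    Function.update (hp v N α) k (ht v N k ζ - 3 / 4 / 2 ^ N) := by
  funext j
  rw [Pi.sub_apply]
  by_cases hj : j = k
  · subst hj
    rw [Function.update_self]; unfold bc2 bw2; rw [if_pos rfl, if_pos rfl]
  · rw [Function.update_of_ne hj]; unfold bc2 bw2 hp; rw [if_neg hj, if_neg hj]; ring

theorem bc2_add_bw2 : bc2 v N k ζ α β + bw2 N k α β =
    Function.update (hp v N β) k (ht v N k ζ + 3 / 4 / 2 ^ N) := by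
  funext j
  rw [Pi.add_apply]
  by_cases hj : j = k
  · subst hj
    rw [Function.update_self]; unfold bc2 bw2; rw [if_pos rfl, if_pos rfl]
  · rw [Function.update_of_ne hj]; unfold bc2 bw2 hp; rw [if_neg hj, if_neg hj]; ring

end numbers

end P073.PL.M73
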