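import Vale.Agent.P073.PL.Mod73

/-!
# P073, block PLATE, part MOD2: the theorem `specMod2`
-/

open Set Metric Topology Filter MeasureTheory
open scoped ENNReal NNReal

namespace P073.PL

open P073 P073.PR720 P073.GB73 P073.GBM P073.Gauge P073.GB1W P073.Cell P073.Plate P073.PL.M73
open Vale.Agent.P073.St (V)
open Vale.Agent.P073.AB
open Vale.Agent.P073.SQ (ev)

/-- **(MOD2)** -/
theorem specMod2 : SpecMod2 := by
  classical
  intro Vx B J I e0 e1 inc qC Ω K Λ h v n₂ k₁ k₀ z k q0 q1 o A μ η cu cd HN hk₁ hk₀ hμ hR d T0 y0 p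
    hd hT hy hpc
  refine ⟨?_, exists_chi2 HN hμ hR hT hy hpc⟩
  set N := gN n₂ k₁ k₀ with hN
  set ζ : ℤ := z k * 2 ^ (k₁ + k₀) with hζ
  set c := bc2 v N k ζ (al k₁ k₀ z) (be k₁ k₀ z) with hc
  set w := bw2 N k (al k₁ k₀ z) (be k₁ k₀ z) with hw
  set f : ℝ := 1 / 2 ^ N with hf
  have hfp : 0 < f := by positivity
  have h8 := two_pow_ge hk₀
  have h88 := pow_add_ge (k₀ := k₀) hk₁
  have hμ' : μ ≤ 1 / 8 * f := by
    have : (1:ℝ) / 8 / 2 ^ N = 1 / 8 * f := by rw [hf]; ring
    rwa [this] at hμ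
  have hwk : w k = 3 / 4 * f := by
    rw [hw]; unfold bw2; rw [if_pos rfl, hf]; ring
  have hwj : ∀ j, j ≠ k → w j = (2 ^ (k₁ + k₀) / 2 - 2 ^ k₀ - 1 / 2) * f := by
    intro j hj
    rw [hw]; unfold bw2; rw [if_neg hj, al_cast, be_cast, hf]; ring
  have hcj : ∀ j, j ≠ k → c j = v j + (z j * 2 ^ (k₁ + k₀) + 2 ^ (k₁ + k₀) / 2) * f := by
    intro j hj
    rw [hc]; unfold bc2; rw [if_neg hj, al_cast, be_cast, hf]; ring
  have hck : c k = ht v N k ζ := by
    rw [hc]; unfold bc2; rw [if_pos rfl]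
  have hpta : ∀ (a : Fin 3 → ℤ) j, pt v N a j = v j + a j * f := by
    intro a j; rw [hf]; unfold pt; ring
  have htk : ht v N k ζ = v k + ζ * f := by rw [hf]; unfold ht; ring
  have hwpos : ∀ j, 0 ≤ w j := by
    intro j
    by_cases hj : j = k
    · rw [hj, hwk]; positivity
    · rw [hwj j hj]; exact mul_nonneg (by linarith) hfp.le
  have htw : ∀ t ∈ T0, ∀ l, |t - 1| * w l ≤ 1 / 8 * f := by
    intro t ht' l
    by_cases hl : l = k
    · obtain ⟨j, hj⟩ : ∃ j : Fin 3, j ≠ k := exists_ne k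
      have h1 := (hT t ht').2 j hj
      rw [al_cast, be_cast] at h1
      have h2 : (6:ℝ) ≤ (z j + 1) * 2 ^ (k₁ + k₀) - 2 ^ k₀ - 1 - (z j * 2 ^ (k₁ + k₀) + 2 ^ k₀) := by
        have : (z j + 1) * 2 ^ (k₁ + k₀) - 2 ^ k₀ - 1 - (z j * 2 ^ (k₁ + k₀) + 2 ^ k₀) =
          (2:ℝ) ^ (k₁ + k₀) - 2 * 2 ^ k₀ - 1 := by ring
        rw [this]; linarith
      have h3 : |t - 1| * 6 ≤ 1 / 4 :=
        (mul_le_mul_of_nonneg_left h2 (abs_nonneg _)).trans h1
      rw [hl, hwk]
      nlinarith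
    · exact level_le hT ht' hl
  -- the marked edges
  set M0 : Set B := {b | ∃ a l, K.arc b = edge v ((N, a), l) ∧ Marked2 k₁ k₀ z a k l} with hM0
  have hM0f : M0.Finite := by
    have hF : (Icc (fun j => if j = k then ζ else al k₁ k₀ z j)
        (fun j => if j = k then ζ else be k₁ k₀ z j) ×ˢ (univ : Set (Fin 3))).Finite :=
      (Set.finite_Icc _ _).prod finite_univ
    refine (hF.biUnion (t := fun x => {b | K.arc b = edge v ((N, x.1), x.2)}) fun x _ => ?_).subset
      ?_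
    · refine Set.Subsingleton.finite fun b hb b' hb' => ?_
      exact arc_injective K ((show K.arc b = _ from hb).trans (show K.arc b' = _ from hb').symm)
    · rintro b ⟨a, l, h1, h2⟩
      rw [mem_iUnion₂]
      refine ⟨(a, l), ⟨⟨fun j => ?_, fun j => ?_⟩, mem_univ _⟩, h1⟩
      · show (if j = k then ζ else al k₁ k₀ z j) ≤ a j
        obtain ⟨hlk, hak, hal, haj⟩ := h2.1
        split_ifs with hj
        · rw [hj]; exact hak.ge
        · by_cases hjl : j = l
          · have := (hR j hj).1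
            rcases hal with e | e
            · rw [hjl, e]
            · rw [hjl, e, ← hjl]; exact this.le
          · exact (haj j hjl hj).1.le
      · show a j ≤ (if j = k then ζ else be k₁ k₀ z j)
        obtain ⟨hlk, hak, hal, haj⟩ := h2.1
        split_ifs with hj
        · rw [hj]; exact hak.le
        · by_cases hjl : j = l
          · have := (hR j hj).1
            rcases hal with e | e
            · rw [hjl, e, ← hjl]; exact this.le
            · rw [hjl, e]
          · exact (haj j hjl hj).2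
  set M : Finset B := hM0f.toFinset with hM
  have hch : ∀ b : B, ∃ (a : Fin 3 → ℤ) (l : Fin 3), b ∈ M →
      K.arc b = edge v ((N, a), l) ∧ Marked2 k₁ k₀ z a k l := by
    intro b
    by_cases hb : b ∈ M
    · obtain ⟨a, l, h1⟩ := hM0f.mem_toFinset.1 hb
      exact ⟨a, l, fun _ => h1⟩
    · exact ⟨0, 0, fun h => absurd h hb⟩
  choose fa fl hfl using hch
  set σ : B → ℝ := fun b => if fa b (fl b) = be k₁ k₀ z (fl b) then 1 else -1 with hσ
  have hpb : ∀ b ∈ M, p b = pt v N (fa b) + (1 / 2 / 2 ^ N : ℝ) • ev (fl b) := fun b hb =>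
    hpc b (fa b) (fl b) (hfl b hb).1 (hfl b hb).2.1
  have hlk : ∀ b ∈ M, fl b ≠ k := fun b hb => (hfl b hb).2.1.1
  have hpl : ∀ b ∈ M, p b (fl b) = v (fl b) + (fa b (fl b) + 1 / 2) * f := by
    intro b hb
    rw [hpb b hb, mid_apply_self, hf]; ring
  have hpj : ∀ b ∈ M, ∀ j, j ≠ fl b → p b j = v j + fa b j * f := by
    intro b hb j hj
    rw [hpb b hb, mid_apply_ne hj, hpta]
  have hface : ∀ b ∈ M, p b (fl b) = c (fl b) + σ b * w (fl b) := by
    intro b hb
    rw [hpl b hb, hcj _ (hlk b hb), hwj _ (hlk b hb)]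
    have hne := (al_lt_be z hk₁ hk₀ (fl b)).ne
    rcases (hfl b hb).2.1.2.2.1 with e | e
    · simp only [hσ]
      rw [if_neg (by rw [e]; exact hne), e, al_cast]; ring
    · simp only [hσ]
      rw [if_pos e, e, be_cast]; ring
  have hmidm : ∀ b ∈ M, ∀ j, j ≠ fl b → j ≠ k →
      |p b j - c j| ≤ w j - (2 ^ k₀ - 1 / 2) * f := by
    intro b hb j hj hjk
    obtain ⟨-, h1, h2⟩ := (hfl b hb).2.2 j hj hjk
    have h1' : (z j : ℝ) * 2 ^ (k₁ + k₀) + 2 * 2 ^ k₀ ≤ fa b j := by exact_mod_cast h1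
    have h2' : (fa b j : ℝ) ≤ (z j + 1) * 2 ^ (k₁ + k₀) - 2 * 2 ^ k₀ := by exact_mod_cast h2
    rw [hpj b hb j hj, hcj j hjk, hwj j hjk, abs_le]
    constructor
    · have := mul_le_mul_of_nonneg_right h1' hfp.le
      linarith
    · have := mul_le_mul_of_nonneg_right h2' hfp.le
      linarith
  have hσ1 : ∀ b, |σ b| = 1 := by
    intro b
    simp only [hσ]
    split_ifs <;> simp
  have hmarks : GB1.Marks M c w (3 / 4 * f) p fl σ := by
    refine ⟨fun b _ => ?_, hface, fun b hb j hj => ?_⟩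
    · by_cases h1 : fa b (fl b) = be k₁ k₀ z (fl b)
      · left; simp only [hσ, if_pos h1]
      · right; simp only [hσ, if_neg h1]
    · by_cases hjk : j = k
      · rw [hjk, hpj b hb k (hlk b hb).symm, (hfl b hb).2.1.2.1, hck, htk, hwk, sub_self, abs_zero,
          sub_self]
      · refine (hmidm b hb j hj hjk).trans ?_
        nlinarith
  -- separation
  have hsep : ∀ i ∈ M, ∀ j ∈ M, i ≠ j → 2 * (1 / 2 * f) ≤ ‖p i - p j‖ := by
    intro i hi j hj hij
    have hx : ∀ l, |p i l - p j l| ≤ ‖p i - p j‖ := fun l => norm_le_pi_norm (p i - p j) l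
    by_cases hll : fl i = fl j
    · have haa : fa i ≠ fa j := by
        intro e
        apply hij
        apply arc_injective K
        rw [(hfl i hi).1, (hfl j hj).1, e, hll]
      obtain ⟨l, hl⟩ := Function.ne_iff.1 haa
      refine le_trans ?_ (hx l)
      have e1 : p i l - p j l = ((fa i l : ℝ) - fa j l) * f := by
        by_cases hl1 : l = fl i
        · have hl2 : l = fl j := hl1.trans hll
          have g1 := hpl i hi
          have g2 := hpl j hj
          rw [← hl1] at g1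
          rw [← hl2] at g2
          rw [g1, g2]; ring
        · have hl2 : l ≠ fl j := fun e => hl1 (e.trans hll.symm)
          rw [hpj i hi l hl1, hpj j hj l hl2]; ring
      have h1 : (1:ℝ) ≤ |(fa i l : ℝ) - fa j l| := by
        have h2 : (1:ℤ) ≤ |fa i l - fa j l| := Int.one_le_abs (sub_ne_zero.2 hl)
        have h3 : ((1:ℤ) : ℝ) ≤ ((|fa i l - fa j l| : ℤ) : ℝ) := Int.cast_le.2 h2
        rw [Int.cast_abs] at h3
        push_cast at h3
        exact h3
      rw [e1, abs_mul, abs_of_pos hfp]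
      nlinarith
    · refine le_trans ?_ (hx (fl i))
      have h1 := hface i hi
      have h2 := hmidm j hj (fl i) hll (hlk i hi)
      have h3 : |p i (fl i) - c (fl i)| = w (fl i) := by
        rw [h1, add_sub_cancel_left, abs_mul, hσ1, one_mul, abs_of_nonneg (hwpos _)]
      have h4 : |p i (fl i) - c (fl i)| ≤ |p i (fl i) - p j (fl i)| + |p j (fl i) - c (fl i)| :=
        abs_sub_le _ _ _
      nlinarith
  have hex : ∀ t : T0, ∃ L : ConHomeo (Icc (c - w) (c + w)) ((bBody (o + A c) A w T0).at t),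
      (∀ i ∈ M, L.toFun (p i) = y0 t i) ∧
      (∀ x, (∀ l, |x l - c l| ≤ w l - 1 / 2 * f) →
        (∀ i ∈ M, 1 / 2 * f ≤ ‖x - p i‖) → L.toFun x = o + A c + A (x - c)) ∧
      (∀ x ∈ Icc (c - w) (c + w), ‖A.symm (L.toFun x - (o + A c)) - (x - c)‖ ≤
        μ + 1 / 2 * f / 4) ∧
      (∀ x y, ‖A.symm (L.toFun x - L.toFun y)‖ ≤ 9 / 4 * ‖x - y‖) := by
    intro t
    refine GB1.exists_model (m := 3 / 4 * f) (d := 1 / 2 * f) (δ := 1 / 2 * f) (μ := μ)
      (t := (t : ℝ)) hmarks (by linarith) (by linarith) HN.mu0 (by linarith) (by linarith)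
      (by linarith) ?_ (hT t t.2).1 ?_ hsep ?_
    · intro l
      by_cases hl : l = k
      · rw [hl, hwk]; linarith
      · rw [hwj l hl]; nlinarith
    · intro l
      have := htw t t.2 l
      linarith
    · intro i hi
      obtain ⟨-, g2, g3⟩ := hy t t.2 i (fa i) (fl i) (hfl i hi).1 (hfl i hi).2.1
      have hs : A.symm (y0 t i - (o + A c)) = A.symm (y0 t i - o) - c := by
        rw [← sub_sub, map_sub, ContinuousLinearEquiv.symm_apply_apply]
      rw [hs]
      refine ⟨?_, fun j hj => ?_⟩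
      · rw [Pi.sub_apply, g2]
        simp only [hσ]
        split_ifs <;> ring
      · rw [Pi.sub_apply, hpb i hi, mid_apply_ne hj]
        have e1 : A.symm (y0 t i - o) j - c j - (pt v N (fa i) j - c j) =
          A.symm (y0 t i - o) j - pt v N (fa i) j := by ring
        rw [e1]
        exact g3 j hj
  choose L hL1 hL2 hL3 hL4 using hex
  obtain ⟨S, hS⟩ := exists_str k (hp v N (al k₁ k₀ z)) (hp v N (be k₁ k₀ z)) (ht v N k ζ) hd
    (show (0:ℝ) < 3 / 4 / 2 ^ N by positivity)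
  have hbox : Icc (Function.update (hp v N (al k₁ k₀ z)) k (ht v N k ζ - 3 / 4 / 2 ^ N))
      (Function.update (hp v N (be k₁ k₀ z)) k (ht v N k ζ + 3 / 4 / 2 ^ N)) =
      Icc (c - w) (c + w) := by
    rw [hc, hw, bc2_sub_bw2, bc2_add_bw2]
  have hSx : ∀ x : V, x k = ht v N k ζ → S.toFun x = x := fun x hx => by rw [hS, str_eq _ hx]
  have hpk : ∀ b ∈ M, p b k = ht v N k ζ := by
    intro b hb
    rw [hpj b hb k (hlk b hb).symm, (hfl b hb).2.1.2.1, htk]
  have hsub : ∀ x : V, A.symm (x - (o + A c)) = A.symm (x - o) - c := by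
    intro x
    rw [← sub_sub, map_sub, ContinuousLinearEquiv.symm_apply_apply]
  refine ⟨fun t => (S.cast rfl hbox).trans (L t), fun t => ⟨?_, ?_, ?_, ?_, ?_⟩⟩
  · intro b a l h1 h2
    have hb : b ∈ M := hM0f.mem_toFinset.2 ⟨a, l, h1, h2⟩
    show y0 t b = (L t).toFun (S.toFun (p b))
    rw [hSx _ (hpk b hb), hL1 t b hb]
  · rintro x ⟨hxk, hxj⟩
    have e1 := one_div_n1 n₂ k₁ k₀
    have e2 := one_div_n2 n₂ k₁ k₀
    have hfm : fm n₂ k₁ k₀ = f := rfl
    rw [hfm] at e1 e2
    have hxk' : x k = ht v N k ζ := by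
      have h1 : x k = v k + (z k : ℝ) / 2 ^ n₂ := by
        have := abs_nonpos_iff.1 hxk
        linarith
      have f1 : (z k : ℝ) / 2 ^ n₂ = z k * (1 / 2 ^ n₂) := by ring
      rw [h1, f1, e2, htk, hζ]; push_cast; ring
    have hx' : ∀ l, l ≠ k → |x l - c l| ≤ w l - (2 ^ k₀ - 1 / 2) * f := by
      intro l hl
      obtain ⟨h1, h2⟩ := hxj l hl
      have f1 : (z l : ℝ) / 2 ^ n₂ = z l * (1 / 2 ^ n₂) := by ring
      have f2 : ((z l : ℝ) + 1) / 2 ^ n₂ = (z l + 1) * (1 / 2 ^ n₂) := by ring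
      have f3 : (2:ℝ) / 2 ^ (n₂ + k₁) = 2 * (1 / 2 ^ (n₂ + k₁)) := by ring
      simp only at h1 h2
      rw [f1, f3, e1, e2] at h1
      rw [f2, f3, e1, e2] at h2
      rw [hcj l hl, hwj l hl, abs_le]
      constructor <;> linarith
    show (L t).toFun (S.toFun x) = o + A x
    rw [hSx x hxk', hL2 t x, map_sub]
    · abel
    · intro l
      by_cases hl : l = k
      · rw [hl, hxk', hck, hwk, sub_self, abs_zero]; linarith
      · refine (hx' l hl).trans ?_
        nlinarith
    · intro i hi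
      have h1 := hface i hi
      have h2 := hx' (fl i) (hlk i hi)
      have h3 : |x (fl i) - p i (fl i)| ≤ ‖x - p i‖ := norm_le_pi_norm (x - p i) (fl i)
      have h4 : |p i (fl i) - c (fl i)| = w (fl i) := by
        rw [h1, add_sub_cancel_left, abs_mul, hσ1, one_mul, abs_of_nonneg (hwpos _)]
      have h5 : |p i (fl i) - c (fl i)| ≤ |p i (fl i) - x (fl i)| + |x (fl i) - c (fl i)| :=
        abs_sub_le _ _ _
      rw [abs_sub_comm (p i (fl i)) (x (fl i))] at h5
      have h6 : 0 ≤ (2 ^ k₀ - 8) * f := mul_nonneg (by linarith) hfp.le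
      linarith
  · intro x hx i hi
    show |A.symm ((L t).toFun (S.toFun x) - o) i - x i| ≤ _
    have hm : S.toFun x ∈ Icc (c - w) (c + w) := hbox ▸ S.mapsTo hx
    have h1 := hL3 t (S.toFun x) hm
    rw [hsub] at h1
    have h2 := (norm_le_pi_norm _ i).trans h1
    have e1 : (A.symm ((L t).toFun (S.toFun x) - o) - c - (S.toFun x - c)) i =
        A.symm ((L t).toFun (S.toFun x) - o) i - x i := by
      have h3 : S.toFun x i = x i := by rw [hS, str_ne _ _ _ hi]
      simp only [Pi.sub_apply, h3]; ring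
    rw [e1, Real.norm_eq_abs] at h2
    refine h2.trans (le_of_eq ?_)
    rw [hf]; ring
  · intro x hx hxk
    show ‖A.symm ((L t).toFun (S.toFun x) - o) - x‖ ≤ _
    have hm : S.toFun x ∈ Icc (c - w) (c + w) := hbox ▸ S.mapsTo hx
    have h1 := hL3 t (S.toFun x) hm
    rw [hsub, hSx x hxk] at h1
    rw [hSx x hxk]
    have e1 : A.symm ((L t).toFun x - o) - c - (x - c) = A.symm ((L t).toFun x - o) - x := by abel
    rw [e1] at h1
    refine h1.trans (le_of_eq ?_)
    rw [hf]; ring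
  · intro x y hxk hyk
    show ‖A.symm ((L t).toFun (S.toFun x) - (L t).toFun (S.toFun y))‖ ≤ _
    rw [hSx x hxk, hSx y hyk]
    exact hL4 t x y

end P073.PL
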