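import Vale.Agent.P073.PL.Spec
import Vale.Agent.P073.GBM.Mod580

/-!
# P073, block PLATE, part MOD2: the reparametrisations of the crossed edges
-/

open Set Metric Topology Filter MeasureTheory
open scoped ENNReal NNReal

namespace P073.PL.M73

open P073 P073.PR720 P073.GB73 P073.GBM P073.Gauge P073.GB1W P073.Cell P073.Plate P073.PL
open Vale.Agent.P073.St (V)
open Vale.Agent.P073.AB
open Vale.Agent.P073.SQ (ev)

variable {Vx B J I : Type} {e0 e1 : B → Vx} {inc : B → J → Prop} {qC : J → I → Prop} {Ω : Set V}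
  {K : Cx3 e0 e1 inc qC Ω} {Λ : Set V} {h : V → V} {v : V} {N : ℕ} {k : Fin 3} {ζ : ℤ}
  {q0 q1 o : V} {A : V ≃L[ℝ] V} {μ η : ℝ} {cu cd : I} {α β : Fin 3 → ℤ}

/-- a crossed edge lies in the plate -/
theorem cross_sub (HL : Lat2 K v N k ζ q0 q1 cu cd) (hR : RectIn v N k q0 q1 α β)
    {a : Fin 3 → ℤ} {l : Fin 3} (h : Cross2 k ζ α β a l) : edge v ((N, a), l) ⊆ Icc q0 q1 := by
  have hP : (0:ℝ) < 1 / 2 ^ N := by positivity
  obtain ⟨hlk, hak, hal, haj⟩ := h
  have hmid : ∀ j, pt v N a j = v j + a j * (1 / 2 ^ N) := fun j => by unfold pt; ring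
  intro x hx
  rw [mem_edge] at hx
  obtain ⟨h1, h2, h3⟩ := hx
  have key : ∀ j, q0 j ≤ x j ∧ x j ≤ q1 j := by
    intro j
    by_cases hjk : j = k
    · subst hjk
      have e1 : x j = ht v N j ζ := by
        rw [h1 j (Ne.symm hlk)]
        unfold pt ht
        rw [hak]
      have h4 := HL.mid
      have h5 := HL.lt j
      rw [e1]
      constructor <;> linarith
    · obtain ⟨g1, g2, g3⟩ := hR j hjk
      have e1 : pt v N α j = v j + α j * (1 / 2 ^ N) := by unfold pt; ring
      have e2 : pt v N β j = v j + β j * (1 / 2 ^ N) := by unfold pt; ring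
      rw [e1] at g2
      rw [e2] at g3
      have g1' : (α j : ℝ) + 1 ≤ β j := by exact_mod_cast g1
      by_cases hjl : j = l
      · subst hjl
        rw [hmid] at h2 h3
        rcases hal with e | e
        · rw [e] at h2 h3
          constructor
          · linarith
          · nlinarith
        · rw [e] at h2 h3
          constructor
          · nlinarith
          · linarith
      · obtain ⟨g4, g5⟩ := haj j hjl hjk
        have g4' : (α j : ℝ) + 1 ≤ a j := by exact_mod_cast g4
        have g5' : (a j : ℝ) ≤ β j := by exact_mod_cast g5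
        rw [h1 j hjl, hmid]
        constructor
        · nlinarith
        · nlinarith
  exact ⟨fun j => (key j).1, fun j => (key j).2⟩

/-- the big body: levels -/
theorem level_le {T : Set ℝ} (hT : BigT k α β T) {t : ℝ} (ht : t ∈ T) {l : Fin 3} (hl : l ≠ k) :
    |t - 1| * bw2 N k α β l ≤ 1 / 8 * (1 / 2 ^ N) := by
  have h1 := (hT t ht).2 l hl
  unfold bw2
  rw [if_neg hl]
  have hP : (0:ℝ) < 1 / 2 ^ N := by positivity
  have e1 : |t - 1| * (((β l : ℝ) - α l) / 2 / 2 ^ N) =
      |t - 1| * ((β l : ℝ) - α l) * ((1 / 2 ^ N) / 2) := by ring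
  rw [e1]
  calc _ ≤ 1 / 4 * ((1 / 2 ^ N) / 2) := mul_le_mul_of_nonneg_right h1 (by positivity)
    _ = _ := by ring

/-- **reparametrisations of the crossed edges** -/
theorem exists_chi2 (HN : Near2 K Λ h v N k ζ q0 q1 o A μ η cu cd) (hμ : μ ≤ 1 / 8 / 2 ^ N)
    (hR : RectIn v N k q0 q1 α β) {T0 : Set ℝ} (hT : BigT k α β T0) {y0 : ℝ → B → V}
    (hy : PosY2 K h v N k ζ o A μ (bc2 v N k ζ α β) (bw2 N k α β) α β T0 y0) {p : B → V}
    (hp : IsCut2 K v N k ζ α β p) :
    ∃ χ : (t : T0) → (b : B) → ConHomeo (K.arc b) (K.arc b), ∀ t : T0,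
      (∀ b, (χ t b).toFun (K.y (e0 b)) = K.y (e0 b)) ∧
      (∀ b, (χ t b).toFun (K.y (e1 b)) = K.y (e1 b)) ∧
      (∀ b ∉ cr2 K v N k ζ α β, ∀ x ∈ K.arc b, (χ t b).toFun x = x) ∧
      (∀ b ∈ cr2 K v N k ζ α β, h ((χ t b).toFun (p b)) = y0 t b) ∧
      ∀ b a l, K.arc b = edge v ((N, a), l) → Cross2 k ζ α β a l →
        ∃ r ∈ Icc (1 / 4 : ℝ) (3 / 4), ∀ s ∈ Icc (0:ℝ) 1,
          (χ t b).toFun (pt v N a + s • ((1 / 2 ^ N : ℝ) • ev l)) =
            pt v N a + GB1.rep (1 / 2) r s • ((1 / 2 ^ N : ℝ) • ev l) := by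
  classical
  have hP : (0:ℝ) < 1 / 2 ^ N := by positivity
  have hμ' : μ ≤ 1 / 8 * (1 / 2 ^ N) := by
    have : (1:ℝ) / 8 / 2 ^ N = 1 / 8 * (1 / 2 ^ N) := by ring
    rwa [this] at hμ
  have hex : ∀ (t : T0) (b : B), ∃ χ : ConHomeo (K.arc b) (K.arc b),
      χ.toFun (K.y (e0 b)) = K.y (e0 b) ∧ χ.toFun (K.y (e1 b)) = K.y (e1 b) ∧
      (b ∉ cr2 K v N k ζ α β → ∀ x ∈ K.arc b, χ.toFun x = x) ∧
      (b ∈ cr2 K v N k ζ α β → h (χ.toFun (p b)) = y0 t b) ∧
      ∀ a l, K.arc b = edge v ((N, a), l) → Cross2 k ζ α β a l →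
        ∃ r ∈ Icc (1 / 4 : ℝ) (3 / 4), ∀ s ∈ Icc (0:ℝ) 1,
          χ.toFun (pt v N a + s • ((1 / 2 ^ N : ℝ) • ev l)) =
            pt v N a + GB1.rep (1 / 2) r s • ((1 / 2 ^ N : ℝ) • ev l) := by
    intro t b
    by_cases hb : b ∈ cr2 K v N k ζ α β
    · obtain ⟨a, l, hba, hcr⟩ := hb
      have hb : b ∈ cr2 K v N k ζ α β := ⟨a, l, hba, hcr⟩
      obtain ⟨hlk, hak, hal, haj⟩ := hcr
      have hcr : Cross2 k ζ α β a l := ⟨hlk, hak, hal, haj⟩
      obtain ⟨g1, g2, g3⟩ := hy t t.2 b a l hba hcr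
      obtain ⟨x, hx, hxy⟩ := g1
      have hy0 := HN.y0 b a l hba
      have hy1 := HN.y1 b a l hba
      set d : V := (1 / 2 ^ N : ℝ) • ev l with hd
      have hd0 : d ≠ 0 := by
        intro h0
        have := congrFun h0 l
        rw [hd, Pi.smul_apply, ev_same, smul_eq_mul, mul_one, Pi.zero_apply] at this
        exact absurd this hP.ne'
      have harc : K.arc b = segment ℝ (pt v N a) (pt v N a + d) := hba
      rw [harc, segment_eq_image'] at hx
      obtain ⟨r, hr, hxr⟩ := hx
      have hxr' : x = pt v N a + r • d := by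
        rw [← hxr]; simp
      -- position of the parameter
      have hxl : x l = v l + (a l + r) * (1 / 2 ^ N) := by
        rw [hxr', Pi.add_apply, Pi.smul_apply, hd, Pi.smul_apply, ev_same]
        simp only [smul_eq_mul]
        unfold pt
        ring
      have hsup := HN.sup a l hlk hak (cross_sub HN.lat hR hcr) x (by
        rw [← hba, harc, segment_eq_image']; exact ⟨r, hr, hxr⟩)
      have hclose : |A.symm (h x - o) l - x l| ≤ μ := (norm_le_pi_norm _ l).trans hsup
      rw [hxy, g2] at hclose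
      have ht1 := level_le (N := N) hT t.2 hlk
      have hαβl : α l < β l := (hR l hlk).1
      have hw0 : 0 ≤ bw2 N k α β l := by
        unfold bw2
        rw [if_neg hlk]
        have h1 : (α l : ℝ) ≤ β l := by exact_mod_cast hαβl.le
        have h2 : (0:ℝ) ≤ β l - α l := by linarith
        positivity
      have hrr : |r - 1 / 2| * (1 / 2 ^ N) ≤ 1 / 4 * (1 / 2 ^ N) := by
        have ht1' : |t.1 * bw2 N k α β l - bw2 N k α β l| ≤ 1 / 8 * (1 / 2 ^ N) := by
          have e1 : t.1 * bw2 N k α β l - bw2 N k α β l = (t.1 - 1) * bw2 N k α β l := by ring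
          rw [e1, abs_mul, abs_of_nonneg hw0]; exact ht1
        rw [← abs_of_pos hP, ← abs_mul, abs_of_pos hP]
        have hcl : bc2 v N k ζ α β l = v l + (α l + β l + 1) / 2 * (1 / 2 ^ N) := by
          unfold bc2; rw [if_neg hlk]; ring
        have hwl : bw2 N k α β l = (β l - α l) / 2 * (1 / 2 ^ N) := by
          unfold bw2; rw [if_neg hlk]; ring
        rcases hal with e | e
        · rw [if_neg (by rw [e]; exact hαβl.ne)] at hclose
          have e2 : (r - 1 / 2) * (1 / 2 ^ N) =
              -(bc2 v N k ζ α β l + -(t.1 * bw2 N k α β l) - x l) -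
                (t.1 * bw2 N k α β l - bw2 N k α β l) := by
            have e3 : -(bc2 v N k ζ α β l + -(t.1 * bw2 N k α β l) - x l) -
                (t.1 * bw2 N k α β l - bw2 N k α β l) =
                x l - bc2 v N k ζ α β l + bw2 N k α β l := by ring
            rw [e3, hxl, e, hcl, hwl]; ring
          rw [e2]
          refine (abs_sub _ _).trans ?_
          rw [abs_neg]
          linarith
        · rw [if_pos e] at hclose
          have e2 : (r - 1 / 2) * (1 / 2 ^ N) =
              -(bc2 v N k ζ α β l + t.1 * bw2 N k α β l - x l) +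
                (t.1 * bw2 N k α β l - bw2 N k α β l) := by
            have e3 : -(bc2 v N k ζ α β l + t.1 * bw2 N k α β l - x l) +
                (t.1 * bw2 N k α β l - bw2 N k α β l) =
                x l - bc2 v N k ζ α β l - bw2 N k α β l := by ring
            rw [e3, hxl, e, hcl, hwl]; ring
          rw [e2]
          refine (abs_add_le _ _).trans ?_
          rw [abs_neg]
          linarith
      have hr4 := abs_le.1 (le_of_mul_le_mul_right hrr hP)
      have hr1 : r ∈ Icc (1 / 4 : ℝ) (3 / 4) := ⟨by linarith [hr4.1], by linarith [hr4.2]⟩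
      have hPQ : pt v N a ≠ pt v N a + d := by
        intro h0; apply hd0; simpa using h0
      obtain ⟨χ, hχ⟩ := GB1.exists_chi hPQ (a := 1 / 2) (b := r) (by norm_num) (by norm_num)
        (by linarith [hr1.1]) (by linarith [hr1.2])
      have hχ' : ∀ s ∈ Icc (0:ℝ) 1, χ.toFun (pt v N a + s • d) =
          pt v N a + GB1.rep (1 / 2) r s • d := by
        intro s hs
        have := hχ s hs
        simpa using this
      refine ⟨χ.cast harc.symm harc.symm, ?_, ?_, fun h0 => absurd hb h0, fun _ => ?_, ?_⟩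
      · show χ.toFun _ = _
        have := hχ' 0 (by norm_num)
        rw [GB1.rep_zero (by norm_num), zero_smul, add_zero] at this
        rw [hy0]; exact this
      · show χ.toFun _ = _
        have := hχ' 1 (by norm_num)
        rw [GB1.rep_one (by norm_num) (by norm_num), one_smul] at this
        rw [hy1]; exact this
      · show h (χ.toFun _) = _
        have h1 := hχ' (1 / 2) (by norm_num)
        rw [GB1.rep_self (by norm_num), ← hxr'] at h1
        have h2 : p b = pt v N a + (1 / 2 : ℝ) • d := by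
          rw [hp b a l hba hcr, hd, smul_smul]
          unfold Cell.mid
          congr 2
          ring
        rw [h2, h1, hxy]
      · intro a' l' h1 _
        obtain ⟨rfl, rfl⟩ := edge_inj (h1.symm.trans hba)
        exact ⟨r, hr1, hχ'⟩
    · have hcs : ConicalSet (K.arc b) := (K.ball b).conicalSet
      refine ⟨ConHomeo.refl hcs, rfl, rfl, fun _ _ _ => rfl, fun h0 => absurd h0 hb, ?_⟩
      intro a l h1 h2
      exact absurd ⟨a, l, h1, h2⟩ hb
  choose χ h1 h2 h3 h4 h5 using hex
  exact ⟨χ, fun t => ⟨fun b => h1 t b, fun b => h2 t b, fun b hb => h3 t b hb,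
    fun b hb => h4 t b hb, fun b a l hb hc => h5 t b a l hb hc⟩⟩

end P073.PL.M73
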