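import Vale.Agent.P073.PL.Spec
import Vale.Agent.P073.GBM.CellNear

/-!
# P073, block SpecPlate: the normalised situation `Near2` from `PlateHyp`
-/

open Set Metric Topology Filter MeasureTheory
open scoped ENNReal NNReal

namespace P073.PL

open P073 P073.PR720 P073.GB73 P073.GBM P073.Gauge P073.GB1W P073.Cell P073.Plate
open Vale.Agent.P073.St (V)
open Vale.Agent.P073.AB
open Vale.Agent.P073.SQ (ev)
open P073.Net (dyc dyo)

namespace N527

/-- the fine index of the plane -/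
theorem zeta_div (n₂ k₁ k₀ : ℕ) (a : ℤ) :
    ((a * 2 ^ (k₁ + k₀) : ℤ) : ℝ) / 2 ^ (gN n₂ k₁ k₀) = a / 2 ^ n₂ := by
  have h1 : (2:ℝ) ^ (gN n₂ k₁ k₀) = 2 ^ n₂ * 2 ^ (k₁ + k₀) := by
    show (2:ℝ) ^ (n₂ + k₁ + k₀) = _
    rw [add_assoc, pow_add]
  have h2 : (2:ℝ) ^ (k₁ + k₀) ≠ 0 := by positivity
  rw [h1]
  push_cast
  rw [mul_div_mul_right _ _ h2]

theorem ht_eq (v : V) (n₂ k₁ k₀ : ℕ) (z : Fin 3 → ℤ) (k : Fin 3) :
    ht v (gN n₂ k₁ k₀) k (z k * 2 ^ (k₁ + k₀)) = v k + z k / 2 ^ n₂ := by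
  unfold ht
  rw [zeta_div]

theorem llo_same (v : V) (n₂ : ℕ) (z : Fin 3 → ℤ) (k : Fin 3) (δ : ℝ) :
    llo v n₂ z k δ k = v k + z k / 2 ^ n₂ - δ := if_pos rfl

theorem lhi_same (v : V) (n₂ : ℕ) (z : Fin 3 → ℤ) (k : Fin 3) (δ : ℝ) :
    lhi v n₂ z k δ k = v k + z k / 2 ^ n₂ + δ := if_pos rfl

theorem llo_ne (v : V) (n₂ : ℕ) (z : Fin 3 → ℤ) (k : Fin 3) (δ : ℝ) {i : Fin 3} (hi : i ≠ k) :
    llo v n₂ z k δ i = v i + z i / 2 ^ n₂ := if_neg hi

theorem lhi_ne (v : V) (n₂ : ℕ) (z : Fin 3 → ℤ) (k : Fin 3) (δ : ℝ) {i : Fin 3} (hi : i ≠ k) :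
    lhi v n₂ z k δ i = v i + (z i + 1) / 2 ^ n₂ := if_neg hi

/-- the square is in the lens -/
theorem squ_subset_lens {v : V} {n₂ : ℕ} {z : Fin 3 → ℤ} {k : Fin 3} {δ : ℝ} (hδ : 0 < δ) :
    squ v ((n₂, z), k) ⊆ Icc (llo v n₂ z k δ) (lhi v n₂ z k δ) := by
  rintro x ⟨h1, h2⟩
  refine ⟨fun i => ?_, fun i => ?_⟩
  · by_cases hi : i = k
    · subst hi; rw [llo_same]; simp only at h1; rw [h1]; linarith
    · rw [llo_ne _ _ _ _ _ hi]; exact (h2 i hi).1
  · by_cases hi : i = k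
    · subst hi; rw [lhi_same]; simp only at h1; rw [h1]; linarith
    · rw [lhi_ne _ _ _ _ _ hi]; exact (h2 i hi).2

/-- the edges of the plane in the lens are in the square -/
theorem edge_subset_squ_of {v : V} {n₂ k₁ k₀ : ℕ} {z w : Fin 3 → ℤ} {k l : Fin 3} {δ : ℝ}
    (hlk : l ≠ k) (hw : w k = z k * 2 ^ (k₁ + k₀))
    (h : edge v ((gN n₂ k₁ k₀, w), l) ⊆ Icc (llo v n₂ z k δ) (lhi v n₂ z k δ)) :
    edge v ((gN n₂ k₁ k₀, w), l) ⊆ squ v ((n₂, z), k) := by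
  intro x hx
  have h1 := (mem_edge.1 hx).1 k hlk.symm
  refine ⟨?_, fun i hi => ?_⟩
  · show x k = v k + z k / 2 ^ n₂
    rw [h1]
    unfold pt
    rw [hw, zeta_div]
  · have h2 := h hx
    have h3 := h2.1 i
    have h4 := h2.2 i
    rw [llo_ne _ _ _ _ _ hi] at h3
    rw [lhi_ne _ _ _ _ _ hi] at h4
    exact ⟨h3, h4⟩

/-- the region of the bodies -/
theorem mem_pbox_of_reg {v : V} {n₂ k₁ k₀ : ℕ} {z : Fin 3 → ℤ} {k : Fin 3} {δ : ℝ} {o y : V}
    {A : V ≃L[ℝ] V}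
    (h : Reg2 v (gN n₂ k₁ k₀) k (z k * 2 ^ (k₁ + k₀)) (llo v n₂ z k δ) (lhi v n₂ z k δ) o A y) :
    A.symm (y - o) ∈ pbox v ((n₂, z), k) (1 / 2 ^ (n₂ + k₁ + k₀)) (1 / 2 ^ (n₂ + k₁ + k₀)) := by
  obtain ⟨h1, h2⟩ := h
  rw [ht_eq] at h1
  refine ⟨h1, fun i hi => ?_⟩
  have h3 := h2 i hi
  rw [llo_ne _ _ _ _ _ hi, lhi_ne _ _ _ _ _ hi] at h3
  exact h3

end N527

open N527

/-- **(NEAR2)** -/
theorem specNear2 : SpecNear2 := by
  intro hLa p θ M κ r k₁ k₀ n₂ Ω Λ v I T D z k A L h hp hθ hr hκ0 hκ hΩ hI hT H J' I' inc' qC' K' δ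
    cu cd hG hlat
  obtain ⟨AL, hAL, hAs⟩ := exists_equiv hθ H.below
  have hA : ∀ x, A x = A 0 + AL x := by
    intro x
    have := H.aff 0 x
    rw [hAL, ← sub_eq_iff_eq_add', this, sub_zero]
  set N := gN n₂ k₁ k₀ with hN
  set ζ := z k * 2 ^ (k₁ + k₀) with hζ
  have hd : (0:ℝ) < 1 / 2 ^ N := by positivity
  have hθi : 0 < θ⁻¹ := inv_pos.2 hθ
  have hδ : 0 < δ := by
    have := hlat.lt k
    rw [llo_same, lhi_same] at this
    linarith
  obtain ⟨hin, hφ⟩ := hLa Ω v I T D n₂ k₁ k₀ z k hΩ hI hT H.lone H.fine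
  have harc : ∀ b, K'.arc b = D.K.arc b := fun b => congrArg (fun G => Graph.arc G b) hG
  have hy : ∀ u, K'.y u = D.K.y u := fun u => congrArg (fun G => Graph.y G u) hG
  have heb : ∀ b s, eb K'.toGraph b s = eb D.K.toGraph b s := fun b s => by rw [hG]
  have hyy0 : ∀ b w l, K'.arc b = edge v ((N, w), l) → D.K.y (D.e0 b) = pt v N w := by
    intro b w l hb
    rw [D.y0 b, hφ b w l ((harc b).symm.trans hb)]
  have hyy1 : ∀ b w l, K'.arc b = edge v ((N, w), l) →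
      D.K.y (D.e1 b) = pt v N w + (1 / 2 ^ N : ℝ) • ev l := by
    intro b w l hb
    rw [D.y1 b, hφ b w l ((harc b).symm.trans hb)]
  have hown : ∀ w l, l ≠ k → w k = ζ → edge v ((N, w), l) ⊆ Icc (llo v n₂ z k δ) (lhi v n₂ z k δ) →
      (∀ x ∈ edge v ((N, w), l), ‖h.toFun x - A x‖ ≤ κ / 2 ^ N) ∧
      dvar p h.toFun v ((N, w), l) (L ((1 / 2 ^ N : ℝ) • ev l)) ≤
        ENNReal.ofReal (κ * (1 / 2 ^ N) ^ p) := fun w l hl hw hs =>
    H.own ((N, w), l) rfl (edge_subset_squ_of hl hw hs)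
  refine ⟨AL, hAL, hAs, hA, hlat, fun b w l hb => ?_, fun b w l hb => ?_, ?_, ?_, ?_, ?_, ?_, ?_, ?_⟩
  · rw [hy]; exact hyy0 b w l hb
  · rw [hy]; exact hyy1 b w l hb
  · intro b w l hb
    have hsub : D.K.arc b ⊆ Ω := by
      obtain ⟨j, hj⟩ := D.K.arc_tile b
      obtain ⟨c, hc⟩ : ∃ c, D.qC j c := by
        obtain ⟨c, d, -, h1⟩ := D.K.two j
        exact ⟨c, (h1 c).2 (Or.inl rfl)⟩
      have h1 : D.K.tile j ⊆ D.K.cell c :=
        (subset_biUnion_of_mem (u := fun s => D.K.tile s) (show j ∈ {s | D.qC s c} from hc)).trans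
          (D.K.cball c).1
      exact ((D.K.toCx2.arc_subset_tile hj).trans h1).trans
        ((subset_iUnion D.K.cell c).trans D.K.cover.subset)
    have hseg : ∀ t ∈ Icc (0:ℝ) 1, D.K.y (D.e0 b) + t • (D.K.y (D.e1 b) - D.K.y (D.e0 b)) ∈ Ω := by
      intro t ht
      apply hsub
      rw [← harc, hb, hyy0 b w l hb, hyy1 b w l hb]
      unfold edge
      rw [segment_eq_image']
      exact ⟨t, ht, rfl⟩
    have h1 := (specLin Ω Λ h _ _ hΩ hseg).2.2
    simp only [heb]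
    exact h1
  · intro w l hl hw hs x hx
    have h1 := (hown w l hl hw hs).1 x hx
    have h2 : AL.symm (h.toFun x - A 0) - x = AL.symm (h.toFun x - A x) := by
      rw [hA x, ← sub_sub, map_sub AL.symm (h.toFun x - A 0), AL.symm_apply_apply]
    rw [h2]
    refine (hAs _).trans ?_
    rw [mul_div_assoc]
    exact mul_le_mul_of_nonneg_left h1 hθi.le
  · intro b w l hl hw hb hs
    have h1 := (hown w l hl hw hs).2
    have hy0 := hyy0 b w l hb
    have hy1 := hyy1 b w l hb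
    simp only [heb, hy]
    have hg : (fun s => h.toFun (gam v ((N, w), l) s)) = fun s => h.toFun (eb D.K.toGraph b s) := by
      funext s
      unfold gam eb
      simp only
      rw [hy0, hy1, add_sub_cancel_left]
    have h2 : ∫⁻ t in Icc (0:ℝ) 1, ENNReal.ofReal
        (‖deriv (fun s => h.toFun (eb D.K.toGraph b s)) t - L ((1 / 2 ^ N : ℝ) • ev l)‖ ^ p) ≤
        ENNReal.ofReal (κ * (1 / 2 ^ N) ^ p) := by
      rw [← hg]; exact h1
    have h3 := lintegral_le_of_rpow hp hd hr hκ0 hκ (fun t => norm_nonneg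
      (deriv (fun s => h.toFun (eb D.K.toGraph b s)) t - L ((1 / 2 ^ N : ℝ) • ev l))) h2
    calc ∫⁻ s in Icc (0:ℝ) 1, ENNReal.ofReal
          ‖AL.symm (deriv (fun s => h.toFun (eb D.K.toGraph b s)) s) -
            (D.K.y (D.e1 b) - D.K.y (D.e0 b))‖
        ≤ ∫⁻ s in Icc (0:ℝ) 1, ENNReal.ofReal θ⁻¹ * ENNReal.ofReal
          ‖deriv (fun s => h.toFun (eb D.K.toGraph b s)) s - L ((1 / 2 ^ N : ℝ) • ev l)‖ := by
          refine lintegral_mono fun s => ?_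
          rw [← ENNReal.ofReal_mul hθi.le]
          refine ENNReal.ofReal_le_ofReal ?_
          rw [hy0, hy1, add_sub_cancel_left]
          have h4 : AL.symm (deriv (fun s => h.toFun (eb D.K.toGraph b s)) s) -
              (1 / 2 ^ N : ℝ) • ev l =
              AL.symm (deriv (fun s => h.toFun (eb D.K.toGraph b s)) s -
                L ((1 / 2 ^ N : ℝ) • ev l)) := by
            rw [← hAL, map_sub AL.symm, AL.symm_apply_apply]
          rw [h4]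
          exact hAs _
      _ = ENNReal.ofReal θ⁻¹ * ∫⁻ s in Icc (0:ℝ) 1, ENNReal.ofReal
          ‖deriv (fun s => h.toFun (eb D.K.toGraph b s)) s - L ((1 / 2 ^ N : ℝ) • ev l)‖ :=
          lintegral_const_mul' _ _ ENNReal.ofReal_ne_top
      _ ≤ ENNReal.ofReal θ⁻¹ * ENNReal.ofReal (2 * r * (1 / 2 ^ N)) := by gcongr
      _ = _ := by
          rw [← ENNReal.ofReal_mul hθi.le]
          congr 1; ring
  · intro b
    by_cases hb : D.K.arc b ⊆ squ v ((n₂, z), k)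
    · left
      obtain ⟨w, l, hl, hw, hbw⟩ := hin b hb
      have harcb : D.K.arc b = edge v ((N, w), l) := by rw [D.arc b, hbw]
      refine ⟨w, l, hl, hw, (harc b).trans harcb, ?_⟩
      rw [← harcb]
      exact hb.trans (squ_subset_lens hδ)
    · right
      intro x hx hxx
      rw [harc, D.arc b] at hx
      rw [D.arc b] at hb
      refine H.foreign (D.φ b) (D.edgeOf b) hb x hx ⟨AL.symm (h.toFun x - A 0),
        mem_pbox_of_reg hxx, ?_⟩
      rw [hA, AL.apply_symm_apply]; abel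
  · intro y hyR
    apply H.inside
    refine ⟨AL.symm (y - A 0), mem_pbox_of_reg hyR, ?_⟩
    rw [hA, AL.apply_symm_apply]; abel
  · positivity
  · positivity

end P073.PL
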