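import Vale.Agent.P073.PL.Face937
import Vale.Agent.P073.GBM.PatProof

/-!
# P073, block PLATE: the crossed edges form a pattern (SpecPat2)
-/

open Set Metric Topology Filter

namespace P073.PL.Pat937

open P073 P073.PR720 P073.GB73 P073.GBM P073.Cell P073.PL
open Vale.Agent.P073.St (V)
open Vale.Agent.P073.AB (pt edge squ EdgeOfSq)
open Vale.Agent.P073.SQ (ev)
open P073.Net (dyc)

section comb

variable {k : Fin 3} {ζ : ℤ} {α β : Fin 3 → ℤ}

/-- the plane as a layer -/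
def la (k : Fin 3) (ζ : ℤ) (α : Fin 3 → ℤ) : Fin 3 → ℤ := Function.update α k (ζ - 1)

/-- the plane as a layer -/
def lb (k : Fin 3) (ζ : ℤ) (β : Fin 3 → ℤ) : Fin 3 → ℤ := Function.update β k ζ

theorem la_lt_lb (hαβ : ∀ i, i ≠ k → α i < β i) (i : Fin 3) : la k ζ α i < lb k ζ β i := by
  unfold la lb
  by_cases hi : i = k
  · subst hi; rw [Function.update_self, Function.update_self]; omega
  · rw [Function.update_of_ne hi, Function.update_of_ne hi]; exact hαβ i hi

theorem cross2_iff {w : Fin 3 → ℤ} {l : Fin 3} :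
    Cross2 k ζ α β w l ↔ l ≠ k ∧ CrossZ (la k ζ α) (lb k ζ β) w l := by
  unfold Cross2 CrossZ la lb
  constructor
  · rintro ⟨h1, h2, h3, h4⟩
    refine ⟨h1, ?_, fun j hj => ?_⟩
    · rw [Function.update_of_ne h1, Function.update_of_ne h1]; exact h3
    · by_cases hjk : j = k
      · subst hjk; rw [Function.update_self, Function.update_self]; omega
      · rw [Function.update_of_ne hjk, Function.update_of_ne hjk]; exact h4 j hj hjk
  · rintro ⟨h1, h3, h4⟩
    rw [Function.update_of_ne h1, Function.update_of_ne h1] at h3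
    refine ⟨h1, ?_, h3, fun j hj hjk => ?_⟩
    · have := h4 k (Ne.symm h1)
      rw [Function.update_self, Function.update_self] at this
      omega
    · have := h4 j hj
      rw [Function.update_of_ne hjk, Function.update_of_ne hjk] at this
      exact this

/-- two crossed lattice edges in a common planar square -/
def Adj2 (k : Fin 3) (ζ : ℤ) (α β : Fin 3 → ℤ) (e e' : (Fin 3 → ℤ) × Fin 3) : Prop :=
  Cross2 k ζ α β e.1 e.2 ∧ Cross2 k ζ α β e'.1 e'.2 ∧
    ∃ z : Fin 3 → ℤ, z k = ζ ∧ EdgeOfSq ((0, e.1), e.2) ((0, z), k) ∧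
      EdgeOfSq ((0, e'.1), e'.2) ((0, z), k)

theorem Adj2.symm {e e' : (Fin 3 → ℤ) × Fin 3} (h : Adj2 k ζ α β e e') : Adj2 k ζ α β e' e := by
  obtain ⟨h1, h2, z, hz, h3, h4⟩ := h
  exact ⟨h2, h1, z, hz, h4, h3⟩

/-- the third direction -/
theorem third {k l : Fin 3} (h : l ≠ k) : ∃ m, m ≠ k ∧ m ≠ l ∧ ∀ j, j = l ∨ j = m ∨ j = k := by
  revert k l; decide

theorem cross2_top (hαβ : ∀ i, i ≠ k → α i < β i) {l : Fin 3} (hl : l ≠ k) :
    Cross2 k ζ α β (lb k ζ β) l := by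
  rw [cross2_iff]
  exact ⟨hl, crossZ_top (la_lt_lb hαβ) l⟩

theorem adj_step {w : Fin 3 → ℤ} {l m : Fin 3} (hml : m ≠ l) (hmk : m ≠ k)
    (hall : ∀ j, j = l ∨ j = m ∨ j = k)
    (h : Cross2 k ζ α β w l) (hm : w m < β m) :
    Cross2 k ζ α β (Function.update w m (w m + 1)) l ∧
      Adj2 k ζ α β (w, l) (Function.update w m (w m + 1), l) := by
  have h1 : Cross2 k ζ α β (Function.update w m (w m + 1)) l := by
    refine ⟨h.1, by rw [Function.update_of_ne (Ne.symm hmk)]; exact h.2.1,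
      by rw [Function.update_of_ne (Ne.symm hml)]; exact h.2.2.1, fun j hj hjk => ?_⟩
    by_cases hjm : j = m
    · subst hjm
      rw [Function.update_self]
      have := h.2.2.2 j hj hjk
      omega
    · rw [Function.update_of_ne hjm]; exact h.2.2.2 j hj hjk
  refine ⟨h1, h, h1, w, h.2.1, ⟨rfl, h.1, rfl, rfl, fun j _ _ => Or.inl rfl⟩,
    ⟨rfl, h.1, ?_, ?_, fun j hj1 hj2 => ?_⟩⟩
  · simp only [Function.update_of_ne (Ne.symm hml)]
  · simp only [Function.update_of_ne (Ne.symm hmk)]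
  · simp only at hj1 hj2 ⊢
    rcases hall j with h3 | h3 | h3
    · exact absurd h3 hj1
    · subst h3; rw [Function.update_self]; exact Or.inr rfl
    · exact absurd h3 hj2

theorem adj_turn {w : Fin 3 → ℤ} {l m : Fin 3} (hαβ : ∀ i, i ≠ k → α i < β i) (hml : m ≠ l)
    (hmk : m ≠ k) (hall : ∀ j, j = l ∨ j = m ∨ j = k)
    (h : Cross2 k ζ α β w l) (hl : w l = α l) (hm : w m = β m) :
    Cross2 k ζ α β (Function.update w l (w l + 1)) m ∧
      Adj2 k ζ α β (w, l) (Function.update w l (w l + 1), m) := by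
  have h1 : Cross2 k ζ α β (Function.update w l (w l + 1)) m := by
    refine ⟨hmk, by rw [Function.update_of_ne (Ne.symm h.1)]; exact h.2.1,
      by rw [Function.update_of_ne hml]; exact Or.inr hm, fun j hj hjk => ?_⟩
    rcases hall j with h3 | h3 | h3
    · subst h3
      rw [Function.update_self, hl]
      have := hαβ j hjk
      omega
    · exact absurd h3 hj
    · exact absurd h3 hjk
  refine ⟨h1, h, h1, w, h.2.1, ⟨rfl, h.1, rfl, rfl, fun j _ _ => Or.inl rfl⟩,
    ⟨rfl, hmk, ?_, ?_, fun j hj1 hj2 => ?_⟩⟩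
  · simp only [Function.update_of_ne hml]
  · simp only [Function.update_of_ne (Ne.symm h.1)]
  · simp only at hj1 hj2 ⊢
    rcases hall j with h3 | h3 | h3
    · subst h3; rw [Function.update_self]; exact Or.inr rfl
    · exact absurd h3 hj1
    · exact absurd h3 hj2

theorem adj_top (hαβ : ∀ i, i ≠ k → α i < β i) {l m : Fin 3} (hl : l ≠ k) (hm : m ≠ k) :
    Adj2 k ζ α β (lb k ζ β, l) (lb k ζ β, m) :=
  ⟨cross2_top hαβ hl, cross2_top hαβ hm, lb k ζ β, by unfold lb; rw [Function.update_self],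
    ⟨rfl, hl, rfl, rfl, fun _ _ _ => Or.inl rfl⟩, ⟨rfl, hm, rfl, rfl, fun _ _ _ => Or.inl rfl⟩⟩

theorem conn_top (hαβ : ∀ i, i ≠ k → α i < β i) {l₀ : Fin 3} (hl₀ : l₀ ≠ k) (N : ℕ) :
    ∀ (w : Fin 3 → ℤ) (l : Fin 3), Cross2 k ζ α β w l → ∑ j, (lb k ζ β j - w j) = N →
    Relation.ReflTransGen (Adj2 k ζ α β) (w, l) (lb k ζ β, l₀) := by
  induction N using Nat.strong_induction_on with
  | _ N ih =>
    intro w l h hN
    have hle := crossZ_le (la_lt_lb hαβ) (cross2_iff.1 h).2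
    have hsum : ∀ m, ∑ j, (lb k ζ β j - (Function.update w m (w m + 1)) j) =
        ∑ j, (lb k ζ β j - w j) - 1 := by
      intro m
      have : ∀ j, lb k ζ β j - (Function.update w m (w m + 1)) j =
          (lb k ζ β j - w j) - (if j = m then 1 else 0) := by
        intro j
        by_cases hj : j = m
        · subst hj; rw [Function.update_self, if_pos rfl]; ring
        · rw [Function.update_of_ne hj, if_neg hj]; ring
      rw [Finset.sum_congr rfl (fun j _ => this j), Finset.sum_sub_distrib]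
      simp
    have hpos : ∀ m, w m < lb k ζ β m → 1 ≤ ∑ j, (lb k ζ β j - w j) := by
      intro m hm
      have h1 : lb k ζ β m - w m ≤ ∑ j, (lb k ζ β j - w j) :=
        Finset.single_le_sum (f := fun j => lb k ζ β j - w j) (fun j _ => sub_nonneg.2 (hle j))
          (Finset.mem_univ m)
      omega
    obtain ⟨m, hmk, hml, hall⟩ := third h.1
    have hbm : lb k ζ β m = β m := by unfold lb; rw [Function.update_of_ne hmk]
    have hbl : lb k ζ β l = β l := by unfold lb; rw [Function.update_of_ne h.1]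
    by_cases hA : w m < β m
    · obtain ⟨h1, h2⟩ := adj_step hml hmk hall h hA
      have h3 := hpos m (by rw [hbm]; exact hA)
      refine Relation.ReflTransGen.head h2 (ih (N - 1) (by omega) _ _ h1 ?_)
      rw [hsum, hN]
      omega
    · have hm : w m = β m := le_antisymm (hbm ▸ hle m) (not_lt.1 hA)
      by_cases hl : w l = β l
      · have hw : w = lb k ζ β := by
          funext j
          rcases hall j with rfl | rfl | rfl
          · rw [hbl]; exact hl
          · rw [hbm]; exact hm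
          · unfold lb; rw [Function.update_self]; exact h.2.1
        subst hw
        exact Relation.ReflTransGen.single (adj_top hαβ h.1 hl₀)
      · have hl' : w l = α l := h.2.2.1.resolve_right hl
        obtain ⟨h1, h2⟩ := adj_turn hαβ hml hmk hall h hl' hm
        have h3 := hpos l (by rw [hl', hbl]; exact hαβ l h.1)
        refine Relation.ReflTransGen.head h2 (ih (N - 1) (by omega) _ _ h1 ?_)
        rw [hsum, hN]
        omega

theorem conn_all (hαβ : ∀ i, i ≠ k → α i < β i) {w w' : Fin 3 → ℤ} {l l' : Fin 3}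
    (h : Cross2 k ζ α β w l) (h' : Cross2 k ζ α β w' l') :
    Relation.ReflTransGen (Adj2 k ζ α β) (w, l) (w', l') := by
  obtain ⟨l₀, hl₀⟩ : ∃ l₀ : Fin 3, l₀ ≠ k := exists_ne k
  have key : ∀ (w : Fin 3 → ℤ) (l : Fin 3), Cross2 k ζ α β w l →
      Relation.ReflTransGen (Adj2 k ζ α β) (w, l) (lb k ζ β, l₀) := by
    intro w l h
    have hnn : 0 ≤ ∑ j, (lb k ζ β j - w j) :=
      Finset.sum_nonneg fun j _ => sub_nonneg.2 (crossZ_le (la_lt_lb hαβ) (cross2_iff.1 h).2 j)
    exact conn_top hαβ hl₀ (∑ j, (lb k ζ β j - w j)).toNat w l h (Int.toNat_of_nonneg hnn).symm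
  have : Std.Symm (Adj2 k ζ α β) := ⟨fun _ _ h => h.symm⟩
  have hs : Std.Symm (Relation.ReflTransGen (Adj2 k ζ α β)) := Relation.ReflTransGen.stdSymm
  exact (key w l h).trans (hs.symm _ _ (key w' l' h'))

/-- a planar square has none or two crossed edges -/
theorem two_crossed2 (hαβ : ∀ i, i ≠ k → α i < β i) (n : ℕ) (z : Fin 3 → ℤ) :
    {e : (Fin 3 → ℤ) × Fin 3 | Cross2 k ζ α β e.1 e.2 ∧ EdgeOfSq ((n, e.1), e.2) ((n, z), k)} = ∅ ∨
    ∃ e e', e ≠ e' ∧
      {e : (Fin 3 → ℤ) × Fin 3 | Cross2 k ζ α β e.1 e.2 ∧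
        EdgeOfSq ((n, e.1), e.2) ((n, z), k)} = {e, e'} := by
  have : {e : (Fin 3 → ℤ) × Fin 3 | Cross2 k ζ α β e.1 e.2 ∧
      EdgeOfSq ((n, e.1), e.2) ((n, z), k)} =
      {e : (Fin 3 → ℤ) × Fin 3 | CrossZ (la k ζ α) (lb k ζ β) e.1 e.2 ∧
        EdgeOfSq ((n, e.1), e.2) ((n, z), k)} := by
    ext e
    rw [mem_ofPred_eq, mem_ofPred_eq, cross2_iff]
    constructor
    · rintro ⟨⟨-, h1⟩, h2⟩; exact ⟨h1, h2⟩
    · rintro ⟨h1, h2⟩; exact ⟨⟨h2.2.1, h1⟩, h2⟩
  rw [this]
  exact two_crossed (la_lt_lb hαβ) n z k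

end comb

variable {Vx B J I : Type} {e0 e1 : B → Vx} {inc : B → J → Prop} {qC : J → I → Prop} {Ω : Set V}
  {K : Cx3 e0 e1 inc qC Ω} {v : V} {n : ℕ} {U : Set V} {α β : Fin 3 → ℤ}

end P073.PL.Pat937

namespace P073.PL

open P073 P073.PR720 P073.GB73 P073.GBM P073.Cell P073.PL P073.PL.Pat937
open Vale.Agent.P073.St (V)
open Vale.Agent.P073.AB (pt edge squ EdgeOfSq)

theorem specPat2' : SpecPat2 := by
  intro Vx B J I e0 e1 inc qC Ω K v n k ζ q0 q1 cu cd L α β hin
  have hαβ : ∀ i, i ≠ k → α i < β i := fun i hi => (hin i hi).1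
  constructor
  · -- finite
    have h1 : cr2 K v n k ζ α β ⊆ ⋃ e ∈ {e : (Fin 3 → ℤ) × Fin 3 |
        CrossZ (la k ζ α) (lb k ζ β) e.1 e.2}, {b | K.arc b = edge v ((n, e.1), e.2)} := by
      rintro b ⟨z, l, h, hc⟩
      exact mem_biUnion (show (z, l) ∈ {e : (Fin 3 → ℤ) × Fin 3 |
        CrossZ (la k ζ α) (lb k ζ β) e.1 e.2} from (cross2_iff.1 hc).2) h
    refine ((finite_crossZ (la_lt_lb hαβ)).biUnion fun e _ => ?_).subset h1
    apply Set.Subsingleton.finite
    intro b hb b' hb'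
    exact arc_injective K (Eq.trans hb (Eq.symm hb'))
  · obtain ⟨l₀, hl₀⟩ : ∃ l₀ : Fin 3, l₀ ≠ k := exists_ne k
    obtain ⟨b, hb⟩ := exists_arc2 L hin (cross2_top hαβ hl₀)
    exact ⟨b, lb k ζ β, l₀, hb, cross2_top hαβ hl₀⟩
  · -- none or two
    intro j
    by_cases hne : {b | inc b j ∧ b ∈ cr2 K v n k ζ α β} = ∅
    · exact Or.inl hne
    right
    obtain ⟨b₀, hb₀j, hb₀⟩ := nonempty_iff_ne_empty.2 hne
    obtain ⟨a₀, l₀, hba, hca⟩ := id hb₀
    obtain ⟨z, hzk, hj⟩ := L.tile j ⟨_, K.toCx2.arc_subset_tile hb₀j (hba ▸ mid_mem_edge),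
      mid_mem_int L hin hca⟩
    have key : ∀ b, (inc b j ∧ b ∈ cr2 K v n k ζ α β) ↔
        ∃ e ∈ {e : (Fin 3 → ℤ) × Fin 3 | Cross2 k ζ α β e.1 e.2 ∧
          EdgeOfSq ((n, e.1), e.2) ((n, z), k)}, K.arc b = edge v ((n, e.1), e.2) := by
      intro b
      constructor
      · rintro ⟨h1, w, l, h3, h4⟩
        exact ⟨(w, l), ⟨h4, (Lat.inc_iff_edgeOfSq h3 hj).1 h1⟩, h3⟩
      · rintro ⟨⟨w, l⟩, ⟨h1, h2⟩, h3⟩
        exact ⟨(Lat.inc_iff_edgeOfSq h3 hj).2 h2, w, l, h3, h1⟩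
    rcases two_crossed2 (ζ := ζ) hαβ n z with h | ⟨e, e', hee, h⟩
    · exfalso
      obtain ⟨e, he, -⟩ := (key b₀).1 ⟨hb₀j, hb₀⟩
      rw [h] at he
      exact he
    · have he : e ∈ {e : (Fin 3 → ℤ) × Fin 3 | Cross2 k ζ α β e.1 e.2 ∧
          EdgeOfSq ((n, e.1), e.2) ((n, z), k)} := by rw [h]; exact Or.inl rfl
      have he' : e' ∈ {e : (Fin 3 → ℤ) × Fin 3 | Cross2 k ζ α β e.1 e.2 ∧
          EdgeOfSq ((n, e.1), e.2) ((n, z), k)} := by rw [h]; exact Or.inr rfl
      obtain ⟨b, hb⟩ := exists_arc2 L hin he.1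
      obtain ⟨b', hb'⟩ := exists_arc2 L hin he'.1
      refine ⟨b, b', ?_, ?_⟩
      · rintro rfl
        obtain ⟨h1, h2⟩ := edge_inj (hb.symm.trans hb')
        exact hee (Prod.ext h1 h2)
      · ext c
        rw [mem_ofPred_eq, key c, h]
        constructor
        · rintro ⟨e'', he'', hc⟩
          rcases he'' with rfl | he''
          · exact Or.inl (arc_injective K (hc.trans hb.symm))
          · rw [mem_singleton_iff] at he''
            subst he''
            exact Or.inr (arc_injective K (hc.trans hb'.symm))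
        · rintro (rfl | hc)
          · exact ⟨e, Or.inl rfl, hb⟩
          · rw [mem_singleton_iff] at hc
            subst hc
            exact ⟨e', Or.inr rfl, hb'⟩
  · -- connected
    rintro b ⟨w, l, h1, h2⟩ b' ⟨w', l', h1', h2'⟩
    have key : ∀ e', Relation.ReflTransGen (Adj2 k ζ α β) (w, l) e' → ∀ b',
        K.arc b' = edge v ((n, e'.1), e'.2) →
        Relation.ReflTransGen (fun b b' => b' ∈ cr2 K v n k ζ α β ∧
          ∃ j, inc b j ∧ inc b' j) b b' := by
      intro e' h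
      induction h with
      | refl =>
        intro b' hb'
        rw [arc_injective K (hb'.trans h1.symm)]
      | @tail e₁ e₂ _ hadj ih =>
        intro b₂ hb₂
        obtain ⟨c1, c2, z, hzk, g1, g2⟩ := hadj
        obtain ⟨b₁, hb₁⟩ := exists_arc2 L hin c1
        have g1' : EdgeOfSq ((n, e₁.1), e₁.2) ((n, z), k) := ⟨rfl, g1.2⟩
        have g2' : EdgeOfSq ((n, e₂.1), e₂.2) ((n, z), k) := ⟨rfl, g2.2⟩
        have hmeet : (squ v ((n, z), k) ∩ interior (Icc q0 q1)).Nonempty :=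
          ⟨_, edge_subset_squ.2 g1' mid_mem_edge, mid_mem_int L hin c1⟩
        obtain ⟨j, hj⟩ := L.tile' z hzk hmeet
        exact (ih b₁ hb₁).tail ⟨⟨e₂.1, e₂.2, hb₂, c2⟩, j,
          (Lat.inc_iff_edgeOfSq hb₁ hj).2 g1', (Lat.inc_iff_edgeOfSq hb₂ hj).2 g2'⟩
    exact key (w', l') (conn_all hαβ h2 h2') b' h1'

end P073.PL
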