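import Vale.Agent.P073.PL.Spec
import Vale.Agent.P073.GBM.S371

/-!
# P073, block SpecPlate: separation of the bodies (`SpecS1'`, `SpecS2'`) and the rim (`SpecRim`)
-/

open Set Metric Topology Filter

namespace P073.PL

open P073 P073.PR720 P073.GB73 P073.GBM P073.Gauge P073.GB1W P073.Cell P073.Plate
open Vale.Agent.P073.St (V)
open Vale.Agent.P073.AB
open Vale.Agent.P073.SQ (ev)
open P073.Net (dyc dyo)

namespace S200

variable {Vx B J I : Type} {e0 e1 : B → Vx} {inc : B → J → Prop} {qC : J → I → Prop} {Ω : Set V}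
  {K : Cx3 e0 e1 inc qC Ω} {Λ : Set V} {h : V → V} {v : V} {N : ℕ} {k : Fin 3} {ζ : ℤ}
  {q0 q1 o : V} {A : V ≃L[ℝ] V} {μ η : ℝ} {cu cd : I} {α β : Fin 3 → ℤ}

theorem exists_edge2 (L : Lat2 K v N k ζ q0 q1 cu cd) (hR : RectIn v N k q0 q1 α β) {a : Fin 3 → ℤ}
    {i : Fin 3} (hc : Cross2 k ζ α β a i) : ∃ b, K.arc b = edge v ((N, a), i) := by
  obtain ⟨hik, hak, hai, haj⟩ := hc
  have hε : (0:ℝ) < 1 / 2 ^ N := by positivity
  refine L.arc' a i hik hak ⟨fun j => if j = i then pt v N a i + 1 / 2 * (1 / 2 ^ N) else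
    pt v N a j, ?_, ?_⟩
  · rw [mem_edge]
    refine ⟨fun j hj => if_neg hj, ?_⟩
    simp only [if_true]
    constructor <;> linarith
  · rw [interior_Icc_pi']
    have hmono : ∀ (γ δ : Fin 3 → ℤ) (j : Fin 3), γ j ≤ δ j → pt v N γ j ≤ pt v N δ j := by
      intro γ δ j hj
      simp only [pt]
      have : (γ j : ℝ) ≤ δ j := by exact_mod_cast hj
      gcongr
    have hmono' : ∀ (γ δ : Fin 3 → ℤ) (j : Fin 3), γ j < δ j → pt v N γ j < pt v N δ j := by
      intro γ δ j hj
      simp only [pt]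
      have : (γ j : ℝ) < δ j := by exact_mod_cast hj
      gcongr
    intro j
    by_cases hji : j = i
    · rw [hji]
      simp only [if_true]
      obtain ⟨h1, h2, h3⟩ := hR i hik
      rcases hai with h | h
      · have e1 := hmono α a i h.ge
        have e2 := hmono' a β i (by rw [h]; exact h1)
        constructor <;> linarith
      · have e1 := hmono' α a i (by rw [h]; exact h1)
        have e2 := hmono a β i h.le
        constructor <;> linarith
    · simp only [if_neg hji]
      by_cases hjk : j = k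
      · rw [hjk]
        have e1 : pt v N a k = ht v N k ζ := by simp only [pt, ht, hak]
        have e2 := L.mid
        have e3 := L.lt k
        rw [e1]
        constructor <;> linarith
      · obtain ⟨h1, h2, h3⟩ := hR j hjk
        have h4 := haj j hji hjk
        have e1 := hmono' α a j h4.1
        have e2 := hmono a β j h4.2
        constructor <;> linarith

/-- a crossed edge in direction `i` through the upper wall -/
theorem exists_top2 (L : Lat2 K v N k ζ q0 q1 cu cd) (hR : RectIn v N k q0 q1 α β) {i : Fin 3}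
    (hi : i ≠ k) : ∃ b a, K.arc b = edge v ((N, a), i) ∧ Cross2 k ζ α β a i ∧ a i = β i ∧
      b ∈ cr2 K v N k ζ α β := by
  have hc : Cross2 k ζ α β (Function.update β k ζ) i := by
    refine ⟨hi, Function.update_self _ _ _, Or.inr (Function.update_of_ne hi _ _), ?_⟩
    intro j _ hjk
    rw [Function.update_of_ne hjk]
    exact ⟨(hR j hjk).1, le_refl _⟩
  obtain ⟨b, hb⟩ := exists_edge2 L hR hc
  exact ⟨b, _, hb, hc, Function.update_of_ne hi _ _, ⟨_, _, hb, hc⟩⟩

/-- a crossed edge in direction `i` through the lower wall -/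
theorem exists_bot2 (L : Lat2 K v N k ζ q0 q1 cu cd) (hR : RectIn v N k q0 q1 α β) {i : Fin 3}
    (hi : i ≠ k) : ∃ b a, K.arc b = edge v ((N, a), i) ∧ Cross2 k ζ α β a i ∧ a i = α i ∧
      b ∈ cr2 K v N k ζ α β := by
  have hc : Cross2 k ζ α β (Function.update (Function.update β k ζ) i (α i)) i := by
    refine ⟨hi, ?_, Or.inl (Function.update_self _ _ _), ?_⟩
    · rw [Function.update_of_ne (Ne.symm hi), Function.update_self]
    · intro j hji hjk
      rw [Function.update_of_ne hji, Function.update_of_ne hjk]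
      exact ⟨(hR j hjk).1, le_refl _⟩
  obtain ⟨b, hb⟩ := exists_edge2 L hR hc
  exact ⟨b, _, hb, hc, Function.update_self _ _ _, ⟨_, _, hb, hc⟩⟩

theorem fw2_pos (N : ℕ) (k i : Fin 3) : 0 < fw2 N k i := by
  unfold fw2; split_ifs <;> positivity

end S200

open S200

/-- **(S1')** -/
theorem specS1' : SpecS1' := by
  intro Vx B J I e0 e1 inc qC Ω K Λ h v N k ζ q0 q1 o A μ η cu cd hN w w' T T' y' hw hw' hne hT hT'
    hR hpos t ht s hs
  have hε : (0:ℝ) < 1 / 2 ^ N := by positivity
  obtain ⟨ht1, ht2⟩ := hT ht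
  obtain ⟨hs1, hs2⟩ := hT' hs
  have ht0 : 0 < t := by linarith
  have hs0 : 0 < s := by linarith
  set ε : ℝ := 1 / 2 ^ N with hεd
  have hsc : ∀ (w : Fin 3 → ℤ) (j : Fin 3), j ≠ k → sc v N w k j = v j + (w j + 1 / 2) * ε :=
    fun w j hj => by simp only [sc, if_neg hj, hεd]; ring
  have hfw : ∀ j, j ≠ k → fw2 N k j = 9 / 4 * ε := fun j hj => by
    simp only [fw2, if_neg hj, hεd]; ring
  have hαβ : ∀ j, fa w' k j < fb w' j := fun j => by
    simp only [fa, fb]; split_ifs <;> omega
  -- the coordinate where the squares differ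
  obtain ⟨i, hik, hi⟩ : ∃ i, i ≠ k ∧ (sc v N w k i + ε ≤ sc v N w' k i ∨
      sc v N w' k i + ε ≤ sc v N w k i) := by
    obtain ⟨i, hi⟩ := Function.ne_iff.1 hne
    have hik : i ≠ k := by
      rintro rfl; exact hi (by rw [hw, hw'])
    refine ⟨i, hik, ?_⟩
    rw [hsc w i hik, hsc w' i hik]
    rcases lt_or_gt_of_ne hi with h | h
    · left
      have : (w i : ℝ) + 1 ≤ w' i := by exact_mod_cast h
      have := mul_le_mul_of_nonneg_right this hε.le
      linarith
    · right
      have : (w' i : ℝ) + 1 ≤ w i := by exact_mod_cast h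
      have := mul_le_mul_of_nonneg_right this hε.le
      linarith
  have hst : s * (9 / 4 * ε) ≤ 37 / 16 * ε := by nlinarith
  have hst' : 35 / 16 * ε ≤ s * (9 / 4 * ε) := by nlinarith
  have htt : t * (9 / 4 * ε) ≤ 37 / 16 * ε := by nlinarith
  have htt' : 35 / 16 * ε ≤ t * (9 / 4 * ε) := by nlinarith
  have hX : (fBody2 v N k o A w' T').at s = aff o A ''
      Icc (fun j => sc v N w' k j - s * fw2 N k j) (fun j => sc v N w' k j + s * fw2 N k j) :=
    at_Icc hs0
  have hY : (fBody2 v N k o A w T).at t = aff o A ''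
      Icc (fun j => sc v N w k j - t * fw2 N k j) (fun j => sc v N w k j + t * fw2 N k j) :=
    at_Icc ht0
  have hin : ∀ y, y ∈ interior ((fBody2 v N k o A w T).at t) →
      |A.symm (y - o) i - sc v N w k i| < t * fw2 N k i := by
    intro y hy
    have h1 := (mem_interior_at ht0).1 hy i
    rw [symm_sub'] at h1
    exact h1
  refine ⟨?_, ?_⟩
  · rw [hX, hY]
    refine (sep_aff (fun j => ?_) ⟨i, ?_⟩).2
    · have := mul_pos hs0 (fw2_pos N k j)
      linarith
    · simp only [hfw i hik]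
      rcases hi with hi | hi
      · left
        constructor <;> linarith
      · right
        constructor <;> linarith
  · rcases hi with hi | hi
    · obtain ⟨b, a, hb, hc, hai, hbc⟩ := exists_top2 hN.lat hR hik
      refine ⟨b, hbc, fun hy => ?_⟩
      have h1 := (hpos s hs b a i hb hc).2.1
      rw [if_pos hai] at h1
      have h2 := hin _ hy
      rw [h1, hfw i hik] at h2
      have h3 := (abs_lt.1 h2).2
      linarith
    · obtain ⟨b, a, hb, hc, hai, hbc⟩ := exists_bot2 hN.lat hR hik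
      refine ⟨b, hbc, fun hy => ?_⟩
      have h1 := (hpos s hs b a i hb hc).2.1
      rw [if_neg (by rw [hai]; exact (hαβ i).ne)] at h1
      have h2 := hin _ hy
      rw [h1, hfw i hik] at h2
      have h3 := (abs_lt.1 h2).1
      linarith

namespace S200

/-- walls of the big body -/
theorem big_wall2 {N : ℕ} {k : Fin 3} {α β : Fin 3 → ℤ} {T : Set ℝ} (hT : BigT k α β T) {s : ℝ}
    (hs : s ∈ T) {j : Fin 3} (hj : j ≠ k) (hαβ : α j < β j) :
    |s * bw2 N k α β j - (β j - α j) / 2 * (1 / 2 ^ N)| ≤ 1 / 8 * (1 / 2 ^ N) := by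
  have hε : (0:ℝ) < 1 / 2 ^ N := by positivity
  have hj' : (0:ℝ) < (β j : ℝ) - α j := by
    have : (α j : ℝ) < β j := by exact_mod_cast hαβ
    linarith
  have e : s * bw2 N k α β j - (β j - α j) / 2 * (1 / 2 ^ N) =
      (s - 1) * (β j - α j) / 2 * (1 / 2 ^ N) := by
    simp only [bw2, if_neg hj]; ring
  rw [e, abs_mul, abs_of_pos hε]
  apply mul_le_mul_of_nonneg_right _ hε.le
  rw [abs_div, abs_mul, abs_of_pos (by norm_num : (0:ℝ) < 2), abs_of_pos hj']
  have h1 := (hT s hs).2 j hj
  linarith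

end S200

/-- **(S2')** -/
theorem specS2' : SpecS2' := by
  intro Vx B J I e0 e1 inc qC Ω K Λ h v N k ζ q0 q1 o A μ η cu cd hN α β w a l T T0 y0 h8 hwk hca
    hsub hT hT0 hR hpos t ht s hs
  have hε : (0:ℝ) < 1 / 2 ^ N := by positivity
  obtain ⟨ht1, ht2⟩ := hT ht
  have hs0 := (hT0 s hs).1
  have ht0 : 0 < t := by linarith
  have hlk : l ≠ k := hca.1
  have hwall := fun j (hj : j ≠ k) => big_wall2 (N := N) hT0 hs hj (hR j hj).1
  set ε : ℝ := 1 / 2 ^ N with hεd
  have hfw : ∀ j, j ≠ k → fw2 N k j = 9 / 4 * ε := fun j hj => by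
    simp only [fw2, if_neg hj, hεd]; ring
  have hbc : ∀ j, j ≠ k → bc2 v N k ζ α β j = v j + (α j + β j + 1) / 2 * ε := fun j hj => by
    simp only [bc2, if_neg hj, hεd]; ring
  have htt : t * (9 / 4 * ε) ≤ 37 / 16 * ε := by nlinarith
  have htt' : 35 / 16 * ε ≤ t * (9 / 4 * ε) := by nlinarith
  -- position of the square
  have hE := edge_subset_squ.1 hsub
  have hal : a l = w l := hE.2.2.1
  have hscl : sc v N w k l = v l + (a l + 1 / 2) * ε := by
    simp only [sc, if_neg hlk, hal, hεd]; ring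
  have h8l : (α l : ℝ) + 8 ≤ β l := by exact_mod_cast h8 l hlk
  have h8e : (α l + 8 : ℝ) * ε ≤ β l * ε := mul_le_mul_of_nonneg_right h8l hε.le
  have hX : (bigBody2 v N k ζ o A α β T0).at s = aff o A ''
      Icc (fun j => bc2 v N k ζ α β j - s * bw2 N k α β j)
        (fun j => bc2 v N k ζ α β j + s * bw2 N k α β j) := at_Icc hs0
  have hY : (fBody2 v N k o A w T).at t = aff o A ''
      Icc (fun j => sc v N w k j - t * fw2 N k j) (fun j => sc v N w k j + t * fw2 N k j) :=
    at_Icc ht0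
  have hin : ∀ y, y ∈ interior ((fBody2 v N k o A w T).at t) →
      |A.symm (y - o) l - sc v N w k l| < t * fw2 N k l := by
    intro y hy
    have h1 := (mem_interior_at ht0).1 hy l
    rw [symm_sub'] at h1
    exact h1
  obtain ⟨hw1, hw2⟩ := abs_le.1 (hwall l hlk)
  refine ⟨?_, ?_⟩
  · rw [hX, hY]
    refine (sep_aff (fun j => ?_) ⟨l, ?_⟩).2
    · have h5 : 0 < s * bw2 N k α β j := by
        by_cases hjk : j = k
        · have : 0 < bw2 N k α β j := by
            simp only [bw2, if_pos hjk]; positivity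
          exact mul_pos hs0 this
        · have hj : (α j : ℝ) + 8 ≤ β j := by exact_mod_cast h8 j hjk
          have h3 := (abs_le.1 (hwall j hjk)).1
          have h4 : (8:ℝ) / 2 * ε ≤ (β j - α j) / 2 * ε :=
            mul_le_mul_of_nonneg_right (by linarith) hε.le
          linarith
      linarith
    · simp only [hfw l hlk, hscl, hbc l hlk]
      rcases hca.2.2.1 with h | h
      · left
        rw [h]
        constructor <;> nlinarith
      · right
        rw [h]
        constructor <;> nlinarith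
  · rcases hca.2.2.1 with h | h
    · obtain ⟨b, a', hb, hc, hai, hbc'⟩ := exists_top2 hN.lat hR hlk
      refine ⟨b, hbc', fun hy => ?_⟩
      have h1 := (hpos s hs b a' l hb hc).2.1
      rw [if_pos hai] at h1
      have h2 := hin _ hy
      rw [h1, hfw l hlk, hscl, hbc l hlk, h] at h2
      have h3 := (abs_lt.1 h2).2
      nlinarith
    · obtain ⟨b, a', hb, hc, hai, hbc'⟩ := exists_bot2 hN.lat hR hlk
      refine ⟨b, hbc', fun hy => ?_⟩
      have h1 := (hpos s hs b a' l hb hc).2.1
      rw [if_neg (by rw [hai]; exact (hR l hlk).1.ne)] at h1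
      have h2 := hin _ hy
      rw [h1, hfw l hlk, hscl, hbc l hlk, h] at h2
      have h3 := (abs_lt.1 h2).1
      nlinarith

namespace S200

theorem exists_third3 : ∀ {i k : Fin 3}, i ≠ k →
    ∃ j : Fin 3, j ≠ i ∧ j ≠ k ∧ ∀ l : Fin 3, l = i ∨ l = j ∨ l = k := by
  decide

/-- a square of the lattice around a point, in the direction `j`, with a crossed edge -/
theorem exists_pos {v : V} {N : ℕ} {α β : Fin 3 → ℤ} {j : Fin 3} (hαβ : α j < β j) {x : V}
    (h1 : hp v N α j ≤ x j) (h2 : x j ≤ hp v N β j) :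
    ∃ m a : ℤ, v j + m * (1 / 2 ^ N) ≤ x j ∧ x j ≤ v j + (m + 1) * (1 / 2 ^ N) ∧
      (a = m ∨ a = m + 1) ∧ α j < a ∧ a ≤ β j := by
  have hε : (0:ℝ) < 1 / 2 ^ N := by positivity
  have hhp : ∀ γ : Fin 3 → ℤ, hp v N γ j = v j + (γ j + 1 / 2) * (1 / 2 ^ N) := fun γ => by
    simp only [hp]; ring
  rw [hhp] at h1 h2
  set ε : ℝ := 1 / 2 ^ N with hεd
  obtain ⟨m, hm⟩ : ∃ m : ℤ, m = ⌊(x j - v j) / ε⌋ := ⟨_, rfl⟩
  have hm1 : (m : ℝ) ≤ (x j - v j) / ε := by rw [hm]; exact Int.floor_le _
  have hm2 : (x j - v j) / ε < m + 1 := by rw [hm]; exact Int.lt_floor_add_one _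
  rw [le_div_iff₀ hε] at hm1
  rw [div_lt_iff₀ hε] at hm2
  have hαm : α j ≤ m := by
    have : (α j : ℝ) < m + 1 := by
      by_contra hcon
      push Not at hcon
      have := mul_le_mul_of_nonneg_right hcon hε.le
      nlinarith
    have : α j < m + 1 := by exact_mod_cast this
    omega
  have hmβ : m ≤ β j := by
    have : (m : ℝ) < β j + 1 := by
      by_contra hcon
      push Not at hcon
      have := mul_le_mul_of_nonneg_right hcon hε.le
      nlinarith
    have : m < β j + 1 := by exact_mod_cast this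
    omega
  rcases hαm.lt_or_eq with h | h
  · exact ⟨m, m, by linarith, by linarith, Or.inl rfl, h, hmβ⟩
  · exact ⟨m, m + 1, by linarith, by linarith, Or.inr rfl, by omega, by omega⟩

end S200

/-- **(RIM)** -/
theorem specRim : SpecRim := by
  intro v N k ζ α β d hαβ hd x hx
  have hε : (0:ℝ) < 1 / 2 ^ N := by positivity
  obtain ⟨hx1, hx2⟩ := hx
  have hlok : rlo v N k ζ α d k = ht v N k ζ - d := Function.update_self _ _ _
  have hhik : rhi v N k ζ β d k = ht v N k ζ + d := Function.update_self _ _ _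
  have hlo : ∀ j, j ≠ k → rlo v N k ζ α d j = hp v N α j := fun j hj => Function.update_of_ne hj _ _
  have hhi : ∀ j, j ≠ k → rhi v N k ζ β d j = hp v N β j := fun j hj => Function.update_of_ne hj _ _
  have hxk : x k = ht v N k ζ := by rw [hlok, hhik] at hx2; linarith
  rw [frontier_Icc_pi'] at hx1
  obtain ⟨hx3, hx4⟩ := hx1
  have hx3' : ∀ j, rlo v N k ζ α d j ≤ x j ∧ x j ≤ rhi v N k ζ β d j := hx3
  -- the wall
  obtain ⟨i, hik, hi⟩ : ∃ i, i ≠ k ∧ (x i = hp v N α i ∨ x i = hp v N β i) := by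
    by_contra hcon
    push Not at hcon
    refine hx4 fun j => ?_
    by_cases hj : j = k
    · rw [hj, hlok, hhik, hxk]
      constructor <;> linarith
    · have h1 := hx3' j
      have h2 := hcon j hj
      rw [hlo j hj, hhi j hj] at h1 ⊢
      exact ⟨lt_of_le_of_ne h1.1 (Ne.symm h2.1), lt_of_le_of_ne h1.2 h2.2⟩
  obtain ⟨j, hji, hjk, hall⟩ := exists_third3 hik
  have hxj := hx3' j
  rw [hlo j hjk, hhi j hjk] at hxj
  obtain ⟨m, aj, hm1, hm2, ham, haj1, haj2⟩ := exists_pos (hαβ j hjk) hxj.1 hxj.2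
  obtain ⟨g, hg, hgx⟩ : ∃ g : ℤ, (g = α i ∨ g = β i) ∧ x i = v i + (g + 1 / 2) * (1 / 2 ^ N) := by
    rcases hi with h | h
    · exact ⟨α i, Or.inl rfl, by rw [h]; simp only [hp]; ring⟩
    · exact ⟨β i, Or.inr rfl, by rw [h]; simp only [hp]; ring⟩
  -- the square and the edge
  let w : Fin 3 → ℤ := fun l => if l = i then g else if l = j then m else ζ
  let a : Fin 3 → ℤ := fun l => if l = i then g else if l = j then aj else ζ
  have hwi : w i = g := if_pos rfl
  have hwj : w j = m := by simp only [w, if_neg hji, if_true]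
  have hwk : w k = ζ := by simp only [w, if_neg (Ne.symm hik), if_neg (Ne.symm hjk)]
  have hai : a i = g := if_pos rfl
  have haj : a j = aj := by simp only [a, if_neg hji, if_true]
  have hak : a k = ζ := by simp only [a, if_neg (Ne.symm hik), if_neg (Ne.symm hjk)]
  have hpt : ∀ (u : Fin 3 → ℤ) l, pt v N u l = v l + u l * (1 / 2 ^ N) := fun u l => by
    simp only [pt]; ring
  have hxs : x ∈ squ v ((N, w), k) := by
    rw [mem_squ]
    refine ⟨?_, fun l hl => ?_⟩
    · rw [hpt, hwk, hxk]; simp only [ht]; ring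
    · rcases hall l with rfl | rfl | rfl
      · rw [hpt, hwi, hgx]
        constructor <;> nlinarith
      · rw [hpt, hwj]
        constructor <;> linarith
      · exact absurd rfl hl
  refine ⟨w, a, i, hwk, hxs, ?_, ?_, ?_⟩
  · refine ⟨hik, hak, ?_, ?_⟩
    · rw [hai]; exact hg
    · intro l hli hlk
      rcases hall l with rfl | rfl | rfl
      · exact absurd rfl hli
      · rw [haj]; exact ⟨haj1, haj2⟩
      · exact absurd rfl hlk
  · rw [edge_subset_squ]
    refine ⟨rfl, hik, ?_, ?_, ?_⟩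
    · show a i = w i
      rw [hai, hwi]
    · show a k = w k
      rw [hak, hwk]
    · intro l hli hlk
      rcases hall l with rfl | rfl | rfl
      · exact absurd rfl hli
      · show a l = w l ∨ a l = w l + 1
        rw [haj, hwj]; exact ham
      · exact absurd rfl hlk
  · intro o A T hT s hs y z hyz hy l hl
    obtain ⟨hs1, hs2⟩ := hT hs
    have hs0 : 0 < s := by linarith
    have h1 := (mem_at hs0).1 hy l
    rw [symm_sub', fw2, if_neg hl] at h1
    have h1' : |A.symm (y - o) l - sc v N w k l| ≤ s * (9 / 4 / 2 ^ N) := h1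
    have h2 := hyz l hl
    have h3 : |sc v N w k l - x l| ≤ 1 / 2 * (1 / 2 ^ N) := by
      have h4 := (mem_squ.1 hxs).2 l hl
      rw [hpt] at h4
      have h5 : sc v N w k l = v l + (w l + 1 / 2) * (1 / 2 ^ N) := by
        simp only [sc, if_neg hl]; ring
      rw [h5, abs_le]
      constructor <;> nlinarith [h4.1, h4.2]
    have h6 : s * (9 / 4 / 2 ^ N) ≤ 37 / 16 * (1 / 2 ^ N) := by
      have : s * (9 / 4 / 2 ^ N) = s * (9 / 4) * (1 / 2 ^ N) := by ring
      rw [this]
      apply mul_le_mul_of_nonneg_right _ hε.le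
      linarith
    have h7 : (1:ℝ) / 4 / 2 ^ N = 1 / 4 * (1 / 2 ^ N) := by ring
    have h8 : (4:ℝ) / 2 ^ N = 4 * (1 / 2 ^ N) := by ring
    rw [h7] at h2
    rw [h8]
    rw [abs_le] at h1' h2 h3 ⊢
    constructor <;> nlinarith [h1'.1, h1'.2, h2.1, h2.2, h3.1, h3.2]

end P073.PL
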