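import Vale.Agent.P073.Spec.Plate
import Vale.Agent.P073.GB932.Plate
import Vale.Agent.P073.GBM.CellSpec3

/-!
# P073, block SpecPlate (owner helper371): parts of the proof of `Plate.SpecPlate`

The plate is the planar square `squ v ((n₂, z), k)`, height `ht = v k + ζ / 2 ^ N`,
`N = gN n₂ k₁ k₀ = n₂ + k₁ + k₀`, `ζ = z k * 2 ^ (k₁ + k₀)`.  In the plane everything is as in
`GBM/CellSpec*.lean` (numbers `al`, `be`, `lo`, `hi`, `mg`); the coordinate `k` of these vectors is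
never used.
-/

open Set Metric Topology Filter MeasureTheory
open scoped ENNReal NNReal

namespace P073.PL

open P073 P073.PR720 P073.GB73 P073.GBM P073.Gauge P073.GB1W P073.Cell P073.Plate
open Vale.Agent.P073.St (V)
open Vale.Agent.P073.AB
open Vale.Agent.P073.SQ (ev)
open P073.Net (dyc dyo)

variable {Vx B J I : Type} {e0 e1 : B → Vx} {inc : B → J → Prop} {qC : J → I → Prop} {Ω : Set V}

/-! ### Definitions -/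

/-- height of the plane -/
noncomputable def ht (v : V) (N : ℕ) (k : Fin 3) (ζ : ℤ) : ℝ := v k + ζ / 2 ^ N

/-- the lattice edge `((N, w), l)` of the plane crosses the rim of the rectangle
`hp α ≤ x ≤ hp β` -/
def Cross2 (k : Fin 3) (ζ : ℤ) (α β w : Fin 3 → ℤ) (l : Fin 3) : Prop :=
  l ≠ k ∧ w k = ζ ∧ (w l = α l ∨ w l = β l) ∧ ∀ j, j ≠ l → j ≠ k → α j < w j ∧ w j ≤ β j

/-- the crossed edges -/
def cr2 (K : Cx3 e0 e1 inc qC Ω) (v : V) (N : ℕ) (k : Fin 3) (ζ : ℤ) (α β : Fin 3 → ℤ) : Set B :=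
  {b | ∃ w l, K.arc b = edge v ((N, w), l) ∧ Cross2 k ζ α β w l}

/-- The complex near a plate: in the interior of the box `Icc q0 q1` (the plane is at middle
height) there are only the two cells `cu` (above) and `cd` (below), which are boxes, and the
lattice squares and edges of generation `N` of the plane. -/
structure Lat2 (K : Cx3 e0 e1 inc qC Ω) (v : V) (N : ℕ) (k : Fin 3) (ζ : ℤ) (q0 q1 : V)
    (cu cd : I) : Prop where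
  lt : ∀ i, q0 i < q1 i
  mid : q0 k + q1 k = 2 * ht v N k ζ
  sub : Icc q0 q1 ⊆ Ω
  arc : ∀ b, (K.arc b ∩ interior (Icc q0 q1)).Nonempty →
    ∃ w l, l ≠ k ∧ w k = ζ ∧ K.arc b = edge v ((N, w), l)
  arc' : ∀ w l, l ≠ k → w k = ζ → (edge v ((N, w), l) ∩ interior (Icc q0 q1)).Nonempty →
    ∃ b, K.arc b = edge v ((N, w), l)
  tile : ∀ j, (K.tile j ∩ interior (Icc q0 q1)).Nonempty →
    ∃ w, w k = ζ ∧ K.tile j = squ v ((N, w), k)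
  tile' : ∀ w, w k = ζ → (squ v ((N, w), k) ∩ interior (Icc q0 q1)).Nonempty →
    ∃ j, K.tile j = squ v ((N, w), k)
  ne : cu ≠ cd
  cell : ∀ c, (K.cell c ∩ interior (Icc q0 q1)).Nonempty → c = cu ∨ c = cd
  up : K.cell cu = Icc (Function.update q0 k (ht v N k ζ)) q1
  dn : K.cell cd = Icc q0 (Function.update q1 k (ht v N k ζ))

/-- the rectangle and its crossed edges are in the plate, strictly (17:45: strict inequalities) -/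
def RectIn (v : V) (N : ℕ) (k : Fin 3) (q0 q1 : V) (α β : Fin 3 → ℤ) : Prop :=
  ∀ i, i ≠ k → α i < β i ∧ q0 i < pt v N α i ∧ pt v N β i + 1 / 2 ^ N < q1 i

/-- lower corner of the thin box of half thickness `d` over the rectangle -/
noncomputable def rlo (v : V) (N : ℕ) (k : Fin 3) (ζ : ℤ) (α : Fin 3 → ℤ) (d : ℝ) : V :=
  Function.update (hp v N α) k (ht v N k ζ - d)

/-- upper corner of the thin box of half thickness `d` over the rectangle -/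
noncomputable def rhi (v : V) (N : ℕ) (k : Fin 3) (ζ : ℤ) (β : Fin 3 → ℤ) (d : ℝ) : V :=
  Function.update (hp v N β) k (ht v N k ζ + d)

/-- region in the target in which the bodies are -/
def Reg2 (v : V) (N : ℕ) (k : Fin 3) (ζ : ℤ) (q0 q1 o : V) (A : V ≃L[ℝ] V) (y : V) : Prop :=
  |A.symm (y - o) k - ht v N k ζ| ≤ 1 / 2 ^ N ∧
    ∀ i, i ≠ k → q0 i + 1 / 2 ^ N ≤ A.symm (y - o) i ∧ A.symm (y - o) i ≤ q1 i - 1 / 2 ^ N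

/-- The situation near a plate, where `h` is close to `x ↦ o + A x` on the lattice edges of the
plate. -/
structure Near2 (K : Cx3 e0 e1 inc qC Ω) (Λ : Set V) (h : V → V) (v : V) (N : ℕ) (k : Fin 3)
    (ζ : ℤ) (q0 q1 o : V) (A : V ≃L[ℝ] V) (μ η : ℝ) (cu cd : I) : Prop where
  lat : Lat2 K v N k ζ q0 q1 cu cd
  y0 : ∀ b w l, K.arc b = edge v ((N, w), l) → K.y (e0 b) = pt v N w
  y1 : ∀ b w l, K.arc b = edge v ((N, w), l) → K.y (e1 b) = pt v N w + (1 / 2 ^ N : ℝ) • ev l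
  lip : ∀ b w l, K.arc b = edge v ((N, w), l) →
    ∃ C : ℝ≥0, LipschitzOnWith C (fun s => h (eb K.toGraph b s)) (Icc 0 1)
  sup : ∀ w l, l ≠ k → w k = ζ → edge v ((N, w), l) ⊆ Icc q0 q1 → ∀ x ∈ edge v ((N, w), l),
    ‖A.symm (h x - o) - x‖ ≤ μ
  der : ∀ b w l, l ≠ k → w k = ζ → K.arc b = edge v ((N, w), l) →
    edge v ((N, w), l) ⊆ Icc q0 q1 →
    ∫⁻ s in Icc (0:ℝ) 1, ENNReal.ofReal ‖A.symm (deriv (fun s => h (eb K.toGraph b s)) s) -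
      (K.y (e1 b) - K.y (e0 b))‖ ≤ ENNReal.ofReal η
  off : ∀ b, (∃ w l, l ≠ k ∧ w k = ζ ∧ K.arc b = edge v ((N, w), l) ∧
      edge v ((N, w), l) ⊆ Icc q0 q1) ∨ ∀ x ∈ K.arc b, ¬ Reg2 v N k ζ q0 q1 o A (h x)
  inside : ∀ y, Reg2 v N k ζ q0 q1 o A y → y ∈ Λ
  mu0 : 0 ≤ μ
  eta0 : 0 ≤ η

/-- the crossing points in the domain -/
def IsCut2 (K : Cx3 e0 e1 inc qC Ω) (v : V) (N : ℕ) (k : Fin 3) (ζ : ℤ) (α β : Fin 3 → ℤ)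
    (p : B → V) : Prop :=
  ∀ b w l, K.arc b = edge v ((N, w), l) → Cross2 k ζ α β w l → p b = Cell.mid v N w l

/-- positions of the crossing points in the target, body with centre `c`, half sides `w` -/
def PosY2 (K : Cx3 e0 e1 inc qC Ω) (h : V → V) (v : V) (N : ℕ) (k : Fin 3) (ζ : ℤ) (o : V)
    (A : V ≃L[ℝ] V) (μ : ℝ) (c w : V) (α β : Fin 3 → ℤ) (T : Set ℝ) (y : ℝ → B → V) : Prop :=
  ∀ t ∈ T, ∀ b a l, K.arc b = edge v ((N, a), l) → Cross2 k ζ α β a l →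
    y t b ∈ h '' K.arc b ∧
    A.symm (y t b - o) l = c l + (if a l = β l then t * w l else -(t * w l)) ∧
    ∀ j, j ≠ l → |A.symm (y t b - o) j - pt v N a j| ≤ μ

/-- half sides of the face bodies; the centre is `Cell.sc v N w k`, the pattern is
`Cell.fa w k`, `Cell.fb w` -/
noncomputable def fw2 (N : ℕ) (k : Fin 3) : V :=
  fun i => if i = k then 3 / 4 / 2 ^ N else 9 / 4 / 2 ^ N

/-- body of the square `((N, w), k)`; levels between `35 / 36` and `37 / 36` -/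
noncomputable def fBody2 (v : V) (N : ℕ) (k : Fin 3) (o : V) (A : V ≃L[ℝ] V) (w : Fin 3 → ℤ)
    (T : Set ℝ) : Body := bBody (o + A (sc v N w k)) A (fw2 N k) T

/-- centre of the big body -/
noncomputable def bc2 (v : V) (N : ℕ) (k : Fin 3) (ζ : ℤ) (α β : Fin 3 → ℤ) : V :=
  fun i => if i = k then ht v N k ζ else v i + (α i + β i + 1) / 2 / 2 ^ N

/-- half sides of the big body -/
noncomputable def bw2 (N : ℕ) (k : Fin 3) (α β : Fin 3 → ℤ) : V :=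
  fun i => if i = k then 3 / 4 / 2 ^ N else (β i - α i) / 2 / 2 ^ N

/-- the big body; levels with `|t - 1| (β i - α i) ≤ 1 / 4` for `i ≠ k` -/
noncomputable def bigBody2 (v : V) (N : ℕ) (k : Fin 3) (ζ : ℤ) (o : V) (A : V ≃L[ℝ] V)
    (α β : Fin 3 → ℤ) (T : Set ℝ) : Body := bBody (o + A (bc2 v N k ζ α β)) A (bw2 N k α β) T

/-- admissible levels of the big body -/
def BigT (k : Fin 3) (α β : Fin 3 → ℤ) (T : Set ℝ) : Prop :=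
  ∀ t ∈ T, 0 < t ∧ ∀ j, j ≠ k → |t - 1| * (β j - α j) ≤ 1 / 4

/-- marked lattice edges: the crossed edges on the lines of generation `n₂ + k₁` which meet the
protected square -/
def Marked2 (k₁ k₀ : ℕ) (z w : Fin 3 → ℤ) (k l : Fin 3) : Prop :=
  Cross2 k (z k * 2 ^ (k₁ + k₀)) (al k₁ k₀ z) (be k₁ k₀ z) w l ∧ ∀ j, j ≠ l → j ≠ k →
    (2 : ℤ) ^ k₀ ∣ w j ∧
    z j * 2 ^ (k₁ + k₀) + 2 * 2 ^ k₀ ≤ w j ∧ w j ≤ (z j + 1) * 2 ^ (k₁ + k₀) - 2 * 2 ^ k₀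

/-- the marked points -/
def mpt2 (v : V) (n₂ k₁ k₀ : ℕ) (z : Fin 3 → ℤ) (k : Fin 3) : Set V :=
  {x | ∃ w l, Marked2 k₁ k₀ z w k l ∧ x = Cell.mid v (gN n₂ k₁ k₀) w l}

/-- lower corner of the domain box of the plate -/
noncomputable def plo (v : V) (n₂ k₁ k₀ : ℕ) (z : Fin 3 → ℤ) (k : Fin 3) (d : ℝ) : V :=
  rlo v (gN n₂ k₁ k₀) k (z k * 2 ^ (k₁ + k₀)) (al k₁ k₀ z) d

/-- upper corner of the domain box of the plate -/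
noncomputable def phi (v : V) (n₂ k₁ k₀ : ℕ) (z : Fin 3 → ℤ) (k : Fin 3) (d : ℝ) : V :=
  rhi v (gN n₂ k₁ k₀) k (z k * 2 ^ (k₁ + k₀)) (be k₁ k₀ z) d

/-- lower corner of the lens of half thickness `δ` over the plate -/
noncomputable def llo (v : V) (n₂ : ℕ) (z : Fin 3 → ℤ) (k : Fin 3) (δ : ℝ) : V :=
  fun i => if i = k then v k + z k / 2 ^ n₂ - δ else v i + z i / 2 ^ n₂

/-- upper corner of the lens of half thickness `δ` over the plate -/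
noncomputable def lhi (v : V) (n₂ : ℕ) (z : Fin 3 → ℤ) (k : Fin 3) (δ : ℝ) : V :=
  fun i => if i = k then v k + z k / 2 ^ n₂ + δ else v i + (z i + 1) / 2 ^ n₂

/-! ### The parts -/

/-- **(LENS)** (owner helper932) two thin box cells over the plate are split off. -/
def SpecLens : Prop :=
  ∀ (Ω : Set V) (v : V) (I : Set Idx) (T : Set (Idx × Fin 3)) (D : TCx Ω v I T) (n₂ k₁ k₀ : ℕ)
    (z : Fin 3 → ℤ) (k : Fin 3), IsOpen Ω → Part Ω v I → FaceT v I T →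
    (∃ s', MinSq v I s' ∧ s'.2 = k ∧ pbox v ((n₂, z), k) (-(1 / 2 ^ n₂)) 0 ⊆ squ v s') →
    (∀ s' : Idx × Fin 3, s'.1.1 = gN n₂ k₁ k₀ → s'.2 = k →
      (squ v s' ∩ squ v ((n₂, z), k)).Nonempty → s' ∈ T) →
    ∀ Z : Set V, Prot D.K Z → Disjoint Z (squ v ((n₂, z), k)) →
    ∃ (J' I' : Type) (inc' : D.B → J' → Prop) (qC' : J' → I' → Prop)
      (K' : Cx3 D.e0 D.e1 inc' qC' Ω) (δ : ℝ) (cu cd : I'), 0 < δ ∧
      K'.toGraph = D.K.toGraph ∧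
      Lat2 K' v (gN n₂ k₁ k₀) k (z k * 2 ^ (k₁ + k₀)) (llo v n₂ z k δ) (lhi v n₂ z k δ) cu cd ∧
      Prot K' Z ∧ Disjoint Z (K'.cell cu) ∧ Disjoint Z (K'.cell cd)

/-- **(LA2)** (owner helper86) the net in a plate; an arc which is a lattice edge has the
corresponding index -/
def SpecLa2 : Prop :=
  ∀ (Ω : Set V) (v : V) (I : Set Idx) (T : Set (Idx × Fin 3)) (D : TCx Ω v I T) (n₂ k₁ k₀ : ℕ)
    (z : Fin 3 → ℤ) (k : Fin 3), IsOpen Ω → Part Ω v I → FaceT v I T →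
    (∃ s', MinSq v I s' ∧ s'.2 = k ∧ pbox v ((n₂, z), k) (-(1 / 2 ^ n₂)) 0 ⊆ squ v s') →
    (∀ s' : Idx × Fin 3, s'.1.1 = gN n₂ k₁ k₀ → s'.2 = k →
      (squ v s' ∩ squ v ((n₂, z), k)).Nonempty → s' ∈ T) →
    (∀ b, D.K.arc b ⊆ squ v ((n₂, z), k) →
      ∃ w l, l ≠ k ∧ w k = z k * 2 ^ (k₁ + k₀) ∧ D.φ b = ((gN n₂ k₁ k₀, w), l)) ∧
    ∀ b w l, D.K.arc b = edge v ((gN n₂ k₁ k₀, w), l) → D.φ b = ((gN n₂ k₁ k₀, w), l)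

/-- **(NEAR2)** (owner helper923) the normalised situation from `PlateHyp` (cf. `Cell.near_of_cellHyp`) -/
def SpecNear2 : Prop :=
  SpecLa2 → ∀ (p θ M κ r : ℝ) (k₁ k₀ n₂ : ℕ) (Ω Λ : Set V) (v : V) (I : Set Idx)
    (T : Set (Idx × Fin 3)) (D : TCx Ω v I T) (z : Fin 3 → ℤ) (k : Fin 3) (A : V → V)
    (L : V →L[ℝ] V) (h : ConHomeo Ω Λ), 1 ≤ p → 0 < θ → 0 < r → 0 ≤ κ → κ ≤ r ^ p → IsOpen Ω →
    Part Ω v I → FaceT v I T → PlateHyp p θ M κ k₁ k₀ Λ v I T ((n₂, z), k) A L h.toFun →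
  ∀ (J' I' : Type) (inc' : D.B → J' → Prop) (qC' : J' → I' → Prop)
    (K' : Cx3 D.e0 D.e1 inc' qC' Ω) (δ : ℝ) (cu cd : I'), K'.toGraph = D.K.toGraph →
    Lat2 K' v (gN n₂ k₁ k₀) k (z k * 2 ^ (k₁ + k₀)) (llo v n₂ z k δ) (lhi v n₂ z k δ) cu cd →
    ∃ AL : V ≃L[ℝ] V, (∀ w, AL w = L w) ∧ (∀ w, ‖AL.symm w‖ ≤ θ⁻¹ * ‖w‖) ∧
      (∀ x, A x = A 0 + AL x) ∧
      Near2 K' Λ h.toFun v (gN n₂ k₁ k₀) k (z k * 2 ^ (k₁ + k₀)) (llo v n₂ z k δ)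
        (lhi v n₂ z k δ) (A 0) AL (θ⁻¹ * κ / 2 ^ (gN n₂ k₁ k₀))
        (θ⁻¹ * (2 * r) / 2 ^ (gN n₂ k₁ k₀)) cu cd

/-- **(PAT2)** (owner helper338) the crossed edges form a pattern -/
def SpecPat2 : Prop :=
  ∀ (Vx B J I : Type) (e0 e1 : B → Vx) (inc : B → J → Prop) (qC : J → I → Prop) (Ω : Set V)
    (K : Cx3 e0 e1 inc qC Ω) (v : V) (N : ℕ) (k : Fin 3) (ζ : ℤ) (q0 q1 : V) (cu cd : I),
    Lat2 K v N k ζ q0 q1 cu cd → ∀ α β : Fin 3 → ℤ, RectIn v N k q0 q1 α β →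
    Pat inc (cr2 K v N k ζ α β)

/-- **(DOM2)** (owner helper371) the thin box cuts the complex along the pattern -/
def SpecDomCut2 : Prop :=
  ∀ (Vx B J I : Type) (e0 e1 : B → Vx) (inc : B → J → Prop) (qC : J → I → Prop) (Ω : Set V)
    (K : Cx3 e0 e1 inc qC Ω) (v : V) (N : ℕ) (k : Fin 3) (ζ : ℤ) (q0 q1 : V) (cu cd : I),
    Lat2 K v N k ζ q0 q1 cu cd → ∀ (α β : Fin 3 → ℤ) (d : ℝ), RectIn v N k q0 q1 α β → 0 < d →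
    ht v N k ζ + d < q1 k → ∀ p : B → V, IsCut2 K v N k ζ α β p →
    DomCut K (Icc (rlo v N k ζ α d) (rhi v N k ζ β d)) (cr2 K v N k ζ α β) p

/-- **(LEV2)** (owner helper865) the levels of a body with centre `c`, half sides `w` -/
def SpecLev2 : Prop :=
  ∀ (Vx B J I : Type) (e0 e1 : B → Vx) (inc : B → J → Prop) (qC : J → I → Prop) (Ω : Set V)
    (K : Cx3 e0 e1 inc qC Ω) (Λ : Set V) (h : V → V) (v : V) (N : ℕ) (k : Fin 3) (ζ : ℤ)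
    (q0 q1 o : V) (A : V ≃L[ℝ] V) (μ η : ℝ) (cu cd : I),
    Near2 K Λ h v N k ζ q0 q1 o A μ η cu cd →
  ∀ (c w : V) (α β : Fin 3 → ℤ) (s r w₀ R : ℝ), 0 < s → s < r → 0 < w₀ →
    (∀ i, i ≠ k → α i < β i) → (∀ i, w₀ ≤ w i) →
    (∀ i, i ≠ k → pt v N α i + μ ≤ c i - r * w i) →
    (∀ i, i ≠ k → c i - s * w i + μ < pt v N α i + 1 / 2 ^ N) →
    (∀ i, i ≠ k → pt v N β i + μ < c i + s * w i) →
    (∀ i, i ≠ k → c i + r * w i + μ ≤ pt v N β i + 1 / 2 ^ N) →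
    (∀ i, i ≠ k → q0 i + 1 / 2 ^ N ≤ c i - r * w i ∧ c i + r * w i ≤ q1 i - 1 / 2 ^ N) →
    c k = ht v N k ζ → μ < s * w k → r * w k ≤ 1 / 2 ^ N →
    (∀ i, i ≠ k → ((β i - α i + 1 : ℤ) : ℝ) ≤ R) →
    6 * R ^ 2 * ((2 * μ + η) / w₀) < r - s →
    ∃ T : Set ℝ, T ⊆ Ioo s r ∧ (bBody (o + A c) A w T).Good Λ ∧ RectIn v N k q0 q1 α β ∧
      ∃ y : ℝ → B → V,
      (∀ t ∈ T, Crosses K.toGraph h ((bBody (o + A c) A w T).at t) (cr2 K v N k ζ α β) (y t)) ∧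
      PosY2 K h v N k ζ o A μ c w α β T y

/-- **(S1')** (owner helper200) separation of two face bodies -/
def SpecS1' : Prop :=
  ∀ (Vx B J I : Type) (e0 e1 : B → Vx) (inc : B → J → Prop) (qC : J → I → Prop) (Ω : Set V)
    (K : Cx3 e0 e1 inc qC Ω) (Λ : Set V) (h : V → V) (v : V) (N : ℕ) (k : Fin 3) (ζ : ℤ)
    (q0 q1 o : V) (A : V ≃L[ℝ] V) (μ η : ℝ) (cu cd : I),
    Near2 K Λ h v N k ζ q0 q1 o A μ η cu cd →
  ∀ (w w' : Fin 3 → ℤ) (T T' : Set ℝ) (y' : ℝ → B → V), w k = ζ → w' k = ζ → w ≠ w' →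
    T ⊆ Ioo (35 / 36) (37 / 36) → T' ⊆ Ioo (35 / 36) (37 / 36) →
    RectIn v N k q0 q1 (fa w' k) (fb w') →
    PosY2 K h v N k ζ o A μ (sc v N w' k) (fw2 N k) (fa w' k) (fb w') T' y' →
    ∀ t ∈ T, ∀ s ∈ T', IsPreconnected (frontier ((fBody2 v N k o A w' T').at s) \
        interior ((fBody2 v N k o A w T).at t)) ∧
      ∃ b ∈ cr2 K v N k ζ (fa w' k) (fb w'), y' s b ∉ interior ((fBody2 v N k o A w T).at t)

/-- **(S2')** (owner helper200) separation of a face body and the big body -/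
def SpecS2' : Prop :=
  ∀ (Vx B J I : Type) (e0 e1 : B → Vx) (inc : B → J → Prop) (qC : J → I → Prop) (Ω : Set V)
    (K : Cx3 e0 e1 inc qC Ω) (Λ : Set V) (h : V → V) (v : V) (N : ℕ) (k : Fin 3) (ζ : ℤ)
    (q0 q1 o : V) (A : V ≃L[ℝ] V) (μ η : ℝ) (cu cd : I),
    Near2 K Λ h v N k ζ q0 q1 o A μ η cu cd →
  ∀ (α β w a : Fin 3 → ℤ) (l : Fin 3) (T T0 : Set ℝ) (y0 : ℝ → B → V),
    (∀ j, j ≠ k → α j + 8 ≤ β j) → w k = ζ → Cross2 k ζ α β a l →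
    edge v ((N, a), l) ⊆ squ v ((N, w), k) →
    T ⊆ Ioo (35 / 36) (37 / 36) → BigT k α β T0 → RectIn v N k q0 q1 α β →
    PosY2 K h v N k ζ o A μ (bc2 v N k ζ α β) (bw2 N k α β) α β T0 y0 →
    ∀ t ∈ T, ∀ s ∈ T0, IsPreconnected (frontier ((bigBody2 v N k ζ o A α β T0).at s) \
        interior ((fBody2 v N k o A w T).at t)) ∧
      ∃ b ∈ cr2 K v N k ζ α β, y0 s b ∉ interior ((fBody2 v N k o A w T).at t)

/-- **(RIM)** (owner helper200) every point of the rim is in a lattice square with a crossed edge,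
and the body of this square is close to it -/
def SpecRim : Prop :=
  ∀ (v : V) (N : ℕ) (k : Fin 3) (ζ : ℤ) (α β : Fin 3 → ℤ) (d : ℝ), (∀ i, i ≠ k → α i < β i) →
    0 < d → ∀ x ∈ GB932.rim (rlo v N k ζ α d) (rhi v N k ζ β d) k,
    ∃ w a l, w k = ζ ∧ x ∈ squ v ((N, w), k) ∧ Cross2 k ζ α β a l ∧
      edge v ((N, a), l) ⊆ squ v ((N, w), k) ∧
      ∀ (o : V) (A : V ≃L[ℝ] V) (T : Set ℝ), T ⊆ Ioo (35 / 36) (37 / 36) → ∀ s ∈ T, ∀ y z : V,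
        (∀ i, i ≠ k → |A.symm (y - o) i - z i| ≤ 1 / 4 / 2 ^ N) →
        y ∈ (fBody2 v N k o A w T).at s → ∀ i, i ≠ k → |z i - x i| ≤ 4 / 2 ^ N

/-- **(VERT2)** (owner helper644) the vertices in the box are those mapped into the big body -/
def SpecVert2 : Prop :=
  ∀ (Vx B J I : Type) (e0 e1 : B → Vx) (inc : B → J → Prop) (qC : J → I → Prop) (Ω : Set V)
    (K : Cx3 e0 e1 inc qC Ω) (Λ : Set V) (h : V → V) (v : V) (N : ℕ) (k : Fin 3) (ζ : ℤ)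
    (q0 q1 o : V) (A : V ≃L[ℝ] V) (μ η : ℝ) (cu cd : I),
    Near2 K Λ h v N k ζ q0 q1 o A μ η cu cd → μ ≤ 1 / 8 / 2 ^ N →
  ∀ (α β : Fin 3 → ℤ) (d : ℝ) (T0 : Set ℝ), RectIn v N k q0 q1 α β → BigT k α β T0 →
    (∀ i, i ≠ k → q0 i + 2 / 2 ^ N ≤ hp v N α i ∧ hp v N β i ≤ q1 i - 2 / 2 ^ N) →
    0 < d → ht v N k ζ + d < q1 k →
    ∀ t ∈ T0, ∀ u, K.y u ∈ interior (Icc (rlo v N k ζ α d) (rhi v N k ζ β d)) ↔
      h (K.y u) ∈ interior ((bigBody2 v N k ζ o A α β T0).at t)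

/-- **(BD2)** (owner helper644) the boundary of a face is mapped into its body -/
def SpecBdIn2 : Prop :=
  ∀ (Vx B J I : Type) (e0 e1 : B → Vx) (inc : B → J → Prop) (qC : J → I → Prop) (Ω : Set V)
    (K : Cx3 e0 e1 inc qC Ω) (Λ : Set V) (h : V → V) (v : V) (N : ℕ) (k : Fin 3) (ζ : ℤ)
    (q0 q1 o : V) (A : V ≃L[ℝ] V) (μ η : ℝ) (cu cd : I),
    Near2 K Λ h v N k ζ q0 q1 o A μ η cu cd → μ ≤ 1 / 8 / 2 ^ N →
  ∀ (j : J) (w : Fin 3 → ℤ) (T : Set ℝ), K.tile j = squ v ((N, w), k) → w k = ζ →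
    squ v ((N, w), k) ⊆ interior (Icc q0 q1) → T ⊆ Ioo (35 / 36) (37 / 36) →
    ∀ t ∈ T, h '' (K.toCx2.bd j) ⊆ interior ((fBody2 v N k o A w T).at t)

/-- **(MOD2)** (owner helper580) the model maps and the reparametrisations of the crossed edges -/
def SpecMod2 : Prop :=
  ∀ (Vx B J I : Type) (e0 e1 : B → Vx) (inc : B → J → Prop) (qC : J → I → Prop) (Ω : Set V)
    (K : Cx3 e0 e1 inc qC Ω) (Λ : Set V) (h : V → V) (v : V) (n₂ k₁ k₀ : ℕ) (z : Fin 3 → ℤ)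
    (k : Fin 3) (q0 q1 o : V) (A : V ≃L[ℝ] V) (μ η : ℝ) (cu cd : I),
    Near2 K Λ h v (gN n₂ k₁ k₀) k (z k * 2 ^ (k₁ + k₀)) q0 q1 o A μ η cu cd →
  3 ≤ k₁ → 3 ≤ k₀ → μ ≤ 1 / 8 / 2 ^ (gN n₂ k₁ k₀) →
  RectIn v (gN n₂ k₁ k₀) k q0 q1 (al k₁ k₀ z) (be k₁ k₀ z) →
  ∀ (d : ℝ) (T0 : Set ℝ) (y0 : ℝ → B → V) (p : B → V), 0 < d →
    BigT k (al k₁ k₀ z) (be k₁ k₀ z) T0 →
    PosY2 K h v (gN n₂ k₁ k₀) k (z k * 2 ^ (k₁ + k₀)) o A μ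
      (bc2 v (gN n₂ k₁ k₀) k (z k * 2 ^ (k₁ + k₀)) (al k₁ k₀ z) (be k₁ k₀ z))
      (bw2 (gN n₂ k₁ k₀) k (al k₁ k₀ z) (be k₁ k₀ z)) (al k₁ k₀ z) (be k₁ k₀ z) T0 y0 →
    IsCut2 K v (gN n₂ k₁ k₀) k (z k * 2 ^ (k₁ + k₀)) (al k₁ k₀ z) (be k₁ k₀ z) p →
    -- model maps
    (∃ L : (t : T0) → ConHomeo (Icc (plo v n₂ k₁ k₀ z k d) (phi v n₂ k₁ k₀ z k d))
        ((bigBody2 v (gN n₂ k₁ k₀) k (z k * 2 ^ (k₁ + k₀)) o A (al k₁ k₀ z) (be k₁ k₀ z) T0).at t),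
      ∀ t : T0,
        (∀ b a l, K.arc b = edge v ((gN n₂ k₁ k₀, a), l) → Marked2 k₁ k₀ z a k l →
          y0 t b = (L t).toFun (p b)) ∧
        (∀ x ∈ pbox v ((n₂, z), k) (2 / 2 ^ (n₂ + k₁)) 0, (L t).toFun x = o + A x) ∧
        (∀ x ∈ Icc (plo v n₂ k₁ k₀ z k d) (phi v n₂ k₁ k₀ z k d), ∀ i, i ≠ k →
          |A.symm ((L t).toFun x - o) i - x i| ≤ μ + 1 / 8 / 2 ^ (gN n₂ k₁ k₀)) ∧
        (∀ x ∈ Icc (plo v n₂ k₁ k₀ z k d) (phi v n₂ k₁ k₀ z k d),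
          x k = ht v (gN n₂ k₁ k₀) k (z k * 2 ^ (k₁ + k₀)) →
          ‖A.symm ((L t).toFun x - o) - x‖ ≤ μ + 1 / 8 / 2 ^ (gN n₂ k₁ k₀)) ∧
        ∀ x y, x k = ht v (gN n₂ k₁ k₀) k (z k * 2 ^ (k₁ + k₀)) →
          y k = ht v (gN n₂ k₁ k₀) k (z k * 2 ^ (k₁ + k₀)) →
          ‖A.symm ((L t).toFun x - (L t).toFun y)‖ ≤ 9 / 4 * ‖x - y‖) ∧
    -- reparametrisations
    (∃ χ : (t : T0) → (b : B) → ConHomeo (K.arc b) (K.arc b), ∀ t : T0,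
      (∀ b, (χ t b).toFun (K.y (e0 b)) = K.y (e0 b)) ∧
      (∀ b, (χ t b).toFun (K.y (e1 b)) = K.y (e1 b)) ∧
      (∀ b ∉ cr2 K v (gN n₂ k₁ k₀) k (z k * 2 ^ (k₁ + k₀)) (al k₁ k₀ z) (be k₁ k₀ z),
        ∀ x ∈ K.arc b, (χ t b).toFun x = x) ∧
      (∀ b ∈ cr2 K v (gN n₂ k₁ k₀) k (z k * 2 ^ (k₁ + k₀)) (al k₁ k₀ z) (be k₁ k₀ z),
        h ((χ t b).toFun (p b)) = y0 t b) ∧
      ∀ b a l, K.arc b = edge v ((gN n₂ k₁ k₀, a), l) →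
        Cross2 k (z k * 2 ^ (k₁ + k₀)) (al k₁ k₀ z) (be k₁ k₀ z) a l →
        ∃ r ∈ Icc (1 / 4 : ℝ) (3 / 4), ∀ s ∈ Icc (0:ℝ) 1,
          (χ t b).toFun (pt v (gN n₂ k₁ k₀) a + s • ((1 / 2 ^ (gN n₂ k₁ k₀) : ℝ) • ev l)) =
            pt v (gN n₂ k₁ k₀) a +
              GB1.rep (1 / 2) r s • ((1 / 2 ^ (gN n₂ k₁ k₀) : ℝ) • ev l))

/-- **(GAP2)** (owner helper489) closeness and energy on the edges of generation `n₂ + k₁` of the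
gap. `h3` is the new map, `Lt` the model map of the box. -/
def SpecGap2 : Prop :=
  ∀ (Vx B J I : Type) (e0 e1 : B → Vx) (inc : B → J → Prop) (qC : J → I → Prop) (Ω : Set V)
    (K : Cx3 e0 e1 inc qC Ω) (Λ : Set V) (h : V → V) (v : V) (n₂ k₁ k₀ : ℕ) (z : Fin 3 → ℤ)
    (k : Fin 3) (δ : ℝ) (o : V) (A : V ≃L[ℝ] V) (μ η : ℝ) (cu cd : I), 0 < δ →
    Near2 K Λ h v (gN n₂ k₁ k₀) k (z k * 2 ^ (k₁ + k₀)) (llo v n₂ z k δ) (lhi v n₂ z k δ)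
      o A μ η cu cd →
  ∀ (p M κ d : ℝ), 1 ≤ p → 0 < M → 0 ≤ κ → 0 < d → d < δ → (∀ w, ‖A w‖ ≤ M * ‖w‖) → 3 ≤ k₁ →
    3 ≤ k₀ → μ ≤ 1 / 8 / 2 ^ (gN n₂ k₁ k₀) → 4 * M ≤ 2 ^ (k₁ + k₀) →
    (∀ e : Idx × Fin 3, e.1.1 = gN n₂ k₁ k₀ → edge v e ⊆ squ v ((n₂, z), k) →
      dvar p h v e (A ((1 / 2 ^ (gN n₂ k₁ k₀) : ℝ) • ev e.2)) ≤
        ENNReal.ofReal (κ * (1 / 2 ^ (gN n₂ k₁ k₀)) ^ p)) →
  ∀ (h3 Lt : V → V) (χ : B → V → V) (p' : B → V),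
    IsCut2 K v (gN n₂ k₁ k₀) k (z k * 2 ^ (k₁ + k₀)) (al k₁ k₀ z) (be k₁ k₀ z) p' →
    (∀ b, ∀ x ∈ K.arc b, x ∉ interior (Icc (plo v n₂ k₁ k₀ z k d) (phi v n₂ k₁ k₀ z k d)) →
      h3 x = h (χ b x)) →
    (∀ b, b ∉ cr2 K v (gN n₂ k₁ k₀) k (z k * 2 ^ (k₁ + k₀)) (al k₁ k₀ z) (be k₁ k₀ z) →
      ∀ x ∈ K.arc b, χ b x = x) →
    (∀ b a l, K.arc b = edge v ((gN n₂ k₁ k₀, a), l) →
        Cross2 k (z k * 2 ^ (k₁ + k₀)) (al k₁ k₀ z) (be k₁ k₀ z) a l →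
        ∃ r ∈ Icc (1 / 4 : ℝ) (3 / 4), ∀ s ∈ Icc (0:ℝ) 1,
          χ b (pt v (gN n₂ k₁ k₀) a + s • ((1 / 2 ^ (gN n₂ k₁ k₀) : ℝ) • ev l)) =
            pt v (gN n₂ k₁ k₀) a +
              GB1.rep (1 / 2) r s • ((1 / 2 ^ (gN n₂ k₁ k₀) : ℝ) • ev l)) →
    (∀ x ∈ pbox v ((n₂, z), k) (2 / 2 ^ (n₂ + k₁)) 0, h3 x = o + A x) →
    (∀ b a l, K.arc b = edge v ((gN n₂ k₁ k₀, a), l) → Marked2 k₁ k₀ z a k l →
      ∀ x ∈ Icc (plo v n₂ k₁ k₀ z k d) (phi v n₂ k₁ k₀ z k d), ‖x - p' b‖ ≤ mg n₂ k₁ k₀ →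
        (∀ j, j ≠ l → x j = p' b j) → h3 x = Lt x) →
    (∀ x ∈ Icc (plo v n₂ k₁ k₀ z k d) (phi v n₂ k₁ k₀ z k d),
      x k = ht v (gN n₂ k₁ k₀) k (z k * 2 ^ (k₁ + k₀)) →
      ‖A.symm (Lt x - o) - x‖ ≤ μ + 1 / 8 / 2 ^ (gN n₂ k₁ k₀)) →
    (∀ x y, x k = ht v (gN n₂ k₁ k₀) k (z k * 2 ^ (k₁ + k₀)) →
      y k = ht v (gN n₂ k₁ k₀) k (z k * 2 ^ (k₁ + k₀)) →
      ‖A.symm (Lt x - Lt y)‖ ≤ 9 / 4 * ‖x - y‖) →
    ∀ e : Idx × Fin 3, e.1.1 = n₂ + k₁ →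
      edge v e ⊆ pbox v ((n₂, z), k) (1 / 2 ^ (n₂ + k₁)) 0 \
        prel v ((n₂, z), k) (2 / 2 ^ (n₂ + k₁)) →
      ¬ edge v e ⊆ pbox v ((n₂, z), k) (1 / 2 ^ (n₂ + k₁)) 0 \
        prel v ((n₂, z), k) (1 / 2 ^ (n₂ + k₁)) →
      (∀ x ∈ edge v e, ‖h3 x - (o + A x)‖ ≤ 1 / 2 ^ (n₂ + 1)) ∧
      dvar p h3 v e 0 ≤ ENNReal.ofReal
        (((9 / 4 * M) ^ p + 4 ^ p * (κ + M ^ p)) * (1 / 2 ^ (n₂ + k₁)) ^ p)

/-- **(U2)** (owner helper225) uniform collar for plates -/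
def SpecU2 : Prop :=
  GB932.SpecCollar2 → ∀ k₁ : ℕ, 3 ≤ k₁ → ∃ ρ > 0, ∀ (v : V) (n₂ k₀ : ℕ) (z : Fin 3 → ℤ)
    (k : Fin 3) (d : ℝ), 1 ≤ k₀ → 0 < d →
    GB932.Collar2 (plo v n₂ k₁ k₀ z k d) (phi v n₂ k₁ k₀ z k d) k (mg n₂ k₁ k₀)
      (mpt2 v n₂ k₁ k₀ z k) (ρ / 2 ^ (n₂ + k₁))

/-- **(MAIN)** (owner helper937) the composition -/
def SpecPlateOf : Prop :=
  GB932.SpecGB2 → GB932.SpecCollar2 → SpecLens → SpecLa2 → SpecNear2 → SpecPat2 → SpecDomCut2 →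
    SpecLev2 → SpecS1' → SpecS2' → SpecRim → SpecVert2 → SpecBdIn2 → SpecMod2 → SpecGap2 →
    SpecU2 → SpecPlate

end P073.PL
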