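import Vale.Agent.P073.PL.Spec
import Vale.Agent.P073.PL.Collar225
import Vale.Agent.P073.GBM.CellU

/-!
# P073, block PLATE: `SpecU2` (uniform collar for plates)
-/

open Set Metric Topology Filter

namespace P073.PL.U225

open P073 P073.GB73 P073.GBM P073.GBM.Rho P073.Cell P073.Plate P073.Plate.C225
open Vale.Agent.P073.St (V)
open Vale.Agent.P073.AB
open Vale.Agent.P073.SQ (ev)

/-- the marked points -/
def feet2 (v : V) (n₂ k₁ k₀ : ℕ) (z : Fin 3 → ℤ) (k : Fin 3) : Set V :=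
  {x | x k = v k + z k / 2 ^ n₂ ∧ ∃ l, l ≠ k ∧ (x l = ra v n₂ k₁ k₀ z l ∨ x l = rb v n₂ k₁ k₀ z l) ∧
    ∀ j, j ≠ l → j ≠ k → (∃ i : ℤ, x j = v j + i * (1 / 2 ^ (n₂ + k₁))) ∧
      ra v n₂ k₁ k₀ z j + rm n₂ k₁ k₀ ≤ x j ∧ x j ≤ rb v n₂ k₁ k₀ z j - rm n₂ k₁ k₀}

theorem ht_eq (v : V) (n₂ k₁ k₀ : ℕ) (z : Fin 3 → ℤ) (k : Fin 3) :
    ht v (gN n₂ k₁ k₀) k (z k * 2 ^ (k₁ + k₀)) = v k + z k / 2 ^ n₂ := by
  unfold ht gN
  push_cast
  simp only [pow_add]
  field_simp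

theorem mpt2_eq (v : V) (n₂ k₁ k₀ : ℕ) (z : Fin 3 → ℤ) (k : Fin 3) :
    mpt2 v n₂ k₁ k₀ z k = feet2 v n₂ k₁ k₀ z k := by
  have hP : ∀ n : ℕ, (0:ℝ) < 2 ^ n := fun n => by positivity
  -- bounds in integer form
  have hlow : ∀ (j : Fin 3) (t : ℝ), (ra v n₂ k₁ k₀ z j + rm n₂ k₁ k₀ ≤
      v j + t / 2 ^ (n₂ + k₁ + k₀)) ↔ (z j * 2 ^ (k₁ + k₀) + 2 * 2 ^ k₀ : ℝ) ≤ t := by
    intro j t
    have e1 : ra v n₂ k₁ k₀ z j + rm n₂ k₁ k₀ =
        v j + (z j * 2 ^ (k₁ + k₀) + 2 * 2 ^ k₀ : ℝ) / 2 ^ (n₂ + k₁ + k₀) := by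
      simp only [ra, rm, pow_add]; field_simp; ring
    rw [e1, add_le_add_iff_left, div_le_div_iff_of_pos_right (hP _)]
  have hupp : ∀ (j : Fin 3) (t : ℝ), (v j + t / 2 ^ (n₂ + k₁ + k₀) ≤
      rb v n₂ k₁ k₀ z j - rm n₂ k₁ k₀) ↔ t ≤ ((z j + 1) * 2 ^ (k₁ + k₀) - 2 * 2 ^ k₀ : ℝ) := by
    intro j t
    have e1 : rb v n₂ k₁ k₀ z j - rm n₂ k₁ k₀ =
        v j + ((z j + 1) * 2 ^ (k₁ + k₀) - 2 * 2 ^ k₀ : ℝ) / 2 ^ (n₂ + k₁ + k₀) := by
      simp only [rb, rm, pow_add]; field_simp; ring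
    rw [e1, add_le_add_iff_left, div_le_div_iff_of_pos_right (hP _)]
  have hra : ∀ k, ra v n₂ k₁ k₀ z k =
      v k + (al k₁ k₀ z k : ℝ) / 2 ^ (n₂ + k₁ + k₀) + 1 / 2 / 2 ^ (n₂ + k₁ + k₀) := by
    intro k
    simp only [ra, al]; push_cast; simp only [pow_add]; field_simp; ring
  have hrb : ∀ k, rb v n₂ k₁ k₀ z k =
      v k + (be k₁ k₀ z k : ℝ) / 2 ^ (n₂ + k₁ + k₀) + 1 / 2 / 2 ^ (n₂ + k₁ + k₀) := by
    intro k
    simp only [rb, be]; push_cast; simp only [pow_add]; field_simp; ring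
  have hkk : v k + ((z k * 2 ^ (k₁ + k₀) : ℤ) : ℝ) / 2 ^ (n₂ + k₁ + k₀) = v k + z k / 2 ^ n₂ := by
    push_cast; simp only [pow_add]; field_simp
  ext x
  constructor
  · rintro ⟨w, l, ⟨⟨hlk, hwk, hl, hj⟩, hm⟩, rfl⟩
    refine ⟨?_, l, hlk, ?_, fun j hjl hjk => ?_⟩
    · rw [mid_apply, if_neg (Ne.symm hlk), add_zero, hwk]
      exact hkk
    · rw [hra, hrb, mid_apply, if_pos rfl]
      rcases hl with hl | hl
      · left; rw [hl]
      · right; rw [hl]
    · obtain ⟨⟨i, hi⟩, h1, h2⟩ := hm j hjl hjk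
      have e1 : Cell.mid v (gN n₂ k₁ k₀) w l j = v j + w j / 2 ^ (n₂ + k₁ + k₀) := by
        rw [mid_apply, if_neg hjl, add_zero]
      rw [e1, hlow, hupp]
      refine ⟨⟨i, ?_⟩, by exact_mod_cast h1, by exact_mod_cast h2⟩
      rw [hi]
      push_cast
      simp only [pow_add]
      field_simp
  · rintro ⟨hk, l, hlk, hl, hj⟩
    choose! i hi using fun j hjl hjk => (hj j hjl hjk).1
    set w : Fin 3 → ℤ := fun j => if j = k then z k * 2 ^ (k₁ + k₀) else
      if j = l then (if x l = ra v n₂ k₁ k₀ z l then al k₁ k₀ z l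
      else be k₁ k₀ z l) else 2 ^ k₀ * i j with hw
    have hwk : w k = z k * 2 ^ (k₁ + k₀) := by simp only [hw, if_true]
    have hwl : w l = al k₁ k₀ z l ∧ x l = ra v n₂ k₁ k₀ z l ∨
        w l = be k₁ k₀ z l ∧ x l = rb v n₂ k₁ k₀ z l := by
      by_cases h : x l = ra v n₂ k₁ k₀ z l
      · left; exact ⟨by simp only [hw, if_neg hlk, if_true, if_pos h], h⟩
      · right
        exact ⟨by simp only [hw, if_neg hlk, if_true, if_neg h], hl.resolve_left h⟩
    have hwj : ∀ j, j ≠ l → j ≠ k → w j = 2 ^ k₀ * i j ∧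
        x j = v j + w j / 2 ^ (n₂ + k₁ + k₀) := by
      intro j hjl hjk
      have e1 : w j = 2 ^ k₀ * i j := by simp only [hw, if_neg hjl, if_neg hjk]
      refine ⟨e1, ?_⟩
      rw [hi j hjl hjk, e1]
      push_cast
      simp only [pow_add]
      field_simp
    have hbd : ∀ j, j ≠ l → j ≠ k → z j * 2 ^ (k₁ + k₀) + 2 * 2 ^ k₀ ≤ w j ∧
        w j ≤ (z j + 1) * 2 ^ (k₁ + k₀) - 2 * 2 ^ k₀ := by
      intro j hjl hjk
      obtain ⟨-, h1, h2⟩ := hj j hjl hjk
      rw [(hwj j hjl hjk).2, hlow] at h1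
      rw [(hwj j hjl hjk).2, hupp] at h2
      exact ⟨by exact_mod_cast h1, by exact_mod_cast h2⟩
    refine ⟨w, l, ⟨⟨hlk, hwk, ?_, fun j hjl hjk => ?_⟩, fun j hjl hjk => ?_⟩, ?_⟩
    · rcases hwl with h | h
      · exact Or.inl h.1
      · exact Or.inr h.1
    · obtain ⟨h1, h2⟩ := hbd j hjl hjk
      have h3 : (1:ℤ) ≤ 2 ^ k₀ := one_le_pow₀ (by norm_num)
      simp only [al, be]
      constructor <;> linarith
    · obtain ⟨h1, h2⟩ := hbd j hjl hjk
      exact ⟨⟨i j, (hwj j hjl hjk).1⟩, h1, h2⟩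
    · funext j
      rw [mid_apply]
      by_cases hjl : j = l
      · subst hjl
        rw [if_pos rfl]
        rcases hwl with ⟨h1, h2⟩ | ⟨h1, h2⟩
        · rw [h1, h2, hra]
        · rw [h1, h2, hrb]
      · rw [if_neg hjl, add_zero]
        by_cases hjk : j = k
        · rw [hjk, hk, hwk]
          exact hkk.symm
        · exact (hwj j hjl hjk).2

/-- marked points of the normalised box -/
def feet02 (w : ℝ) (k : Fin 3) : Set V :=
  {x | x k = 0 ∧ ∃ l, l ≠ k ∧ (x l = w ∨ x l = 1 - w) ∧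
    ∀ j, j ≠ l → j ≠ k → (∃ i : ℤ, x j = i * w) ∧ 2 * w ≤ x j ∧ x j ≤ 1 - 2 * w}

theorem feet02_finite {w : ℝ} (hw : 0 < w) (k : Fin 3) : (feet02 w k).Finite := by
  set I : Set ℝ := {0, w, 1 - w} ∪ (fun i : ℤ => (i : ℝ) * w) '' Icc 0 ⌈1 / w⌉ with hI
  have hfin : I.Finite := (((finite_singleton _).insert _).insert _).union
    ((finite_Icc _ _).image _)
  refine (Set.Finite.pi' (t := fun _ : Fin 3 => I) fun _ => hfin).subset fun x hx => ?_
  obtain ⟨hk, l, -, hl, hj⟩ := hx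
  intro j
  by_cases hjk : j = k
  · left; left; rw [hjk]; exact hk
  by_cases h : j = l
  · left; right
    rw [h]; exact hl
  · right
    obtain ⟨⟨i, hi⟩, h1, h2⟩ := hj j h hjk
    refine ⟨i, ⟨?_, ?_⟩, hi.symm⟩
    · have : (0:ℝ) < i := by
        rw [hi] at h1
        by_contra hneg
        have := mul_nonpos_of_nonpos_of_nonneg (not_lt.1 hneg) hw.le
        linarith
      exact_mod_cast this.le
    · have h3 : (i:ℝ) ≤ 1 / w := by
        rw [le_div_iff₀ hw]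
        rw [hi] at h2
        linarith
      exact_mod_cast h3.trans (Int.le_ceil _)

theorem collar2_mono {a b : V} {k : Fin 3} {m : ℝ} {X : Set V} {ρ ρ' : ℝ} (h : ρ' ≤ ρ)
    (H : GB932.Collar2 a b k m X ρ) : GB932.Collar2 a b k m X ρ' := fun φ h1 h2 =>
  H φ h1 fun x hx i hi => (h2 x hx i hi).trans h

end P073.PL.U225

namespace P073.PL

open P073 P073.GB73 P073.GBM P073.GBM.Rho P073.Cell P073.Plate P073.Plate.C225 P073.PL.U225
open Vale.Agent.P073.St (V)
open Vale.Agent.P073.AB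
open Vale.Agent.P073.SQ (ev)

/-- **(U2)** uniform collar for plates -/
theorem specU2 : SpecU2 := by
  intro hC k₁ hk₁
  set w : ℝ := 1 / 2 ^ k₁ with hwd
  have hw : 0 < w := by positivity
  have hw8 : 8 * w ≤ 1 := by
    have h1 : (8:ℝ) ≤ 2 ^ k₁ := by
      calc (8:ℝ) = 2 ^ 3 := by norm_num
        _ ≤ 2 ^ k₁ := pow_le_pow_right₀ (by norm_num) hk₁
    rw [hwd, mul_one_div, div_le_one (by positivity)]
    exact h1
  choose r hr0 hr using fun k : Fin 3 => hC k (fun _ => w) (fun _ => 1 - w) 0 w hw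
    (fun _ _ => by linarith) (feet02 w k) (feet02_finite hw k) (by
      rintro x ⟨hk, l, hl, hlx, hj⟩
      refine ⟨hk, l, hl, hlx, fun j hjl hjk => ?_⟩
      obtain ⟨-, h1, h2⟩ := hj j hjl hjk
      constructor <;> linarith)
  set ρ0 : ℝ := min (r 0) (min (r 1) (r 2)) with hρ0d
  have hρ0 : 0 < ρ0 := lt_min (hr0 0) (lt_min (hr0 1) (hr0 2))
  have hρk : ∀ k, ρ0 ≤ r k := by
    intro k
    fin_cases k
    · exact min_le_left _ _
    · exact (min_le_right _ _).trans (min_le_left _ _)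
    · exact (min_le_right _ _).trans (min_le_right _ _)
  refine ⟨ρ0 / 2 * 2 ^ k₁, by positivity, fun v n₂ k₀ z k d hk₀ hd => ?_⟩
  set N : ℝ := 2 ^ n₂ with hNd
  have hN : 0 < N := by positivity
  set μ : ℝ := 1 / 2 ^ (k₁ + k₀) / 2 with hμd
  have hμ0 : 0 ≤ μ := by positivity
  have hμ4 : 4 * μ ≤ w := by
    have h1 : (2:ℝ) ≤ 2 ^ k₀ := by
      calc (2:ℝ) = 2 ^ 1 := by norm_num
        _ ≤ 2 ^ k₀ := pow_le_pow_right₀ (by norm_num) hk₀
    have h2 : μ = w / 2 ^ k₀ / 2 := by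
      rw [hμd, hwd, pow_add]; field_simp
    have h3 : w / 2 ^ k₀ ≤ w / 2 := div_le_div_of_nonneg_left hw.le (by norm_num) h1
    rw [h2]; linarith
  set c : V := fun k => v k + z k / N with hcd
  have e1 : (1:ℝ) / 2 ^ (n₂ + k₁) = w / N := by rw [hwd, hNd, pow_add]; field_simp
  have e2 : (1:ℝ) / 2 ^ (n₂ + k₁ + k₀) / 2 = μ / N := by
    rw [hμd, hNd, pow_add, pow_add, pow_add]; field_simp
  have ha : ∀ k, ra v n₂ k₁ k₀ z k = c k + (w + μ) / N := by
    intro k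
    simp only [ra, e1, e2, hcd, ← hNd]
    ring
  have hb : ∀ k, rb v n₂ k₁ k₀ z k = c k + (1 - w - μ) / N := by
    intro k
    simp only [rb, e1, e2, hcd, ← hNd]
    ring
  have hm : rm n₂ k₁ k₀ = (w - μ) / N := by
    simp only [rm, e1, e2]; ring
  have hww : w * 2 ^ k₁ = 1 := by rw [hwd]; field_simp
  have hw4 : 4 * w ≤ 1 := by linarith
  have hmp : 0 < w - μ := by linarith
  have hck : c k = v k + z k / 2 ^ n₂ := rfl
  have hD : Dat2 k (plo v n₂ k₁ k₀ z k d) (phi v n₂ k₁ k₀ z k d) c N w μ d := by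
    refine ⟨hN, hw, hw8, hμ0, hμ4, hd, fun j hj => ?_, fun j hj => ?_, ?_, ?_⟩
    · rw [← ha, ← lo_eq]
      exact Function.update_of_ne hj _ _
    · rw [← hb, ← hi_eq]
      exact Function.update_of_ne hj _ _
    · rw [hck, ← ht_eq v n₂ k₁ k₀ z k]
      exact Function.update_self _ _ _
    · rw [hck, ← ht_eq v n₂ k₁ k₀ z k]
      exact Function.update_self _ _ _
  have hmN : ∀ (t s : ℝ) (k : Fin 3), t = c k + s / N ↔ N * (t - c k) = s := by
    intro t s k
    rw [mul_comm, ← eq_div_iff hN.ne']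
    constructor <;> intro h <;> linarith
  rw [mg_eq, hm, mpt2_eq]
  refine transfer2 hD (X0 := feet02 w k) (ρ0 := r k) ?_ ?_ ?_ (hr k (N * d) (by positivity))
  · have e3 : ρ0 / 2 * 2 ^ k₁ / 2 ^ (n₂ + k₁) = ρ0 / 2 / N := by
      rw [hNd, pow_add]; field_simp
    rw [e3]
    have : 2 * N * (ρ0 / 2 / N) = ρ0 := by field_simp
    exact this.le.trans (hρk k)
  · rintro x ⟨hk, l, hlk, hl, hj⟩
    refine ⟨?_, l, hlk, ?_, fun j hjl hjk => ?_⟩
    · show psi w (sl k (w / (w - μ)) k) (N * (x k - c k)) = 0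
      rw [sl_k, psi_one, hk, hck, sub_self, mul_zero]
    · show psi w (sl k (w / (w - μ)) l) (N * (x l - c l)) = w ∨
        psi w (sl k (w / (w - μ)) l) (N * (x l - c l)) = 1 - w
      rw [sl_ne hlk]
      rcases hl with hl | hl
      · left
        have : N * (x l - c l) = w + μ := (hmN _ _ l).1 (by rw [hl, ha])
        rw [this, psi_lo hw4 (by linarith)]
        field_simp
        ring
      · right
        have : N * (x l - c l) = 1 - w - μ := (hmN _ _ l).1 (by rw [hl, hb])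
        rw [this, psi_hi hw4 (by linarith)]
        field_simp
        ring
    · obtain ⟨⟨i, hi⟩, h1, h2⟩ := hj j hjl hjk
      have k1 : 2 * w ≤ N * (x j - c j) := by
        rw [hm, ha] at h1
        have h3 : c j + (2 * w) / N ≤ x j := by
          have : c j + (w + μ) / N + (w - μ) / N = c j + (2 * w) / N := by ring
          linarith
        have h4 : (2 * w) / N ≤ x j - c j := by linarith
        rw [div_le_iff₀ hN] at h4
        linarith
      have k2 : N * (x j - c j) ≤ 1 - 2 * w := by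
        rw [hm, hb] at h2
        have h3 : x j ≤ c j + (1 - 2 * w) / N := by
          have : c j + (1 - w - μ) / N - (w - μ) / N = c j + (1 - 2 * w) / N := by ring
          linarith
        have h4 : x j - c j ≤ (1 - 2 * w) / N := by linarith
        rw [le_div_iff₀ hN] at h4
        linarith
      show (∃ i : ℤ, psi w (sl k (w / (w - μ)) j) (N * (x j - c j)) = i * w) ∧
        2 * w ≤ psi w (sl k (w / (w - μ)) j) (N * (x j - c j)) ∧
        psi w (sl k (w / (w - μ)) j) (N * (x j - c j)) ≤ 1 - 2 * w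
      rw [sl_ne hjk, psi_mid k1 k2]
      refine ⟨⟨i - z j * 2 ^ k₁, ?_⟩, k1, k2⟩
      rw [hi, e1]
      push_cast
      simp only [hcd]
      have : (z j : ℝ) = z j * (w * 2 ^ k₁) := by rw [hww, mul_one]
      field_simp
      linear_combination -this
  · rintro y ⟨hk, l, hlk, hl, hj⟩
    refine ⟨?_, l, hlk, ?_, fun j hjl hjk => ?_⟩
    · show c k + psi w (sl k ((w - μ) / w) k) (y k) / N = v k + z k / 2 ^ n₂
      rw [sl_k, psi_one, hk, zero_div, add_zero, hck]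
    · show c l + psi w (sl k ((w - μ) / w) l) (y l) / N = ra v n₂ k₁ k₀ z l ∨
        c l + psi w (sl k ((w - μ) / w) l) (y l) / N = rb v n₂ k₁ k₀ z l
      rw [sl_ne hlk]
      rcases hl with hl | hl
      · left
        rw [ha, hl, psi_lo hw4 (by linarith)]
        field_simp
        ring
      · right
        rw [hb, hl, psi_hi hw4 (by linarith)]
        field_simp
        ring
    · obtain ⟨⟨i, hi⟩, h1, h2⟩ := hj j hjl hjk
      show (∃ i : ℤ, c j + psi w (sl k ((w - μ) / w) j) (y j) / N =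
        v j + i * (1 / 2 ^ (n₂ + k₁))) ∧
        ra v n₂ k₁ k₀ z j + rm n₂ k₁ k₀ ≤ c j + psi w (sl k ((w - μ) / w) j) (y j) / N ∧
        c j + psi w (sl k ((w - μ) / w) j) (y j) / N ≤ rb v n₂ k₁ k₀ z j - rm n₂ k₁ k₀
      rw [sl_ne hjk, psi_mid h1 h2, ha, hb, hm, e1]
      refine ⟨⟨i + z j * 2 ^ k₁, ?_⟩, ?_, ?_⟩
      · rw [hi]
        push_cast
        simp only [hcd]
        have : (z j : ℝ) = z j * (w * 2 ^ k₁) := by rw [hww, mul_one]
        field_simp
        linear_combination this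
      · have h3 : (2 * w) / N ≤ y j / N := div_le_div_of_nonneg_right h1 hN.le
        have : c j + (w + μ) / N + (w - μ) / N = c j + (2 * w) / N := by ring
        linarith
      · have h3 : y j / N ≤ (1 - 2 * w) / N := div_le_div_of_nonneg_right h2 hN.le
        have : c j + (1 - w - μ) / N - (w - μ) / N = c j + (1 - 2 * w) / N := by ring
        linarith

end P073.PL
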