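import Vale.Agent.P073.PL.Spec
import Vale.Agent.P073.GBM.Vert225

/-!
# P073, block PLATE: vertices in the box (`SpecVert2`)
-/

open Set Metric Topology Filter MeasureTheory
open scoped ENNReal NNReal

namespace P073.PL

open P073 P073.PR720 P073.GB73 P073.GBM P073.Gauge P073.GB1W P073.Cell P073.Plate
open P073.Cell.Vert225
open Vale.Agent.P073.St (V)
open Vale.Agent.P073.AB
open Vale.Agent.P073.SQ (ev)

/-- **(VERT2)** -/
theorem specVert2 : SpecVert2 := by
  intro Vx B J I e0 e1 inc qC Ω K Λ h v N k ζ q0 q1 o A μ η cu cd hN hμ α β d T0 hR hT0 hq hd hdq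
    t ht' u
  obtain ⟨ht0, htj⟩ := hT0 t ht'
  have hP : (0:ℝ) < 2 ^ N := by positivity
  have hpos : (0:ℝ) < 1 / 2 ^ N := by positivity
  have h8 : (1:ℝ) / 8 / 2 ^ N = 1 / 2 ^ N / 8 := by ring
  have h22 : (2:ℝ) / 2 ^ N = 2 * (1 / 2 ^ N) := by ring
  have h34 : (3:ℝ) / 4 / 2 ^ N = 3 / 4 * (1 / 2 ^ N) := by ring
  -- the levels are close to one
  obtain ⟨i0, hi0⟩ : ∃ i0 : Fin 3, i0 ≠ k := by
    fin_cases k
    · exact ⟨1, by decide⟩
    · exact ⟨0, by decide⟩
    · exact ⟨0, by decide⟩
  have hdd : ∀ i, i ≠ k → (1:ℝ) ≤ (β i : ℝ) - α i := by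
    intro i hi
    have h1 : (α i : ℝ) + 1 ≤ β i := by exact_mod_cast (hR i hi).1
    linarith
  have ht14 : |t - 1| ≤ 1 / 4 := by
    have h1 := htj i0 hi0
    have h2 := hdd i0 hi0
    have h3 := abs_nonneg (t - 1)
    nlinarith
  have htl : 3 / 4 ≤ t := by linarith [(abs_le.1 ht14).1]
  have htu : t ≤ 5 / 4 := by linarith [(abs_le.1 ht14).2]
  obtain ⟨b, hb⟩ := K.vert_arc u
  have hub : K.y u ∈ K.arc b := by
    have h1 := (K.ball b).1
    rcases hb with rfl | rfl
    · exact h1 (Or.inl rfl)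
    · exact h1 (Or.inr rfl)
  have hbox : K.y u ∈ interior (Icc (rlo v N k ζ α d) (rhi v N k ζ β d)) ↔
      |K.y u k - ht v N k ζ| < d ∧ ∀ i, i ≠ k → hp v N α i < K.y u i ∧ K.y u i < hp v N β i := by
    rw [interior_Icc_pi']
    have ek : rlo v N k ζ α d k = ht v N k ζ - d := Function.update_self _ _ _
    have ek' : rhi v N k ζ β d k = ht v N k ζ + d := Function.update_self _ _ _
    have ej : ∀ i, i ≠ k → rlo v N k ζ α d i = hp v N α i := fun i hi =>
      Function.update_of_ne hi _ _
    have ej' : ∀ i, i ≠ k → rhi v N k ζ β d i = hp v N β i := fun i hi =>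
      Function.update_of_ne hi _ _
    constructor
    · intro h1
      refine ⟨?_, fun i hi => ?_⟩
      · have := h1 k
        rw [ek, ek'] at this
        rw [abs_lt]
        constructor <;> linarith [this.1, this.2]
      · have := h1 i
        rwa [ej i hi, ej' i hi] at this
    · rintro ⟨h1, h2⟩ i
      by_cases hi : i = k
      · subst hi
        rw [ek, ek']
        rw [abs_lt] at h1
        constructor <;> linarith [h1.1, h1.2]
      · rw [ej i hi, ej' i hi]
        exact h2 i hi
  rw [hbox]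
  show _ ↔ h (K.y u) ∈ interior ((bBody (o + A (bc2 v N k ζ α β)) A (bw2 N k α β) T0).at t)
  rw [mem_int ht0]
  have ebk : bc2 v N k ζ α β k = ht v N k ζ := if_pos rfl
  have ewk : bw2 N k α β k = 3 / 4 / 2 ^ N := if_pos rfl
  have ebj : ∀ i, i ≠ k → bc2 v N k ζ α β i = v i + (α i + β i + 1) / 2 / 2 ^ N := fun i hi =>
    if_neg hi
  have ewj : ∀ i, i ≠ k → bw2 N k α β i = (β i - α i) / 2 / 2 ^ N := fun i hi => if_neg hi
  rcases hN.off b with ⟨w, l, hlk, hwk, hbe, hsub⟩ | hoff
  · -- a lattice edge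
    have hx : K.y u ∈ edge v ((N, w), l) := hbe ▸ hub
    have hsup := hN.sup w l hlk hwk hsub (K.y u) hx
    obtain ⟨a, ha, hak⟩ : ∃ a : Fin 3 → ℤ, K.y u = pt v N a ∧ a k = ζ := by
      rcases hb with rfl | rfl
      · exact ⟨w, hN.y0 b w l hbe, hwk⟩
      · refine ⟨fun j => if j = l then w j + 1 else w j, ?_, ?_⟩
        · rw [hN.y1 b w l hbe]
          funext j
          by_cases hj : j = l
          · subst hj
            simp only [Pi.add_apply, Pi.smul_apply, smul_eq_mul, ev_same, mul_one, pt_succ]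
            simp [pt]
          · simp only [Pi.add_apply, Pi.smul_apply, smul_eq_mul, ev_of_ne hj, mul_zero, add_zero]
            simp [pt, hj]
        · simp only [if_neg (Ne.symm hlk)]
          exact hwk
    have h3 : ∀ j, K.y u j = v j + a j / 2 ^ N := fun j => by rw [ha]; rfl
    have h1 : ∀ j, |A.symm (h (K.y u) - o) j - (v j + a j / 2 ^ N)| ≤ 1 / 8 / 2 ^ N := by
      intro j
      have h2 := (norm_le_pi_norm (A.symm (h (K.y u) - o) - K.y u) j).trans (hsup.trans hμ)
      rwa [Real.norm_eq_abs, Pi.sub_apply, h3 j] at h2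
    have hht : v k + (a k : ℝ) / 2 ^ N = ht v N k ζ := by rw [hak]; rfl
    have hkey : ∀ j, j ≠ k → ((hp v N α j < K.y u j ∧ K.y u j < hp v N β j) ↔
        |A.symm (h (K.y u) - o) j - bc2 v N k ζ α β j| < t * bw2 N k α β j) := by
      intro j hj
      rw [h3 j, ebj j hj, ewj j hj]
      exact coord hP (h1 j) (htj j hj) (hR j hj).1
    constructor
    · rintro ⟨-, h4⟩ j
      by_cases hj : j = k
      · subst hj
        rw [ebk, ewk]
        have h5 := h1 j
        rw [hht, h8] at h5
        rw [h34]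
        have h6 : 3 / 4 * (3 / 4 * (1 / 2 ^ N)) ≤ t * (3 / 4 * (1 / 2 ^ N)) :=
          mul_le_mul_of_nonneg_right htl (by positivity)
        linarith
      · exact (hkey j hj).1 (h4 j hj)
    · intro h4
      refine ⟨?_, fun j hj => (hkey j hj).2 (h4 j)⟩
      rw [h3 k, hht, sub_self, abs_zero]
      exact hd
  · -- far away
    constructor
    · rintro ⟨hxk, hx⟩
      exfalso
      have hx' : ∀ j, j ≠ k → q0 j + 2 / 2 ^ N < K.y u j ∧ K.y u j < q1 j - 2 / 2 ^ N :=
        fun j hj => ⟨(hq j hj).1.trans_lt (hx j hj).1, (hx j hj).2.trans_le (hq j hj).2⟩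
      have hmid := hN.lat.mid
      have hxi : K.y u ∈ interior (Icc q0 q1) := by
        rw [interior_Icc_pi']
        intro j
        by_cases hj : j = k
        · subst hj
          rw [abs_lt] at hxk
          constructor <;> linarith [hxk.1, hxk.2]
        · have := hx' j hj
          constructor <;> linarith
      obtain ⟨z, l, hlk, hzk, hz⟩ := hN.lat.arc b ⟨K.y u, hub, hxi⟩
      have hxe : K.y u ∈ edge v ((N, z), l) := hz ▸ hub
      have hzk' : ∀ y ∈ edge v ((N, z), l), y k = ht v N k ζ := by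
        intro y hy
        rw [(mem_edge.1 hy).1 k (Ne.symm hlk)]
        show v k + (z k : ℝ) / 2 ^ N = _
        rw [hzk]; rfl
      have hlt := hN.lat.lt k
      have hsub : edge v ((N, z), l) ⊆ Icc q0 q1 := by
        intro y hy
        refine ⟨fun j => ?_, fun j => ?_⟩
        · by_cases hj : j = k
          · subst hj
            rw [hzk' y hy]; linarith
          · linarith [(abs_le.1 (edge_dist hxe hy j)).1, (hx' j hj).1]
        · by_cases hj : j = k
          · subst hj
            rw [hzk' y hy]; linarith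
          · linarith [(abs_le.1 (edge_dist hxe hy j)).2, (hx' j hj).2]
      have hsup := hN.sup z l hlk hzk hsub (K.y u) hxe
      have h2 : ∀ j, |A.symm (h (K.y u) - o) j - K.y u j| ≤ 1 / 8 * (1 / 2 ^ N) := by
        intro j
        have h2 := (norm_le_pi_norm (A.symm (h (K.y u) - o) - K.y u) j).trans (hsup.trans hμ)
        rw [Real.norm_eq_abs, Pi.sub_apply, h8] at h2
        linarith
      apply hoff (K.y u) hub
      refine ⟨?_, fun j hj => ?_⟩
      · have h5 := h2 k
        rw [hzk' _ hxe] at h5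
        linarith
      · have h5 := abs_le.1 (h2 j)
        have := hx' j hj
        rw [h22] at this
        constructor <;> linarith [h5.1, h5.2]
    · intro hx
      exfalso
      apply hoff (K.y u) hub
      refine ⟨?_, fun j hj => ?_⟩
      · have h1 := hx k
        rw [ebk, ewk, h34] at h1
        have h6 : t * (3 / 4 * (1 / 2 ^ N)) ≤ 5 / 4 * (3 / 4 * (1 / 2 ^ N)) :=
          mul_le_mul_of_nonneg_right htu (by positivity)
        linarith
      · have h1 := abs_lt.1 (hx j)
        rw [ebj j hj, ewj j hj] at h1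
        have h2 : |(t - 1) * ((β j:ℝ) - α j)| ≤ 1 / 4 := by
          rw [abs_mul, abs_of_pos (by linarith [hdd j hj] : (0:ℝ) < (β j:ℝ) - α j)]
          exact htj j hj
        have h3 : t * (((β j:ℝ) - α j) / 2 / 2 ^ N) ≤ ((β j:ℝ) - α j) / 2 / 2 ^ N +
            1 / 8 / 2 ^ N := by
          have e : t * (((β j:ℝ) - α j) / 2 / 2 ^ N) - ((β j:ℝ) - α j) / 2 / 2 ^ N =
              (t - 1) * ((β j:ℝ) - α j) / 2 / 2 ^ N := by ring
          have : (t - 1) * ((β j:ℝ) - α j) / 2 / 2 ^ N ≤ 1 / 8 / 2 ^ N := by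
            rw [div_le_div_iff_of_pos_right hP]
            linarith [(abs_le.1 h2).2]
          linarith
        have e1 : v j + ((α j:ℝ) + β j + 1) / 2 / 2 ^ N - ((β j:ℝ) - α j) / 2 / 2 ^ N =
            hp v N α j := by
          simp only [hp]; ring
        have e2 : v j + ((α j:ℝ) + β j + 1) / 2 / 2 ^ N + ((β j:ℝ) - α j) / 2 / 2 ^ N =
            hp v N β j := by
          simp only [hp]; ring
        have := hq j hj
        rw [h22] at this
        constructor <;> linarith [h1.1, h1.2]

end P073.PL
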