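import Vale.Agent.P073.PL.Spec
import Vale.Agent.P073.GBM.Vert225

/-!
# P073, block SpecPlate: vertices in the box (`SpecVert2`)
-/

open Set Metric Topology Filter MeasureTheory
open scoped ENNReal NNReal

namespace P073.PL.H644

open P073 P073.PR720 P073.GB73 P073.GBM P073.Gauge P073.GB1W P073.Cell P073.Plate
open Vale.Agent.P073.St (V)
open Vale.Agent.P073.AB
open Vale.Agent.P073.SQ (ev)

/-- membership in the open thin box -/
theorem mem_int_box {v x : V} {N : ℕ} {k : Fin 3} {ζ : ℤ} {α β : Fin 3 → ℤ} {d : ℝ} :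
    x ∈ interior (Icc (rlo v N k ζ α d) (rhi v N k ζ β d)) ↔
      (ht v N k ζ - d < x k ∧ x k < ht v N k ζ + d) ∧
        ∀ i, i ≠ k → hp v N α i < x i ∧ x i < hp v N β i := by
  rw [interior_Icc_pi']
  constructor
  · intro h
    refine ⟨by simpa [rlo, rhi] using h k, fun i hi => ?_⟩
    simpa [rlo, rhi, hi] using h i
  · rintro ⟨h1, h2⟩ i
    by_cases hi : i = k
    · subst hi
      simpa [rlo, rhi] using h1
    · simpa [rlo, rhi, hi] using h2 i hi

/-- **(VERT2)** -/
theorem specVert2 : SpecVert2 := by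
  intro Vx B J I e0 e1 inc qC Ω K Λ h v N k ζ q0 q1 o A μ η cu cd hN hμ α β d T0 hR hT0 hq hd hdq
    t htT u
  obtain ⟨ht0, htj⟩ := hT0 t htT
  have hP : (0:ℝ) < 2 ^ N := by positivity
  have hpos : (0:ℝ) < 1 / 2 ^ N := by positivity
  have h8 : (1:ℝ) / 8 / 2 ^ N = 1 / 2 ^ N / 8 := by ring
  have h22 : (2:ℝ) / 2 ^ N = 2 * (1 / 2 ^ N) := by ring
  have hαβ : ∀ i, i ≠ k → α i < β i := fun i hi => (hR i hi).1
  have hmid := hN.lat.mid
  -- the level is near one
  obtain ⟨i0, hi0⟩ : ∃ i : Fin 3, i ≠ k := exists_ne k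
  have ht1 : |t - 1| ≤ 1 / 4 := by
    have h1 := htj i0 hi0
    have h2 : (1:ℝ) ≤ (β i0:ℝ) - α i0 := by
      have : (α i0:ℝ) + 1 ≤ β i0 := by exact_mod_cast hαβ i0 hi0
      linarith
    calc |t - 1| = |t - 1| * 1 := (mul_one _).symm
      _ ≤ |t - 1| * (β i0 - α i0) := mul_le_mul_of_nonneg_left h2 (abs_nonneg _)
      _ ≤ 1 / 4 := h1
  obtain ⟨ht2, ht3⟩ := abs_le.1 ht1
  have hwk : t * bw2 N k α β k = t * (3 / 4) / 2 ^ N := by simp only [bw2, if_true]; ring
  have hck : bc2 v N k ζ α β k = ht v N k ζ := by simp only [bc2, if_true]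
  obtain ⟨b, hb⟩ := K.vert_arc u
  have hub : K.y u ∈ K.arc b := by
    have h1 := (K.ball b).1
    rcases hb with rfl | rfl
    · exact h1 (Or.inl rfl)
    · exact h1 (Or.inr rfl)
  rw [mem_int_box]
  show _ ↔ h (K.y u) ∈ interior ((bBody (o + A (bc2 v N k ζ α β)) A (bw2 N k α β) T0).at t)
  rw [Vert225.mem_int ht0]
  rcases hN.off b with ⟨w, l, hl, hwζ, hbe, hsub⟩ | hoff
  · -- a lattice edge of the plane
    have hx : K.y u ∈ edge v ((N, w), l) := hbe ▸ hub
    have hsup := hN.sup w l hl hwζ hsub (K.y u) hx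
    obtain ⟨a, ha, hak⟩ : ∃ a : Fin 3 → ℤ, K.y u = pt v N a ∧ a k = ζ := by
      rcases hb with rfl | rfl
      · exact ⟨w, hN.y0 b w l hbe, hwζ⟩
      · refine ⟨fun j => if j = l then w j + 1 else w j, ?_, by simp [hl.symm, hwζ]⟩
        rw [hN.y1 b w l hbe]
        funext j
        by_cases hj : j = l
        · subst hj
          simp only [Pi.add_apply, Pi.smul_apply, smul_eq_mul, ev_same, mul_one, pt_succ]
          simp [pt]
        · simp only [Pi.add_apply, Pi.smul_apply, smul_eq_mul, ev_of_ne hj, mul_zero, add_zero]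
          simp [pt, hj]
    have h1 : ∀ j, |A.symm (h (K.y u) - o) j - (v j + a j / 2 ^ N)| ≤ 1 / 8 / 2 ^ N := by
      intro j
      have h2 := (norm_le_pi_norm (A.symm (h (K.y u) - o) - K.y u) j).trans (hsup.trans hμ)
      rw [Real.norm_eq_abs, Pi.sub_apply] at h2
      have h3 : K.y u j = v j + a j / 2 ^ N := by rw [ha]; rfl
      rwa [h3] at h2
    have h3 : ∀ j, K.y u j = v j + a j / 2 ^ N := fun j => by rw [ha]; rfl
    have h4 : K.y u k = ht v N k ζ := by rw [h3 k, hak]; rfl
    have hco : ∀ j, j ≠ k → ((hp v N α j < K.y u j ∧ K.y u j < hp v N β j) ↔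
        |A.symm (h (K.y u) - o) j - bc2 v N k ζ α β j| < t * bw2 N k α β j) := by
      intro j hj
      have e1 : bc2 v N k ζ α β j = v j + (α j + β j + 1) / 2 / 2 ^ N := by
        simp only [bc2, if_neg hj]
      have e2 : bw2 N k α β j = (β j - α j) / 2 / 2 ^ N := by simp only [bw2, if_neg hj]
      rw [e1, e2, h3 j]
      exact Vert225.coord hP (h1 j) (htj j hj) (hαβ j hj)
    constructor
    · rintro ⟨-, h5⟩ j
      by_cases hj : j = k
      · subst hj
        rw [hwk, hck]
        have h6 := h1 j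
        rw [← h3 j, h4] at h6
        refine h6.trans_lt ?_
        rw [div_lt_div_iff_of_pos_right hP]
        linarith
      · exact (hco j hj).1 (h5 j hj)
    · intro h5
      refine ⟨?_, fun j hj => (hco j hj).2 (h5 j)⟩
      rw [h4]
      constructor <;> linarith
  · -- far away
    constructor
    · rintro ⟨hx1, hx2⟩
      exfalso
      have hx' : ∀ j, j ≠ k → q0 j + 2 / 2 ^ N < K.y u j ∧ K.y u j < q1 j - 2 / 2 ^ N :=
        fun j hj => ⟨(hq j hj).1.trans_lt (hx2 j hj).1, (hx2 j hj).2.trans_le (hq j hj).2⟩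
      have hxi : K.y u ∈ interior (Icc q0 q1) := by
        rw [interior_Icc_pi']
        intro j
        by_cases hj : j = k
        · subst hj
          constructor <;> linarith
        · have := hx' j hj
          constructor <;> linarith
      obtain ⟨z, l, hl, hzζ, hz⟩ := hN.lat.arc b ⟨K.y u, hub, hxi⟩
      have hxe : K.y u ∈ edge v ((N, z), l) := hz ▸ hub
      have hk : ∀ y ∈ edge v ((N, z), l), y k = ht v N k ζ := by
        intro y hy
        rw [mem_edge] at hy
        rw [hy.1 k hl.symm, ← hzζ]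
        rfl
      have hsub : edge v ((N, z), l) ⊆ Icc q0 q1 := by
        intro y hy
        have h1 : ∀ j, q0 j ≤ y j ∧ y j ≤ q1 j := by
          intro j
          by_cases hj : j = k
          · subst hj
            rw [hk y hy]
            constructor <;> linarith
          · have h2 := abs_le.1 (Vert225.edge_dist hxe hy j)
            have := hx' j hj
            constructor <;> linarith
        exact ⟨fun j => (h1 j).1, fun j => (h1 j).2⟩
      have hsup := hN.sup z l hl hzζ hsub (K.y u) hxe
      have h2 : ∀ j, |A.symm (h (K.y u) - o) j - K.y u j| ≤ 1 / 2 ^ N / 8 := by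
        intro j
        have h2 := (norm_le_pi_norm (A.symm (h (K.y u) - o) - K.y u) j).trans (hsup.trans hμ)
        rwa [Real.norm_eq_abs, Pi.sub_apply, h8] at h2
      apply hoff (K.y u) hub
      refine ⟨?_, fun j hj => ?_⟩
      · have h3 := h2 k
        rw [hk _ hxe] at h3
        linarith
      · have h3 := abs_le.1 (h2 j)
        have := hx' j hj
        rw [h22] at this
        constructor <;> linarith
    · intro hx
      exfalso
      apply hoff (K.y u) hub
      refine ⟨?_, fun j hj => ?_⟩
      · have h1 := hx k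
        rw [hwk, hck] at h1
        refine h1.le.trans ?_
        rw [div_le_div_iff_of_pos_right hP]
        linarith
      · have h1 := abs_lt.1 (hx j)
        have hd : (0:ℝ) < (β j:ℝ) - α j := by
          have : (α j:ℝ) < β j := by exact_mod_cast hαβ j hj
          linarith
        have h2 : |(t - 1) * ((β j:ℝ) - α j)| ≤ 1 / 4 := by
          rw [abs_mul, abs_of_pos hd]
          exact htj j hj
        have h3 : t * bw2 N k α β j ≤ bw2 N k α β j + 1 / 8 / 2 ^ N := by
          have e : t * bw2 N k α β j - bw2 N k α β j =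
              (t - 1) * ((β j:ℝ) - α j) / 2 / 2 ^ N := by
            simp only [bw2, if_neg hj]; ring
          have : (t - 1) * ((β j:ℝ) - α j) / 2 / 2 ^ N ≤ 1 / 8 / 2 ^ N := by
            rw [div_le_div_iff_of_pos_right hP]
            linarith [(abs_le.1 h2).2]
          linarith
        have e1 : bc2 v N k ζ α β j - bw2 N k α β j = hp v N α j := by
          simp only [bc2, bw2, hp, if_neg hj]; ring
        have e2 : bc2 v N k ζ α β j + bw2 N k α β j = hp v N β j := by
          simp only [bc2, bw2, hp, if_neg hj]; ring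
        have := hq j hj
        rw [h22] at this
        constructor <;> linarith [h1.1, h1.2]

end P073.PL.H644
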